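import Vale.Agent.P309F.Defs

open MeasureTheory ProbabilityTheory Real Set Filter Topology
open scoped RealInnerProductSpace ENNReal

namespace Vale.Agent.P309F
open Vale.Agent.P309
open Vale.Agent.P226h15

namespace BallAux

/-- Linear substitution on the half line. -/
lemma subst_scale {c : ℝ} (hc : 0 < c) (F : ℝ → ℝ≥0∞) :
    ∫⁻ r in Ioi (0 : ℝ), F r = ∫⁻ x in Ioi (0 : ℝ), ENNReal.ofReal c * F (c * x) := by
  have him : (fun x : ℝ => c * x) '' Ioi 0 = Ioi 0 := by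
    ext y
    constructor
    · rintro ⟨x, hx, rfl⟩
      exact mul_pos hc hx
    · intro hy
      exact ⟨y / c, div_pos hy hc, by field_simp⟩
  have h := lintegral_image_eq_lintegral_abs_deriv_mul (s := Ioi (0 : ℝ)) (f := fun x => c * x)
    (f' := fun _ => c) measurableSet_Ioi
    (fun x _ => by simpa using ((hasDerivAt_id x).const_mul c).hasDerivWithinAt)
    (fun x _ y _ hxy => mul_left_cancel₀ hc.ne' hxy) F
  rw [him] at h
  rw [h]
  simp [abs_of_pos hc]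

/-- The radial integrals, as lower integrals. -/
lemma lint_TT (q : ℕ) :
    ∫⁻ r in Ioi (0 : ℝ), ENNReal.ofReal (r ^ q * rexp (-(1 / 2) * r ^ 2)) =
      ENNReal.ofReal (TT q) := by
  have hint : IntegrableOn (fun r : ℝ => r ^ q * rexp (-(1 / 2) * r ^ 2)) (Ioi 0) := by
    by_contra hc
    have h0 := integral_undef hc
    have h1 := TT_pos q
    unfold TT at h1
    rw [h0] at h1
    exact lt_irrefl _ h1
  have hnn : 0 ≤ᵐ[volume.restrict (Ioi (0 : ℝ))]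
      (fun r : ℝ => r ^ q * rexp (-(1 / 2) * r ^ 2)) := by
    filter_upwards [ae_restrict_mem measurableSet_Ioi] with r hr
    have hr0 : (0 : ℝ) < r := hr
    show 0 ≤ r ^ q * rexp (-(1 / 2) * r ^ 2)
    positivity
  unfold TT
  exact (ofReal_integral_eq_lintegral_ofReal hint hnn).symm

lemma TT_one : TT 1 = 1 := by
  rw [TT_eq]
  norm_num

/-- Scaling of the radial integral. -/
lemma kappa_integral (n : ℕ) {a : ℝ} (ha : 0 < a) :
    ∫⁻ κ in Ioi (0 : ℝ), ENNReal.ofReal (κ ^ (n + 1) * rexp (-(1 / 2) * (a * κ ^ 2))) =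
      ENNReal.ofReal ((√a)⁻¹ ^ (n + 2)) * ENNReal.ofReal (TT (n + 1)) := by
  have hs : 0 < √a := Real.sqrt_pos.2 ha
  have hc : 0 < (√a)⁻¹ := inv_pos.2 hs
  rw [subst_scale hc, ← lint_TT, ← lintegral_const_mul' _ _ ENNReal.ofReal_ne_top]
  refine lintegral_congr fun ρ => ?_
  have h1 : a * ((√a)⁻¹ * ρ) ^ 2 = ρ ^ 2 := by
    have h2 : (√a) ^ 2 = a := Real.sq_sqrt ha.le
    field_simp
    rw [h2]
  rw [h1, ← ENNReal.ofReal_mul hc.le, ← ENNReal.ofReal_mul (by positivity)]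
  congr 1
  rw [mul_pow]
  ring

/-- The map from the half line to the unit interval. -/
noncomputable def gmap (x : ℝ) : ℝ := x / √(1 + x ^ 2)

lemma gmap_deriv (x : ℝ) : HasDerivAt gmap ((√(1 + x ^ 2))⁻¹ ^ 3) x := by
  have h0 : (0 : ℝ) < 1 + x ^ 2 := by positivity
  have hs : 0 < √(1 + x ^ 2) := Real.sqrt_pos.2 h0
  have h1 : HasDerivAt (fun x : ℝ => 1 + x ^ 2) (2 * x) x := by
    have := ((hasDerivAt_id x).pow 2).const_add 1
    simpa using this
  have h2 := h1.sqrt h0.ne'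
  have h3 := (hasDerivAt_id x).div h2 hs.ne'
  have e : (1 * √(1 + x ^ 2) - x * (2 * x / (2 * √(1 + x ^ 2)))) / √(1 + x ^ 2) ^ 2 =
      (√(1 + x ^ 2))⁻¹ ^ 3 := by
    have h4 : (√(1 + x ^ 2)) ^ 2 = 1 + x ^ 2 := Real.sq_sqrt h0.le
    field_simp
    nlinarith [h4]
  rw [← e]
  exact h3

lemma gmap_injOn : InjOn gmap (Ioi 0) := by
  intro x hx y hy hxy
  have hx0 : (0 : ℝ) < x := hx
  have hy0 : (0 : ℝ) < y := hy
  have h1 : (gmap x) ^ 2 = (gmap y) ^ 2 := by rw [hxy]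
  unfold gmap at h1
  rw [div_pow, div_pow, Real.sq_sqrt (by positivity), Real.sq_sqrt (by positivity)] at h1
  have h2 : x ^ 2 = y ^ 2 := by
    field_simp at h1
    nlinarith
  have := (pow_left_inj₀ hx0.le hy0.le (by norm_num)).1 h2
  exact this

lemma gmap_mem {x : ℝ} (hx : 0 < x) : gmap x ∈ Ioo (0 : ℝ) 1 := by
  have h0 : (0 : ℝ) < 1 + x ^ 2 := by positivity
  have hs : 0 < √(1 + x ^ 2) := Real.sqrt_pos.2 h0
  constructor
  · exact div_pos hx hs
  · unfold gmap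
    rw [div_lt_one hs]
    exact Real.lt_sqrt_of_sq_lt (by linarith)

/-- The first radial weight. -/
noncomputable def w1 (n : ℕ) (r : ℝ) : ℝ≥0∞ := ENNReal.ofReal (r ^ (n - 1) * rexp (-(1 / 2) * r ^ 2))

/-- The second radial weight. -/
noncomputable def w2 (κ : ℝ) : ℝ≥0∞ := ENNReal.ofReal (κ * rexp (-(1 / 2) * κ ^ 2))

lemma measurable_w1 (n : ℕ) : Measurable (w1 n) := by
  unfold w1
  fun_prop

lemma measurable_w2 : Measurable w2 := by
  unfold w2
  fun_prop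

/-- The left side of the radial inequality, in one variable. -/
lemma radial_left (n : ℕ) (hn : 1 ≤ n) {φ : ℝ → ℝ≥0∞} (hφ : Measurable φ) :
    ∫⁻ r in Ioi (0 : ℝ), w1 n r * ∫⁻ κ in Ioi (0 : ℝ), w2 κ * φ (r / √(r ^ 2 + κ ^ 2)) ≤
      ENNReal.ofReal (TT (n + 1)) *
        ∫⁻ t in Ioo (0 : ℝ) 1, ENNReal.ofReal (t ^ (n - 1)) * φ t := by
  have hmf : Measurable (fun p : ℝ × ℝ => p.1 / √(p.1 ^ 2 + p.2 ^ 2)) := by fun_prop
  have hmF : Measurable (fun p : ℝ × ℝ => w1 n p.1 * (w2 p.2 * φ (p.1 / √(p.1 ^ 2 + p.2 ^ 2)))) :=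
    ((measurable_w1 n).comp measurable_fst).mul
      ((measurable_w2.comp measurable_snd).mul (hφ.comp hmf))
  have hfib : ∀ r : ℝ, Measurable (fun κ : ℝ => w2 κ * φ (r / √(r ^ 2 + κ ^ 2))) := fun r =>
    measurable_w2.mul (hφ.comp (by fun_prop))
  -- move the weight in, swap
  have e1 : ∫⁻ r in Ioi (0 : ℝ), w1 n r * ∫⁻ κ in Ioi (0 : ℝ), w2 κ * φ (r / √(r ^ 2 + κ ^ 2)) =
      ∫⁻ κ in Ioi (0 : ℝ), ∫⁻ r in Ioi (0 : ℝ), w1 n r * (w2 κ * φ (r / √(r ^ 2 + κ ^ 2))) := by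
    have : ∀ r : ℝ, w1 n r * ∫⁻ κ in Ioi (0 : ℝ), w2 κ * φ (r / √(r ^ 2 + κ ^ 2)) =
        ∫⁻ κ in Ioi (0 : ℝ), w1 n r * (w2 κ * φ (r / √(r ^ 2 + κ ^ 2))) := fun r =>
      (lintegral_const_mul _ (hfib r)).symm
    simp_rw [this]
    exact lintegral_lintegral_swap hmF.aemeasurable
  -- substitute r = κ x
  have e2 : ∀ κ ∈ Ioi (0 : ℝ),
      ∫⁻ r in Ioi (0 : ℝ), w1 n r * (w2 κ * φ (r / √(r ^ 2 + κ ^ 2))) =
      ∫⁻ x in Ioi (0 : ℝ), ENNReal.ofReal (x ^ (n - 1)) * φ (gmap x) *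
        ENNReal.ofReal (κ ^ (n + 1) * rexp (-(1 / 2) * ((1 + x ^ 2) * κ ^ 2))) := by
    intro κ hκ
    have hκ0 : (0 : ℝ) < κ := hκ
    rw [subst_scale hκ0]
    refine setLIntegral_congr_fun measurableSet_Ioi fun x hx => ?_
    have hx0 : (0 : ℝ) < x := hx
    have h1 : κ * x / √((κ * x) ^ 2 + κ ^ 2) = gmap x := by
      unfold gmap
      have h2 : (κ * x) ^ 2 + κ ^ 2 = κ ^ 2 * (1 + x ^ 2) := by ring
      rw [h2, Real.sqrt_mul (by positivity), Real.sqrt_sq hκ0.le]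
      have h0 : (0 : ℝ) < √(1 + x ^ 2) := Real.sqrt_pos.2 (by positivity)
      field_simp
    rw [h1]
    unfold w1 w2
    have hpos1 : 0 ≤ (κ * x) ^ (n - 1) * rexp (-(1 / 2) * (κ * x) ^ 2) := by positivity
    have hpos2 : 0 ≤ κ * rexp (-(1 / 2) * κ ^ 2) := by positivity
    have e3 : ENNReal.ofReal κ * (ENNReal.ofReal ((κ * x) ^ (n - 1) * rexp (-(1 / 2) * (κ * x) ^ 2)) *
          (ENNReal.ofReal (κ * rexp (-(1 / 2) * κ ^ 2)) * φ (gmap x))) =
        (ENNReal.ofReal (κ * ((κ * x) ^ (n - 1) * rexp (-(1 / 2) * (κ * x) ^ 2)) *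
          (κ * rexp (-(1 / 2) * κ ^ 2)))) * φ (gmap x) := by
      have e6 : ENNReal.ofReal (κ * ((κ * x) ^ (n - 1) * rexp (-(1 / 2) * (κ * x) ^ 2)) *
          (κ * rexp (-(1 / 2) * κ ^ 2))) = ENNReal.ofReal κ *
          ENNReal.ofReal ((κ * x) ^ (n - 1) * rexp (-(1 / 2) * (κ * x) ^ 2)) *
          ENNReal.ofReal (κ * rexp (-(1 / 2) * κ ^ 2)) := by
        rw [ENNReal.ofReal_mul (mul_nonneg hκ0.le hpos1), ENNReal.ofReal_mul hκ0.le]
      rw [e6]
      ring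
    rw [e3]
    have e4 : κ * ((κ * x) ^ (n - 1) * rexp (-(1 / 2) * (κ * x) ^ 2)) * (κ * rexp (-(1 / 2) * κ ^ 2)) =
        x ^ (n - 1) * (κ ^ (n + 1) * rexp (-(1 / 2) * ((1 + x ^ 2) * κ ^ 2))) := by
      have h5 : rexp (-(1 / 2) * ((1 + x ^ 2) * κ ^ 2)) =
          rexp (-(1 / 2) * (κ * x) ^ 2) * rexp (-(1 / 2) * κ ^ 2) := by
        rw [← Real.exp_add]
        congr 1
        ring
      have h6 : κ ^ (n + 1) = κ ^ (n - 1) * κ * κ := by
        have : n + 1 = (n - 1) + 1 + 1 := by omega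
        rw [this, pow_succ, pow_succ]
      rw [h5, h6, mul_pow]
      ring
    rw [e4, ENNReal.ofReal_mul (by positivity)]
    ring
  rw [e1, setLIntegral_congr_fun measurableSet_Ioi e2]
  -- swap back and integrate in κ
  have hmG : Measurable (fun p : ℝ × ℝ => ENNReal.ofReal (p.2 ^ (n - 1)) * φ (gmap p.2) *
      ENNReal.ofReal (p.1 ^ (n + 1) * rexp (-(1 / 2) * ((1 + p.2 ^ 2) * p.1 ^ 2)))) := by
    have hg : Measurable gmap := by
      unfold gmap
      fun_prop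
    exact ((by fun_prop : Measurable fun p : ℝ × ℝ => ENNReal.ofReal (p.2 ^ (n - 1))).mul
      (hφ.comp (hg.comp measurable_snd))).mul (by fun_prop)
  rw [lintegral_lintegral_swap hmG.aemeasurable]
  have e5 : ∀ x ∈ Ioi (0 : ℝ),
      ∫⁻ κ in Ioi (0 : ℝ), ENNReal.ofReal (x ^ (n - 1)) * φ (gmap x) *
        ENNReal.ofReal (κ ^ (n + 1) * rexp (-(1 / 2) * ((1 + x ^ 2) * κ ^ 2))) =
      ENNReal.ofReal (TT (n + 1)) *
        (ENNReal.ofReal |(√(1 + x ^ 2))⁻¹ ^ 3| * (ENNReal.ofReal (gmap x ^ (n - 1)) * φ (gmap x))) := by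
    intro x hx
    have hx0 : (0 : ℝ) < x := hx
    have ha : (0 : ℝ) < 1 + x ^ 2 := by positivity
    have hs : 0 < √(1 + x ^ 2) := Real.sqrt_pos.2 ha
    have hm1 : Measurable (fun κ : ℝ =>
        ENNReal.ofReal (κ ^ (n + 1) * rexp (-(1 / 2) * ((1 + x ^ 2) * κ ^ 2)))) := by fun_prop
    rw [lintegral_const_mul _ hm1, kappa_integral n ha, abs_of_pos (by positivity)]
    have e7 : gmap x ^ (n - 1) * (√(1 + x ^ 2))⁻¹ ^ 3 = x ^ (n - 1) * (√(1 + x ^ 2))⁻¹ ^ (n + 2) := by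
      unfold gmap
      have h8 : n + 2 = (n - 1) + 3 := by omega
      rw [h8, pow_add, div_eq_mul_inv, mul_pow]
      ring
    have hgx : 0 ≤ gmap x ^ (n - 1) := by
      have := (gmap_mem hx0).1
      positivity
    have e8 : ENNReal.ofReal (x ^ (n - 1)) * ENNReal.ofReal ((√(1 + x ^ 2))⁻¹ ^ (n + 2)) =
        ENNReal.ofReal ((√(1 + x ^ 2))⁻¹ ^ 3) * ENNReal.ofReal (gmap x ^ (n - 1)) := by
      rw [← ENNReal.ofReal_mul (by positivity), ← ENNReal.ofReal_mul (by positivity), ← e7]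
      congr 1
      ring
    calc ENNReal.ofReal (x ^ (n - 1)) * φ (gmap x) *
          (ENNReal.ofReal ((√(1 + x ^ 2))⁻¹ ^ (n + 2)) * ENNReal.ofReal (TT (n + 1)))
        = ENNReal.ofReal (TT (n + 1)) * ((ENNReal.ofReal (x ^ (n - 1)) *
            ENNReal.ofReal ((√(1 + x ^ 2))⁻¹ ^ (n + 2))) * φ (gmap x)) := by ring
      _ = _ := by rw [e8]; ring
  rw [setLIntegral_congr_fun measurableSet_Ioi e5]
  have hg2 : Measurable (fun t : ℝ => ENNReal.ofReal (t ^ (n - 1)) * φ t) :=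
    (by fun_prop : Measurable fun t : ℝ => ENNReal.ofReal (t ^ (n - 1))).mul hφ
  have hm3 : Measurable (fun x : ℝ => ENNReal.ofReal |(√(1 + x ^ 2))⁻¹ ^ 3| *
      (ENNReal.ofReal (gmap x ^ (n - 1)) * φ (gmap x))) := by
    have hg : Measurable gmap := by
      unfold gmap
      fun_prop
    exact (by fun_prop : Measurable fun x : ℝ => ENNReal.ofReal |(√(1 + x ^ 2))⁻¹ ^ 3|).mul
      (hg2.comp hg)
  rw [lintegral_const_mul _ hm3]
  refine mul_le_mul_right ?_ _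
  have himg := lintegral_image_eq_lintegral_abs_deriv_mul (s := Ioi (0 : ℝ)) (f := gmap)
    (f' := fun x => (√(1 + x ^ 2))⁻¹ ^ 3) measurableSet_Ioi
    (fun x _ => (gmap_deriv x).hasDerivWithinAt) gmap_injOn
    (fun t => ENNReal.ofReal (t ^ (n - 1)) * φ t)
  rw [← himg]
  exact lintegral_mono_set (by
    rintro _ ⟨x, hx, rfl⟩
    exact gmap_mem hx)

/-- The right side of the radial inequality, in one variable. -/
lemma radial_right (n : ℕ) (hn : 1 ≤ n) (φ : ℝ → ℝ≥0∞) :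
    ENNReal.ofReal ((√(n : ℝ)) ^ n * rexp (-(n : ℝ) / 2)) *
        ∫⁻ t in Ioo (0 : ℝ) 1, ENNReal.ofReal (t ^ (n - 1)) * φ t ≤
      ∫⁻ r in Ioi (0 : ℝ), w1 n r * φ (r / √(n : ℝ)) := by
  have hn0 : (0 : ℝ) < n := by exact_mod_cast hn
  have hs : 0 < √(n : ℝ) := Real.sqrt_pos.2 hn0
  rw [subst_scale hs, ← lintegral_const_mul' _ _ ENNReal.ofReal_ne_top]
  refine le_trans ?_ (lintegral_mono_set (Ioo_subset_Ioi_self : Ioo (0 : ℝ) 1 ⊆ Ioi 0))
  refine setLIntegral_mono' measurableSet_Ioo fun t ht => ?_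
  have ht0 : (0 : ℝ) < t := ht.1
  have ht1 : t < 1 := ht.2
  have e1 : √(n : ℝ) * t / √(n : ℝ) = t := by field_simp
  rw [e1]
  unfold w1
  rw [← mul_assoc, ← mul_assoc, ← ENNReal.ofReal_mul (by positivity),
    ← ENNReal.ofReal_mul (by positivity)]
  refine mul_le_mul_left ?_ _
  apply ENNReal.ofReal_le_ofReal
  have e2 : (√(n : ℝ) * t) ^ 2 = (n : ℝ) * t ^ 2 := by
    rw [mul_pow, Real.sq_sqrt hn0.le]
  have e3 : (√(n : ℝ)) ^ n = √(n : ℝ) * (√(n : ℝ)) ^ (n - 1) := by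
    have h : n - 1 + 1 = n := by omega
    calc (√(n : ℝ)) ^ n = (√(n : ℝ)) ^ (n - 1 + 1) := by rw [h]
      _ = _ := by rw [pow_succ]; ring
  have h4 : rexp (-(n : ℝ) / 2) ≤ rexp (-(1 / 2) * ((n : ℝ) * t ^ 2)) := by
    apply Real.exp_le_exp.2
    have : t ^ 2 ≤ 1 := by nlinarith
    nlinarith
  rw [e2, e3, mul_pow]
  have h5 : 0 ≤ √(n : ℝ) * (√(n : ℝ) ^ (n - 1) * t ^ (n - 1)) := by positivity
  calc √(n : ℝ) * √(n : ℝ) ^ (n - 1) * rexp (-(n : ℝ) / 2) * t ^ (n - 1)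
      = (√(n : ℝ) * (√(n : ℝ) ^ (n - 1) * t ^ (n - 1))) * rexp (-(n : ℝ) / 2) := by ring
    _ ≤ (√(n : ℝ) * (√(n : ℝ) ^ (n - 1) * t ^ (n - 1))) * rexp (-(1 / 2) * ((n : ℝ) * t ^ 2)) :=
        mul_le_mul_of_nonneg_left h4 h5
    _ = _ := by ring

/-- The bound for the radial constant. -/
lemma TT_succ_le (n : ℕ) (hn : 1 ≤ n) :
    TT (n + 1) ≤ rexp ((n : ℝ) + 2) * ((√(n : ℝ)) ^ n * rexp (-(n : ℝ) / 2)) := by
  have hn0 : (0 : ℝ) < n := by exact_mod_cast hn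
  have h2n : (0 : ℝ) < 2 * n := by positivity
  have hs : 0 < √(2 * (n : ℝ)) := Real.sqrt_pos.2 h2n
  set K : ℝ := (√(2 * (n : ℝ))) ^ n * rexp (-(n : ℝ) / 2) with hK
  have hK0 : 0 ≤ K := by positivity
  -- the pointwise bound
  have hpt : ∀ r ∈ Ioi (0 : ℝ), ENNReal.ofReal (r ^ (n + 1) * rexp (-(1 / 2) * r ^ 2)) ≤
      ENNReal.ofReal K * ENNReal.ofReal (r * rexp (-(1 / 4) * r ^ 2)) := by
    intro r hr
    have hr0 : (0 : ℝ) < r := hr
    rw [← ENNReal.ofReal_mul hK0]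
    apply ENNReal.ofReal_le_ofReal
    set y : ℝ := r ^ 2 / (2 * n) with hy
    set a : ℝ := r / √(2 * (n : ℝ)) with ha
    have ha0 : 0 ≤ a := by positivity
    have hay : a ^ 2 = y := by
      rw [ha, hy, div_pow, Real.sq_sqrt h2n.le]
    have h1 : y ≤ rexp (y - 1) := by
      have := Real.add_one_le_exp (y - 1)
      linarith
    have h2 : a ≤ rexp ((y - 1) / 2) := by
      have h3 : a ^ 2 ≤ (rexp ((y - 1) / 2)) ^ 2 := by
        rw [hay, ← Real.exp_nat_mul]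
        have e : ((2 : ℕ) : ℝ) * ((y - 1) / 2) = y - 1 := by
          push_cast
          ring
        rw [e]
        exact h1
      exact (pow_le_pow_iff_left₀ ha0 (by positivity) (by norm_num)).1 h3
    have h4 : a ^ n ≤ rexp (r ^ 2 / 4 - (n : ℝ) / 2) := by
      have h5 : (rexp ((y - 1) / 2)) ^ n = rexp (r ^ 2 / 4 - (n : ℝ) / 2) := by
        rw [← Real.exp_nat_mul]
        congr 1
        rw [hy]
        field_simp
        ring
      rw [← h5]
      exact pow_le_pow_left₀ ha0 h2 n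
    have h6 : r ^ n = a ^ n * (√(2 * (n : ℝ))) ^ n := by
      rw [← mul_pow, ha]
      congr 1
      field_simp
    have h7 : r ^ n * rexp (-(1 / 4) * r ^ 2) ≤ K := by
      rw [h6, hK]
      calc a ^ n * √(2 * (n : ℝ)) ^ n * rexp (-(1 / 4) * r ^ 2)
          ≤ rexp (r ^ 2 / 4 - (n : ℝ) / 2) * √(2 * (n : ℝ)) ^ n * rexp (-(1 / 4) * r ^ 2) := by
            gcongr
        _ = √(2 * (n : ℝ)) ^ n * (rexp (r ^ 2 / 4 - (n : ℝ) / 2) * rexp (-(1 / 4) * r ^ 2)) := by ring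
        _ = _ := by
            rw [← Real.exp_add]
            congr 2
            ring
    have h8 : rexp (-(1 / 2) * r ^ 2) = rexp (-(1 / 4) * r ^ 2) * rexp (-(1 / 4) * r ^ 2) := by
      rw [← Real.exp_add]
      congr 1
      ring
    rw [h8, pow_succ]
    have h9 : 0 ≤ r * rexp (-(1 / 4) * r ^ 2) := by positivity
    calc r ^ n * r * (rexp (-(1 / 4) * r ^ 2) * rexp (-(1 / 4) * r ^ 2))
        = (r ^ n * rexp (-(1 / 4) * r ^ 2)) * (r * rexp (-(1 / 4) * r ^ 2)) := by ring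
      _ ≤ _ := mul_le_mul_of_nonneg_right h7 h9
  -- the integral of the second factor
  have hI : ∫⁻ r in Ioi (0 : ℝ), ENNReal.ofReal (r * rexp (-(1 / 4) * r ^ 2)) = ENNReal.ofReal 2 := by
    have hs2 : 0 < √(2 : ℝ) := Real.sqrt_pos.2 (by norm_num)
    rw [subst_scale hs2]
    have e : ∀ x : ℝ, ENNReal.ofReal √2 * ENNReal.ofReal (√2 * x * rexp (-(1 / 4) * (√2 * x) ^ 2)) =
        ENNReal.ofReal 2 * ENNReal.ofReal (x ^ 1 * rexp (-(1 / 2) * x ^ 2)) := by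
      intro x
      rw [← ENNReal.ofReal_mul hs2.le, ← ENNReal.ofReal_mul (by norm_num)]
      congr 1
      have h1 : (√(2 : ℝ)) ^ 2 = 2 := Real.sq_sqrt (by norm_num)
      have h2 : -(1 / 4 : ℝ) * (√2 * x) ^ 2 = -(1 / 2) * x ^ 2 := by
        rw [mul_pow, h1]
        ring
      rw [h2]
      calc √2 * (√2 * x * rexp (-(1 / 2) * x ^ 2)) = (√2) ^ 2 * (x * rexp (-(1 / 2) * x ^ 2)) := by ring
        _ = _ := by rw [h1]; ring
    simp_rw [e]
    rw [lintegral_const_mul' _ _ ENNReal.ofReal_ne_top, lint_TT, TT_one]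
    simp
  have hT : ENNReal.ofReal (TT (n + 1)) ≤ ENNReal.ofReal (K * 2) := by
    rw [← lint_TT, ENNReal.ofReal_mul hK0, ← hI, ← lintegral_const_mul' _ _ ENNReal.ofReal_ne_top]
    exact setLIntegral_mono' measurableSet_Ioi hpt
  have hT2 : TT (n + 1) ≤ K * 2 := (ENNReal.ofReal_le_ofReal_iff (by positivity)).1 hT
  refine hT2.trans ?_
  have h2 : √(2 * (n : ℝ)) ^ n = (√2) ^ n * (√(n : ℝ)) ^ n := by
    rw [← mul_pow, Real.sqrt_mul (by norm_num)]
  have h3 : (√(2 : ℝ)) ^ n * 2 ≤ rexp ((n : ℝ) + 2) := by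
    have h4 : √(2 : ℝ) ≤ rexp 1 := by
      have h5 : √(2 : ℝ) ≤ 2 := by
        rw [Real.sqrt_le_left (by norm_num)]
        norm_num
      have := Real.add_one_le_exp (1 : ℝ)
      linarith
    have h6 : (√(2 : ℝ)) ^ n ≤ rexp (n : ℝ) := by
      calc (√(2 : ℝ)) ^ n ≤ (rexp 1) ^ n := pow_le_pow_left₀ (by positivity) h4 n
        _ = rexp (n : ℝ) := by rw [← Real.exp_nat_mul]; simp
    have h7 : (2 : ℝ) ≤ rexp 2 := by
      have := Real.add_one_le_exp (2 : ℝ)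
      linarith
    rw [Real.exp_add]
    exact mul_le_mul h6 h7 (by norm_num) (by positivity)
  rw [hK, h2]
  have h8 : 0 ≤ (√(n : ℝ)) ^ n * rexp (-(n : ℝ) / 2) := by positivity
  calc √2 ^ n * √(n : ℝ) ^ n * rexp (-(n : ℝ) / 2) * 2
      = (√2 ^ n * 2) * (√(n : ℝ) ^ n * rexp (-(n : ℝ) / 2)) := by ring
    _ ≤ _ := mul_le_mul_of_nonneg_right h3 h8

/-- The radial inequality. -/
theorem radial_ineq (n : ℕ) (hn : 1 ≤ n) {φ : ℝ → ℝ≥0∞} (hφ : Measurable φ) :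
    ∫⁻ r in Ioi (0 : ℝ), w1 n r * ∫⁻ κ in Ioi (0 : ℝ), w2 κ * φ (r / √(r ^ 2 + κ ^ 2)) ≤
      ENNReal.ofReal (rexp ((n : ℝ) + 2)) * ∫⁻ r in Ioi (0 : ℝ), w1 n r * φ (r / √(n : ℝ)) := by
  refine (radial_left n hn hφ).trans ?_
  refine le_trans ?_ (mul_le_mul_right (radial_right n hn φ) _)
  rw [← mul_assoc, ← ENNReal.ofReal_mul (by positivity)]
  exact mul_le_mul_left (ENNReal.ofReal_le_ofReal (TT_succ_le n hn)) _

section general

variable {Y : Type*} [NormedAddCommGroup Y] [InnerProductSpace ℝ Y] [FiniteDimensional ℝ Y]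
  [MeasurableSpace Y] [BorelSpace Y]

/-- Polar coordinates for the Gaussian measure. -/
lemma polar_gauss [Nontrivial Y] {Ξ : Y → ℝ≥0∞} (hΞ : Measurable Ξ) :
    ∫⁻ y, Ξ y ∂(stdGaussian Y) = ENNReal.ofReal (gc Y)⁻¹ *
      ∫⁻ ω : Metric.sphere (0 : Y) 1, (∫⁻ r in Ioi (0 : ℝ), w1 (Module.finrank ℝ Y) r * Ξ (r • (ω : Y)))
        ∂(volume : Measure Y).toSphere := by
  have hcont : Continuous (fun y : Y => gden Y ‖y‖) := continuous_gden.comp continuous_norm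
  have hρm : Measurable (fun y : Y => ENNReal.ofReal (gden Y ‖y‖)) :=
    hcont.measurable.ennreal_ofReal
  rw [stdGaussian_eq_withDensity, lintegral_withDensity_eq_lintegral_mul _ hρm hΞ,
    lintegral_polar (hρm.mul hΞ), ← lintegral_const_mul' _ _ ENNReal.ofReal_ne_top]
  refine lintegral_congr fun ω => ?_
  set D := Module.finrank ℝ Y with hD
  have hρ2 : Measurable (fun r : Ioi (0 : ℝ) => ENNReal.ofReal ((r : ℝ) ^ (D - 1))) :=
    ((measurable_subtype_coe).pow_const _).ennreal_ofReal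
  have hbm : Measurable (fun r : Ioi (0 : ℝ) =>
      ((fun y : Y => ENNReal.ofReal (gden Y ‖y‖)) * Ξ) ((r : ℝ) • (ω : Y))) :=
    (hρm.mul hΞ).comp ((measurable_subtype_coe).smul_const _)
  rw [Measure.volumeIoiPow, lintegral_withDensity_eq_lintegral_mul _ hρ2 hbm]
  have := lintegral_subtype_comap (μ := (volume : Measure ℝ)) (s := Ioi (0 : ℝ)) measurableSet_Ioi
    (fun r : ℝ => ENNReal.ofReal (r ^ (D - 1)) *
      ((fun y : Y => ENNReal.ofReal (gden Y ‖y‖)) * Ξ) (r • (ω : Y)))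
  refine this.trans ?_
  rw [← lintegral_const_mul' _ _ ENNReal.ofReal_ne_top]
  refine setLIntegral_congr_fun measurableSet_Ioi fun r hr => ?_
  have hr0 : (0 : ℝ) < r := hr
  have hn : ‖r • (ω : Y)‖ = r := by
    rw [norm_smul, norm_eq_of_mem_sphere ω, mul_one, Real.norm_eq_abs, abs_of_pos hr0]
  simp only [Pi.mul_apply, hn]
  unfold w1 gden
  have hgc : 0 ≤ (gc Y)⁻¹ := (inv_pos.2 gc_pos).le
  rw [← mul_assoc, ← mul_assoc, ← ENNReal.ofReal_mul (by positivity),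
    ← ENNReal.ofReal_mul hgc]
  congr 2
  ring

/-- The radial formula in dimension two. -/
lemma radial_two (hY : Module.finrank ℝ Y = 2) {G : ℝ → ℝ≥0∞} (hG : Measurable G) :
    ∫⁻ y, G ‖y‖ ∂(stdGaussian Y) = ∫⁻ κ in Ioi (0 : ℝ), w2 κ * G κ := by
  have hnt : Nontrivial Y := Module.nontrivial_of_finrank_pos (R := ℝ) (by omega)
  have key : ∀ {G : ℝ → ℝ≥0∞}, Measurable G → ∫⁻ y, G ‖y‖ ∂(stdGaussian Y) =
      (ENNReal.ofReal (gc Y)⁻¹ * (volume : Measure Y).toSphere univ) *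
        ∫⁻ κ in Ioi (0 : ℝ), w2 κ * G κ := by
    intro G hG
    rw [polar_gauss (Ξ := fun y : Y => G ‖y‖) (hG.comp measurable_norm), hY]
    have h1 : ∀ ω : Metric.sphere (0 : Y) 1,
        ∫⁻ r in Ioi (0 : ℝ), w1 2 r * G ‖r • (ω : Y)‖ = ∫⁻ κ in Ioi (0 : ℝ), w2 κ * G κ := by
      intro ω
      refine setLIntegral_congr_fun measurableSet_Ioi fun r hr => ?_
      have hr0 : (0 : ℝ) < r := hr
      have hn : ‖r • (ω : Y)‖ = r := by
        rw [norm_smul, norm_eq_of_mem_sphere ω, mul_one, Real.norm_eq_abs, abs_of_pos hr0]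
      simp only [hn]
      unfold w1 w2
      norm_num
    simp_rw [h1]
    rw [lintegral_const]
    ring
  have h0 := key (G := fun _ => 1) measurable_const
  have hw : ∫⁻ κ in Ioi (0 : ℝ), w2 κ * 1 = 1 := by
    have := lint_TT 1
    rw [TT_one] at this
    simp only [mul_one]
    unfold w2
    simpa using this
  rw [hw, mul_one] at h0
  simp only [lintegral_const, measure_univ, mul_one] at h0
  rw [key hG, ← h0, one_mul]

end general

section product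

variable {Y₁ Y₂ : Type*} [NormedAddCommGroup Y₁] [InnerProductSpace ℝ Y₁] [FiniteDimensional ℝ Y₁]
  [MeasurableSpace Y₁] [BorelSpace Y₁] [NormedAddCommGroup Y₂] [InnerProductSpace ℝ Y₂]
  [FiniteDimensional ℝ Y₂] [MeasurableSpace Y₂] [BorelSpace Y₂]

/-- The density bound for the normalised first block. -/
theorem prod_ratio {n : ℕ} (hn : 1 ≤ n) (hY₁ : Module.finrank ℝ Y₁ = n)
    (hY₂ : Module.finrank ℝ Y₂ = 2) {Φ : Y₁ → ℝ≥0∞} (hΦ : Measurable Φ) :
    ∫⁻ h, ∫⁻ k, Φ ((√(‖h‖ ^ 2 + ‖k‖ ^ 2))⁻¹ • h) ∂(stdGaussian Y₂) ∂(stdGaussian Y₁) ≤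
      ENNReal.ofReal (rexp ((n : ℝ) + 2)) * ∫⁻ h, Φ ((√(n : ℝ))⁻¹ • h) ∂(stdGaussian Y₁) := by
  have hnt : Nontrivial Y₁ := Module.nontrivial_of_finrank_pos (R := ℝ) (by omega)
  have hm1 : Measurable (fun p : Y₁ × ℝ => Φ ((√(‖p.1‖ ^ 2 + p.2 ^ 2))⁻¹ • p.1)) :=
    hΦ.comp (by fun_prop)
  -- the inner integral is radial
  have hin : ∀ h : Y₁, ∫⁻ k, Φ ((√(‖h‖ ^ 2 + ‖k‖ ^ 2))⁻¹ • h) ∂(stdGaussian Y₂) =
      ∫⁻ κ in Ioi (0 : ℝ), w2 κ * Φ ((√(‖h‖ ^ 2 + κ ^ 2))⁻¹ • h) := by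
    intro h
    exact radial_two hY₂ (G := fun κ => Φ ((√(‖h‖ ^ 2 + κ ^ 2))⁻¹ • h))
      (hΦ.comp (by fun_prop))
  simp_rw [hin]
  have hΞ : Measurable (fun h : Y₁ => ∫⁻ κ in Ioi (0 : ℝ), w2 κ * Φ ((√(‖h‖ ^ 2 + κ ^ 2))⁻¹ • h)) := by
    apply Measurable.lintegral_prod_right' (f := fun p : Y₁ × ℝ =>
      w2 p.2 * Φ ((√(‖p.1‖ ^ 2 + p.2 ^ 2))⁻¹ • p.1))
    exact (measurable_w2.comp measurable_snd).mul hm1
  have hΞ2 : Measurable (fun h : Y₁ => Φ ((√(n : ℝ))⁻¹ • h)) := hΦ.comp (by fun_prop)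
  rw [polar_gauss hΞ, polar_gauss hΞ2, hY₁]
  rw [mul_left_comm]
  refine mul_le_mul_right ?_ _
  rw [← lintegral_const_mul' _ _ ENNReal.ofReal_ne_top]
  refine lintegral_mono fun ω => ?_
  have hφ : Measurable (fun t : ℝ => Φ (t • (ω : Y₁))) := hΦ.comp (by fun_prop)
  have hr := radial_ineq n hn hφ
  have e1 : ∀ r ∈ Ioi (0 : ℝ), w1 n r * ∫⁻ κ in Ioi (0 : ℝ),
        w2 κ * Φ ((√(‖r • (ω : Y₁)‖ ^ 2 + κ ^ 2))⁻¹ • (r • (ω : Y₁))) =
      w1 n r * ∫⁻ κ in Ioi (0 : ℝ), w2 κ * Φ ((r / √(r ^ 2 + κ ^ 2)) • (ω : Y₁)) := by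
    intro r hr
    have hr0 : (0 : ℝ) < r := hr
    have hn : ‖r • (ω : Y₁)‖ = r := by
      rw [norm_smul, norm_eq_of_mem_sphere ω, mul_one, Real.norm_eq_abs, abs_of_pos hr0]
    rw [hn]
    congr 1
    refine lintegral_congr fun κ => ?_
    rw [smul_smul, div_eq_inv_mul]
  have e2 : ∀ r ∈ Ioi (0 : ℝ), w1 n r * Φ ((√(n : ℝ))⁻¹ • (r • (ω : Y₁))) =
      w1 n r * Φ ((r / √(n : ℝ)) • (ω : Y₁)) := by
    intro r _
    rw [smul_smul, div_eq_inv_mul]
  rw [setLIntegral_congr_fun measurableSet_Ioi e1, setLIntegral_congr_fun measurableSet_Ioi e2]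
  exact hr

end product

section assembly

variable {d : ℕ}

/-- The vectors supported on `res`. -/
noncomputable def resU (res : Finset (Fin d)) : Submodule ℝ (E d) := LinearMap.range (coordL res)

lemma coordL_apply (J : Finset (Fin d)) (x : E d) (i : Fin d) :
    coordL J x i = if i ∈ J then x i else 0 := rfl

lemma finrank_resU (res : Finset (Fin d)) : Module.finrank ℝ (resU res) = res.card := by
  let φ : ↥(resU res) →ₗ[ℝ] (↥res → ℝ) :=
    { toFun := fun x i => (x : E d) i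
      map_add' := fun x y => by
        ext i
        simp
      map_smul' := fun c x => by
        ext i
        simp }
  have hinj : Function.Injective φ := by
    intro x y hxy
    obtain ⟨x', hx'⟩ := x.2
    obtain ⟨y', hy'⟩ := y.2
    apply Subtype.ext
    ext i
    by_cases hi : i ∈ res
    · exact congrFun hxy ⟨i, hi⟩
    · have h1 : (x : E d) i = 0 := by rw [← hx', coordL_apply, if_neg hi]
      have h2 : (y : E d) i = 0 := by rw [← hy', coordL_apply, if_neg hi]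
      rw [h1, h2]
  have hsurj : Function.Surjective φ := by
    intro c
    let y : E d := WithLp.toLp 2 fun i => if h : i ∈ res then c ⟨i, h⟩ else 0
    refine ⟨⟨coordL res y, ⟨y, rfl⟩⟩, ?_⟩
    ext i
    show coordL res y (i : Fin d) = c i
    rw [coordL_apply, if_pos i.2]
    simp [y]
  have e := (LinearEquiv.ofBijective φ ⟨hinj, hsurj⟩).finrank_eq
  rw [e, Module.finrank_fintype_fun_eq_card, Fintype.card_coe]

lemma coe_projO_resU (res : Finset (Fin d)) (g : E d) :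
    ((projO (resU res) g : ↥(resU res)ᗮ) : E d) = coordP resᶜ g := by
  have h1 : (((resU res)ᗮ.orthogonalProjectionOnto g : ↥(resU res)ᗮ) : E d) =
      g - (resU res).starProjection g :=
    Submodule.starProjection_orthogonal_val g
  have h2 : (resU res).starProjection g = coordL res g := by
    refine Submodule.eq_starProjection_of_mem_of_inner_eq_zero (K := resU res)
      (LinearMap.mem_range_self _ g) ?_
    rintro _ ⟨z, rfl⟩
    rw [PiLp.inner_apply]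
    apply Finset.sum_eq_zero
    intro i _
    by_cases hi : i ∈ res
    · simp [coordL_apply, hi]
    · simp [coordL_apply, hi]
  unfold projO
  rw [h1, h2]
  ext i
  by_cases hi : i ∈ res
  · simp [coordL_apply, coordP_apply, hi]
  · simp [coordL_apply, coordP_apply, hi]

lemma inner_projO (W : Submodule ℝ (E d)) (g : E d) (t : ↥Wᗮ) :
    ⟪projO W g, t⟫ = ⟪g, (t : E d)⟫ := by
  unfold projO
  have h1 : ((Wᗮ.orthogonalProjectionOnto g : ↥Wᗮ) : E d) = g - W.starProjection g :=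
    Submodule.starProjection_orthogonal_val g
  rw [Submodule.coe_inner, h1, inner_sub_left,
    Submodule.inner_right_of_mem_orthogonal (Submodule.starProjection_apply_mem W g) t.2, sub_zero]

/-- The two projections of a Gaussian vector are independent. -/
lemma map_proj_pair (U : Submodule ℝ (E d)) :
    (stdGaussian (E d)).map (fun g => (projO U g, projO Uᗮ g)) =
      (stdGaussian ↥Uᗮ).prod (stdGaussian ↥Uᗮᗮ) := by
  have hX := measurable_projO U
  have hY := measurable_projO Uᗮ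
  have hind : IndepFun (projO U) (projO Uᗮ) (stdGaussian (E d)) := by
    rw [indepFun_iff_charFun_prod hX.aemeasurable hY.aemeasurable]
    intro t
    rw [map_projO, map_projO, charFun_stdGaussian, charFun_stdGaussian, charFun_apply,
      integral_map (by fun_prop) (Measurable.aestronglyMeasurable (by fun_prop))]
    have h1 : ∀ g : E d, Complex.exp (((⟪WithLp.toLp 2 (projO U g, projO Uᗮ g), t⟫ : ℝ) : ℂ) * Complex.I) =
        Complex.exp (((⟪g, ((t.ofLp.1 : E d) + (t.ofLp.2 : E d))⟫ : ℝ) : ℂ) * Complex.I) := by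
      intro g
      congr 3
      rw [WithLp.prod_inner_apply, inner_add_right]
      simp only
      rw [inner_projO, inner_projO]
    simp_rw [h1]
    have h2 := charFun_stdGaussian (E := E d) ((t.ofLp.1 : E d) + (t.ofLp.2 : E d))
    rw [charFun_apply] at h2
    rw [h2, ← Complex.exp_add]
    congr 1
    have h3 : ⟪(t.ofLp.1 : E d), (t.ofLp.2 : E d)⟫ = 0 :=
      Submodule.inner_right_of_mem_orthogonal t.ofLp.1.2 t.ofLp.2.2
    have h4 : ‖(t.ofLp.1 : E d) + (t.ofLp.2 : E d)‖ ^ 2 =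
        ‖(t.ofLp.1 : E d)‖ ^ 2 + ‖(t.ofLp.2 : E d)‖ ^ 2 := by
      rw [norm_add_sq_real, h3]
      ring
    rw [Submodule.coe_norm, Submodule.coe_norm]
    have h5 : (((‖(t.ofLp.1 : E d) + (t.ofLp.2 : E d)‖ ^ 2 : ℝ)) : ℂ) =
        ((‖(t.ofLp.1 : E d)‖ ^ 2 + ‖(t.ofLp.2 : E d)‖ ^ 2 : ℝ) : ℂ) := by rw [h4]
    push_cast at h5 ⊢
    rw [h5]
    ring
  have := (indepFun_iff_map_prod_eq_prod_map_map hX.aemeasurable hY.aemeasurable).1 hind
  rw [map_projO, map_projO] at this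
  exact this

end assembly

end BallAux

open BallAux

variable {d : ℕ}

/-- MODULE BALL. Archimedes in the form of a density bound: all coordinates but two of a uniform
point of the sphere have a law at most `e^d` times the law of the same coordinates of `g / √(d-2)`.
The radial part is `radial_ineq`, the direction is the same on both sides (`polar_gauss`). -/
theorem sphere_coord_density (res : Finset (Fin d)) (hres : res.card = 2) (hd : 3 ≤ d)
    (A : Set (E d)) (hA : MeasurableSet A) :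
    (sphereM d) ((coordP resᶜ) ⁻¹' A) ≤
      ENNReal.ofReal (rexp d) *
        (stdGaussian (E d)) ((fun g : E d => (√((d : ℝ) - 2))⁻¹ • coordP resᶜ g) ⁻¹' A) := by
  classical
  set U := resU res with hU
  set n := d - 2 with hn
  have hn1 : 1 ≤ n := by omega
  have hcast : (n : ℝ) = (d : ℝ) - 2 := by
    rw [hn, Nat.cast_sub (by omega)]
    norm_num
  have hfinU : Module.finrank ℝ U = 2 := by rw [hU, finrank_resU, hres]
  have hsum := Submodule.finrank_add_finrank_orthogonal U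
  have hfr : Module.finrank ℝ (E d) = d := by simp
  have hY1 : Module.finrank ℝ ↥Uᗮ = n := by omega
  have hY2 : Module.finrank ℝ ↥Uᗮᗮ = 2 := by
    have := Submodule.finrank_add_finrank_orthogonal Uᗮ
    omega
  set S : Set ↥Uᗮ := {h | (h : E d) ∈ A} with hS
  have hSm : MeasurableSet S := measurable_subtype_coe hA
  set Φ : ↥Uᗮ → ℝ≥0∞ := S.indicator 1 with hΦ
  have hΦm : Measurable Φ := measurable_one.indicator hSm
  have hpr := prod_ratio hn1 hY1 hY2 hΦm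
  have hCm : Measurable (coordP resᶜ : E d → E d) := (coordP resᶜ).continuous.measurable
  have hm : Measurable (fun p : ↥Uᗮ × ↥Uᗮᗮ => Φ ((√(‖p.1‖ ^ 2 + ‖p.2‖ ^ 2))⁻¹ • p.1)) :=
    hΦm.comp (by fun_prop)
  have hZ : Measurable (fun g : E d => (projO U g, projO Uᗮ g)) :=
    (measurable_projO U).prodMk (measurable_projO Uᗮ)
  have hL : (sphereM d) ((coordP resᶜ) ⁻¹' A) =
      ∫⁻ h, ∫⁻ k, Φ ((√(‖h‖ ^ 2 + ‖k‖ ^ 2))⁻¹ • h) ∂(stdGaussian ↥Uᗮᗮ) ∂(stdGaussian ↥Uᗮ) := by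
    have e1 := lintegral_prod _ hm.aemeasurable (μ := stdGaussian ↥Uᗮ) (ν := stdGaussian ↥Uᗮᗮ)
    simp only at e1
    rw [← e1, ← map_proj_pair U, lintegral_map hm hZ]
    unfold sphereM
    rw [Measure.map_apply measurable_normalize (hCm hA)]
    have hT : MeasurableSet ((fun g : E d => (‖g‖⁻¹ : ℝ) • g) ⁻¹' ((coordP resᶜ) ⁻¹' A)) :=
      measurable_normalize (hCm hA)
    rw [← lintegral_indicator_one hT]
    refine lintegral_congr fun g => ?_
    have hnorm : √(‖projO U g‖ ^ 2 + ‖projO Uᗮ g‖ ^ 2) = ‖g‖ := by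
      have h1 := Submodule.norm_sq_eq_add_norm_sq_projection g Uᗮ
      have h2 : ‖projO U g‖ ^ 2 + ‖projO Uᗮ g‖ ^ 2 = ‖g‖ ^ 2 := h1.symm
      rw [h2, Real.sqrt_sq (norm_nonneg g)]
    rw [hnorm]
    have hmem : ((‖g‖⁻¹ • projO U g : ↥Uᗮ) ∈ S) ↔
        g ∈ (fun g : E d => (‖g‖⁻¹ : ℝ) • g) ⁻¹' ((coordP resᶜ) ⁻¹' A) := by
      simp only [hS, Set.mem_ofPred_eq, mem_preimage, Submodule.coe_smul, map_smul]
      rw [hU, coe_projO_resU]
    by_cases hc : g ∈ (fun g : E d => (‖g‖⁻¹ : ℝ) • g) ⁻¹' ((coordP resᶜ) ⁻¹' A)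
    · rw [indicator_of_mem hc, hΦ, indicator_of_mem (hmem.2 hc)]
      rfl
    · rw [indicator_of_notMem hc, hΦ, indicator_of_notMem (fun h => hc (hmem.1 h))]
  have hR : stdGaussian (E d) ((fun g : E d => (√((d : ℝ) - 2))⁻¹ • coordP resᶜ g) ⁻¹' A) =
      ∫⁻ h, Φ ((√(n : ℝ))⁻¹ • h) ∂(stdGaussian ↥Uᗮ) := by
    have hm2 : Measurable (fun h : ↥Uᗮ => Φ ((√(n : ℝ))⁻¹ • h)) := hΦm.comp (by fun_prop)
    rw [← map_projO U, lintegral_map hm2 (measurable_projO U)]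
    have hm3 : Measurable (fun g : E d => (√((d : ℝ) - 2))⁻¹ • coordP resᶜ g) := by fun_prop
    have hT : MeasurableSet ((fun g : E d => (√((d : ℝ) - 2))⁻¹ • coordP resᶜ g) ⁻¹' A) := hm3 hA
    rw [← lintegral_indicator_one hT]
    refine lintegral_congr fun g => ?_
    have hmem : (((√(n : ℝ))⁻¹ • projO U g : ↥Uᗮ) ∈ S) ↔
        g ∈ (fun g : E d => (√((d : ℝ) - 2))⁻¹ • coordP resᶜ g) ⁻¹' A := by
      simp only [hS, Set.mem_ofPred_eq, mem_preimage, Submodule.coe_smul]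
      rw [hU, coe_projO_resU, hcast]
    by_cases hc : g ∈ (fun g : E d => (√((d : ℝ) - 2))⁻¹ • coordP resᶜ g) ⁻¹' A
    · rw [indicator_of_mem hc, hΦ, indicator_of_mem (hmem.2 hc)]
      rfl
    · rw [indicator_of_notMem hc, hΦ, indicator_of_notMem (fun h => hc (hmem.1 h))]
  rw [hL, hR]
  have e : (n : ℝ) + 2 = d := by
    rw [hcast]
    ring
  rw [e] at hpr
  exact hpr

end Vale.Agent.P309F
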