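import Vale.Agent.P309.Learner

/-!
Definitions for the full memory-sample bound: conditional entropy functional, coordinate
projections, the random rotation model, affine distances, level functions, the test function and
the good cells.
-/

open MeasureTheory ProbabilityTheory Real Set Filter Topology
open scoped RealInnerProductSpace ENNReal

namespace Vale.Agent.P309F

open Vale.Agent.P309

variable {d : ℕ}

/-- The conditional entropy functional: `I(v; s | G)` for the density `u`, written as a difference
of two entropies. -/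
noncomputable def Psi {S : Type*} (G : MeasurableSpace S) {mS : MeasurableSpace S} (σ : Measure S)
    (u : S → ℝ) : ℝ :=
  Hent σ u - Hent σ (condExp G σ u)

/-- The linear map keeping the coordinates in `J`. -/
noncomputable def coordL (J : Finset (Fin d)) : E d →ₗ[ℝ] E d where
  toFun x := WithLp.toLp 2 fun i => if i ∈ J then x i else 0
  map_add' x y := by
    ext i
    by_cases h : i ∈ J <;> simp [h]
  map_smul' c x := by
    ext i
    by_cases h : i ∈ J <;> simp [h]

/-- The coordinate projection as a continuous linear map. -/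
noncomputable def coordP (J : Finset (Fin d)) : E d →L[ℝ] E d :=
  LinearMap.toContinuousLinearMap (coordL J)

theorem coordP_apply (J : Finset (Fin d)) (x : E d) (i : Fin d) :
    coordP J x i = if i ∈ J then x i else 0 := rfl

/-- The projection: coordinates in `J` after undoing the rotation `O`. -/
noncomputable def PO (J : Finset (Fin d)) (O : E d ≃ₗᵢ[ℝ] E d) : E d →L[ℝ] E d :=
  (coordP J).comp (O.symm : E d ≃L[ℝ] E d).toContinuousLinearMap

/-- A random rotation whose law is invariant: the group structure of the Haar measure is only used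
through `inv`. -/
structure RotModel (d : ℕ) where
  Ω : Type
  [ms : MeasurableSpace Ω]
  ϖ : Measure Ω
  [prob : IsProbabilityMeasure ϖ]
  act : Ω → (E d ≃ₗᵢ[ℝ] E d)
  meas_symm : Measurable fun p : Ω × E d => (act p.1).symm p.2
  inv : ∀ O : E d ≃ₗᵢ[ℝ] E d, ∃ τ : Ω → Ω, MeasurePreserving τ ϖ ϖ ∧
    ∀ R x, (act (τ R)).symm x = (act R).symm (O x)

attribute [instance] RotModel.ms RotModel.prob

/-- The sub sigma algebra generated by the coordinates `J`. -/
@[instance_reducible] noncomputable def fibJ (J : Finset (Fin d)) : MeasurableSpace (E d) :=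
  MeasurableSpace.comap (coordP J) inferInstance

/-- The sub sigma algebra generated by the rotated coordinates. -/
@[instance_reducible] noncomputable def fibO (J : Finset (Fin d)) (O : E d ≃ₗᵢ[ℝ] E d) : MeasurableSpace (E d) :=
  MeasurableSpace.comap (PO J O) inferInstance

/-- Differences from the first element of a tuple. -/
def hseq {u : ℕ} (q : Fin (u + 1) → E d) (i : Fin (u + 1)) : E d := q i - q 0

/-- Distance of the next element to the affine span of the previous ones. -/
noncomputable def dSeq {u : ℕ} (q : Fin (u + 1) → E d) (j : Fin u) : ℝ :=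
  hdist (spanBelow (hseq q) (j + 1)) (hseq q j.succ)

/-- Distance of `y` to the affine span of the tuple. -/
noncomputable def dAff {u : ℕ} (q : Fin (u + 1) → E d) (y : E d) : ℝ :=
  hdist (Submodule.span ℝ (Set.range (hseq q))) (y - q 0)

/-- The dyadic scales `2, 1, 1/2, ...`. -/
noncomputable def rho (l : ℕ) : ℝ := 2 * (1 / 2 : ℝ) ^ l

/-- The level function: the largest of `ρ^(-w) pr(dist(P x, aff q) ≤ ρ)`, on `L + 1` scales, and
at least its trivial value `2^(-w)`. -/
noncomputable def aLev {u : ℕ} (pr : Measure (E d)) (P : E d → E d) (w L : ℕ)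
    (q : Fin (u + 1) → E d) : ℝ :=
  max (((rho 0)⁻¹) ^ w) ((Finset.range (L + 1)).sup' Finset.nonempty_range_add_one fun l =>
    ((rho l)⁻¹) ^ w * pr.real {x | dAff q (P x) ≤ rho l})

/-- The test function, a function of the projected tuple `q`; on tuples of unit vectors the
truncation by `2` does nothing. -/
noncomputable def Gtest {u : ℕ} (pr : Measure (E d)) (P : E d → E d) (w L : ℕ) (δ : ℝ)
    (q : Fin (u + 1) → E d) : ℝ :=
  (∏ j : Fin u, ((max (min (dSeq q j) 2) δ)⁻¹) ^ w) * ((aLev pr P w L q)⁻¹) ^ u

/-- The prior as a measure. -/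
noncomputable def priorM (f : E d → ℝ) : Measure (E d) :=
  (sphereM d).withDensity fun s => ENNReal.ofReal (f s)

/-- The mass of a dyadic cell under the prior. -/
noncomputable def massC {w : ℕ} (pr : Measure (E d)) (n : ℕ) (A : Rows d w) (i : Fin w → ℤ) : ℝ :=
  pr.real (cell n A ⁻¹' {i})

/-- The corner of a dyadic cell. -/
noncomputable def yc {w : ℕ} (n : ℕ) (i : Fin w → ℤ) : Fin w → ℝ :=
  fun l => (1 / 2 : ℝ) ^ n * (i l : ℝ)

/-- The prior mass of the Euclidean ball of radius `r` around `y`, for the labels of `A`. -/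
noncomputable def ballM {w : ℕ} (pr : Measure (E d)) (A : Rows d w) (y : Fin w → ℝ) (r : ℝ) : ℝ :=
  pr.real {x | ∑ l, (⟪A l, x⟫ - y l) ^ 2 ≤ r ^ 2}

/-- The operator norm bound for a block of rows. -/
def opBd {w : ℕ} (C0 : ℝ) (A : Rows d w) : Prop :=
  ∀ x : E d, ∑ l, ⟪A l, x⟫ ^ 2 ≤ C0 ^ 2 * (d : ℝ) * ‖x‖ ^ 2

/-- The radii in label space. -/
noncomputable def rLev (d : ℕ) (C0 : ℝ) (l : ℕ) : ℝ := 2 * C0 * √(d : ℝ) * rho l

/-- The lower bound for the mass of a good cell. -/
noncomputable def tauG (d w n : ℕ) (K C0 : ℝ) : ℝ :=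
  ((1 / 2 : ℝ) ^ n) ^ w / K * ((rLev d C0 0)⁻¹) ^ w

/-- The good cells: bounded rows and a cell mass comparable with all coarser balls (a cheap
Hardy-Littlewood condition). -/
def goodG {w : ℕ} (pr : Measure (E d)) (n L : ℕ) (K C0 : ℝ) : Set (Rows d w × (Fin w → ℤ)) :=
  {p | opBd C0 p.1 ∧ tauG d w n K C0 ≤ massC pr n p.1 p.2 ∧
    ∀ l ∈ Finset.range (L + 1),
      ((1 / 2 : ℝ) ^ n) ^ w / K * ((rLev d C0 l)⁻¹) ^ w * ballM pr p.1 (yc n p.2) (rLev d C0 l) ≤
        massC pr n p.1 p.2}

open Classical in
/-- The replica density on good cells. -/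
noncomputable def Fn {w u : ℕ} (pr : Measure (E d)) (n L : ℕ) (K C0 : ℝ)
    (s : Fin (u + 1) → E d) : ℝ :=
  ∫ A : Rows d w, if (A, cell n A (s 0)) ∈ goodG pr n L K C0 ∧ ∀ j, cell n A (s j) = cell n A (s 0)
    then ((massC pr n A (cell n A (s 0)))⁻¹) ^ u else 0 ∂(rowsM d w)

open Classical in
/-- The level function on well conditioned tuples, its crude bound on the others. -/
noncomputable def aSharp {u : ℕ} (pr : Measure (E d)) (w L : ℕ) (σ₀ : ℝ)
    (s : Fin (u + 1) → E d) : ℝ :=
  if ∀ j, σ₀ ≤ dSeq s j then aLev pr id w L s else ((rho 0)⁻¹) ^ w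

/-- The prior is a probability measure. -/
theorem priorM_isProb {f : E d → ℝ} (hf : BddNN f) (hf1 : ∫ s, f s ∂(sphereM d) = 1) :
    IsProbabilityMeasure (priorM f) := by
  constructor
  unfold priorM
  rw [withDensity_apply _ MeasurableSet.univ, Measure.restrict_univ,
    ← ofReal_integral_eq_lintegral_ofReal hf.integrable (Filter.Eventually.of_forall hf.nonneg), hf1]
  simp

/-- The prior is bounded by its density bound times the uniform measure. -/
theorem priorM_le {f : E d → ℝ} {F₀ : ℝ} (hF : ∀ s, f s ≤ F₀) (A : Set (E d)) :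
    priorM f A ≤ ENNReal.ofReal F₀ * sphereM d A := by
  unfold priorM
  calc (sphereM d).withDensity (fun s => ENNReal.ofReal (f s)) A
      ≤ (sphereM d).withDensity (fun _ => ENNReal.ofReal F₀) A := by
        apply Measure.le_iff'.1
        exact withDensity_mono (Filter.Eventually.of_forall fun s =>
          ENNReal.ofReal_le_ofReal (hF s))
    _ = _ := by
        rw [withDensity_const]
        simp

/-- The prior is absolutely continuous. -/
theorem priorM_ac (f : E d → ℝ) : priorM f ≪ sphereM d := withDensity_absolutelyContinuous _ _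

/-- Almost every point of the prior is a unit vector. -/
theorem priorM_ae_unit (hd : 0 < d) (f : E d → ℝ) : ∀ᵐ s ∂(priorM f), ‖s‖ = 1 :=
  priorM_ac f (sphereM_ae_unit hd)

end Vale.Agent.P309F
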