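import Vale.Agent.P309F.Defs

open MeasureTheory ProbabilityTheory Real Set Filter Topology
open scoped RealInnerProductSpace ENNReal

namespace Vale.Agent.P309F
open Vale.Agent.P309

variable {d : ℕ}

theorem measurableSet_opBd {w : ℕ} (C0 : ℝ) : MeasurableSet {A : Rows d w | opBd C0 A} := by
  have : {A : Rows d w | opBd C0 A} = ⋂ x : E d, {A : Rows d w | ∑ l, ⟪A l, x⟫ ^ 2 ≤ C0 ^ 2 * (d : ℝ) * ‖x‖ ^ 2} := by
    ext A; simp [opBd]
  rw [this]
  refine IsClosed.measurableSet (isClosed_iInter fun x => isClosed_le ?_ continuous_const)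
  fun_prop

/-- The volume of the unit ball of `ℝ^w`, in the coordinates of `Fin w → ℝ`. -/
noncomputable def vb (w : ℕ) : ℝ := (volume {y : Fin w → ℝ | ∑ l, y l ^ 2 ≤ 1}).toReal

/-- MODULE VOLUME. From `1 ≥ ν(ball) ≥ (w/2π)^(w/2) e^(-w/2) v_w` for the Gaussian `ν` of variance `1/w`, or from the
formula `EuclideanSpace.volume_ball`. -/
theorem vb_le {w : ℕ} (hw : 1 ≤ w) : vb w ≤ (2 * π * rexp 1 / w) ^ ((w : ℝ) / 2) := by
  have hw0 : (0 : ℝ) < w := by exact_mod_cast hw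
  set b : ℝ := (w : ℝ) / 2 with hb
  have hb0 : 0 < b := by positivity
  set φ : (Fin w → ℝ) → ℝ := fun y => ∏ l, rexp (-b * y l ^ 2) with hφ
  have hφint : Integrable φ (volume : Measure (Fin w → ℝ)) := by
    have : Integrable (fun (x : Fin w → ℝ) ↦ ∏ i, (fun y : ℝ => rexp (-b * y ^ 2)) (x i))
        (Measure.pi fun _ => (volume : Measure ℝ)) :=
      Integrable.fintype_prod fun _ => integrable_exp_neg_mul_sq hb0
    simpa [hφ, volume_pi] using this
  have hφval : ∫ y, φ y = (√(π / b)) ^ w := by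
    have := integral_fintype_prod_volume_eq_pow (ι := Fin w) (𝕜 := ℝ) (fun y : ℝ => rexp (-b * y ^ 2))
    simp only [hφ, this, integral_gaussian, Fintype.card_fin]
  have hφeq : ∀ y, φ y = rexp (-b * ∑ l, y l ^ 2) := by
    intro y
    simp only [hφ]
    rw [← Real.exp_sum, Finset.mul_sum]
  set S : Set (Fin w → ℝ) := {y : Fin w → ℝ | ∑ l, y l ^ 2 ≤ 1} with hS
  have hSm : MeasurableSet S := by
    apply IsClosed.measurableSet
    exact isClosed_le (by fun_prop) continuous_const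
  have h1 : ENNReal.ofReal (rexp (-b)) * volume S ≤ ENNReal.ofReal (∫ y, φ y) := by
    rw [ofReal_integral_eq_lintegral_ofReal hφint (Eventually.of_forall fun y => by
      rw [hφeq]; exact (exp_pos _).le)]
    calc ENNReal.ofReal (rexp (-b)) * volume S
        = ∫⁻ _ in S, ENNReal.ofReal (rexp (-b)) := by simp
      _ ≤ ∫⁻ y in S, ENNReal.ofReal (φ y) := by
          apply setLIntegral_mono' hSm
          intro y hy
          apply ENNReal.ofReal_le_ofReal
          rw [hφeq]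
          apply Real.exp_le_exp.2
          have : ∑ l, y l ^ 2 ≤ 1 := hy
          nlinarith
      _ ≤ _ := setLIntegral_le_lintegral _ _
  have hval : rexp b * (√(π / b)) ^ w = (2 * π * rexp 1 / w) ^ ((w : ℝ) / 2) := by
    have e1 : 2 * π * rexp 1 / w = (π / b) * rexp 1 := by
      rw [hb]; field_simp
    rw [e1, Real.mul_rpow (by positivity) (exp_pos _).le]
    have e2 : (π / b) ^ ((w : ℝ) / 2) = (√(π / b)) ^ w := by
      rw [Real.sqrt_eq_rpow, ← Real.rpow_natCast, ← Real.rpow_mul (by positivity)]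
      congr 1; ring
    have e3 : (rexp 1) ^ ((w : ℝ) / 2) = rexp b := by
      rw [← Real.exp_mul, one_mul]
    rw [e2, e3]; ring
  rw [← hval]
  unfold vb
  apply ENNReal.toReal_le_of_le_ofReal (by positivity)
  have h2 : volume S ≤ ENNReal.ofReal (rexp b) * ENNReal.ofReal (∫ y, φ y) := by
    calc volume S = ENNReal.ofReal (rexp b) * (ENNReal.ofReal (rexp (-b)) * volume S) := by
          rw [← mul_assoc, ← ENNReal.ofReal_mul (exp_pos _).le, ← Real.exp_add]
          simp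
      _ ≤ _ := by gcongr
  rw [hφval, ← ENNReal.ofReal_mul (exp_pos _).le] at h2
  exact h2

/-- Separated sets of the unit sphere are small. -/
lemma sep_card_le (hd : 1 ≤ d) (N : Finset (E d)) (hN1 : ∀ e ∈ N, ‖e‖ = 1)
    (hN2 : ∀ e ∈ N, ∀ e' ∈ N, e ≠ e' → 1 / 2 < ‖e - e'‖) : N.card ≤ 5 ^ d := by
  have : Nonempty (Fin d) := ⟨⟨0, hd⟩⟩
  have : Nontrivial (E d) := by
    have : Nontrivial (Fin d → ℝ) := inferInstance
    exact (WithLp.linearEquiv 2 ℝ (Fin d → ℝ)).toEquiv.nontrivial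
  have hfr : Module.finrank ℝ (E d) = d := by simp
  set c := (volume : Measure (E d)) (Metric.ball 0 1) with hc
  have hc0 : c ≠ 0 := (Metric.measure_ball_pos _ _ one_pos).ne'
  have hct : c ≠ ∞ := measure_ball_lt_top.ne
  have hdisj : (N : Set (E d)).PairwiseDisjoint fun e => Metric.ball e (1 / 4 : ℝ) := by
    intro e he e' he' hne
    apply Set.disjoint_left.2
    intro z hz hz'
    have h1 := hN2 e he e' he' hne
    have h2 : dist z e < 1 / 4 := hz
    have h3 : dist z e' < 1 / 4 := hz'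
    have h4 : dist e e' ≤ dist z e + dist z e' := dist_triangle_left _ _ _
    rw [dist_eq_norm] at h4
    linarith
  have hsub : (⋃ e ∈ N, Metric.ball e (1 / 4 : ℝ)) ⊆ Metric.ball (0 : E d) (5 / 4 : ℝ) := by
    intro z hz
    simp only [mem_iUnion] at hz
    obtain ⟨e, he, hz⟩ := hz
    have h2 : dist z e < 1 / 4 := hz
    have h3 : ‖e‖ = 1 := hN1 e he
    rw [Metric.mem_ball, dist_zero_right]
    have : ‖z‖ ≤ dist z e + ‖e‖ := by
      rw [dist_eq_norm]
      calc ‖z‖ = ‖(z - e) + e‖ := by simp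
        _ ≤ _ := norm_add_le _ _
    linarith
  have hmeas := measure_mono (μ := (volume : Measure (E d))) hsub
  rw [measure_biUnion_finset hdisj (fun _ _ => measurableSet_ball)] at hmeas
  have hv : ∀ e : E d, ∀ r : ℝ, 0 ≤ r → (volume : Measure (E d)) (Metric.ball e r) = ENNReal.ofReal (r ^ d) * c := by
    intro e r hr
    have := Measure.addHaar_ball (volume : Measure (E d)) e hr
    rwa [hfr] at this
  simp only [hv _ (1 / 4 : ℝ) (by norm_num), hv _ (5 / 4 : ℝ) (by norm_num),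
    Finset.sum_const, nsmul_eq_mul] at hmeas
  rw [← mul_assoc] at hmeas
  have h5 := (ENNReal.mul_le_mul_iff_left hc0 hct).1 hmeas
  have h6 : ((N.card : ℝ≥0∞)) * ENNReal.ofReal ((1 / 4 : ℝ) ^ d) =
      ENNReal.ofReal ((N.card : ℝ) * (1 / 4 : ℝ) ^ d) := by
    rw [ENNReal.ofReal_mul (by positivity), ENNReal.ofReal_natCast]
  rw [h6] at h5
  have h7 := (ENNReal.ofReal_le_ofReal_iff (by positivity)).1 h5
  have h8 : (N.card : ℝ) ≤ 5 ^ d := by
    have e1 : ((5 / 4 : ℝ)) ^ d = 5 ^ d * (1 / 4 : ℝ) ^ d := by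
      rw [← mul_pow]; norm_num
    rw [e1] at h7
    exact le_of_mul_le_mul_right h7 (by positivity)
  exact_mod_cast h8

/-- A `1/2`-net of the unit sphere of size at most `5^d`. -/
lemma exists_net (hd : 1 ≤ d) : ∃ N : Finset (E d), N.card ≤ 5 ^ d ∧ (∀ e ∈ N, ‖e‖ = 1) ∧
    ∀ x : E d, ‖x‖ = 1 → ∃ e ∈ N, ‖x - e‖ ≤ 1 / 2 := by
  classical
  let P : ℕ → Prop := fun n => ∃ N : Finset (E d), N.card = n ∧ (∀ e ∈ N, ‖e‖ = 1) ∧
    ∀ e ∈ N, ∀ e' ∈ N, e ≠ e' → 1 / 2 < ‖e - e'‖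
  have hP0 : P 0 := ⟨∅, by simp, by simp, by simp⟩
  set n := Nat.findGreatest P (5 ^ d) with hn
  have hPn : P n := Nat.findGreatest_spec (P := P) (m := 0) (Nat.zero_le _) hP0
  obtain ⟨N, hNc, hN1, hN2⟩ := hPn
  refine ⟨N, ?_, hN1, ?_⟩
  · rw [hNc]; exact Nat.findGreatest_le _
  intro x hx
  by_contra hcon
  push Not at hcon
  have hxN : x ∉ N := by
    intro hxN
    have := hcon x hxN
    simp at this
    linarith
  have hPs : P (n + 1) := by
    refine ⟨insert x N, by rw [Finset.card_insert_of_notMem hxN, hNc], ?_, ?_⟩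
    · intro e he
      rcases Finset.mem_insert.1 he with rfl | he
      · exact hx
      · exact hN1 e he
    · intro e he e' he' hne
      rcases Finset.mem_insert.1 he with h1 | h1 <;> rcases Finset.mem_insert.1 he' with h2 | h2
      · exact absurd (h1.trans h2.symm) hne
      · rw [h1]; exact hcon e' h2
      · rw [h2, norm_sub_rev]; exact hcon e h1
      · exact hN2 e h1 e' h2 hne
  have hle : n + 1 ≤ 5 ^ d := by
    obtain ⟨N', hc', h1', h2'⟩ := hPs
    rw [← hc']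
    exact sep_card_le hd N' h1' h2'
  have := Nat.le_findGreatest (P := P) hle hPs
  omega

/-- The exponential moment of the square of a standard Gaussian. -/
lemma gauss_exp_sq : ∫ y, rexp (y ^ 2 / 4) ∂(gaussianReal 0 1) = √2 := by
  rw [integral_gaussianReal_eq_integral_smul one_ne_zero]
  have h : ∀ y : ℝ, gaussianPDFReal 0 1 y • rexp (y ^ 2 / 4) = (√(2 * π))⁻¹ * rexp (-(1 / 4) * y ^ 2) := by
    intro y
    rw [gaussianPDFReal, smul_eq_mul, mul_assoc, ← Real.exp_add]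
    congr 2
    · simp
    · simp; ring
  simp_rw [h]
  rw [integral_const_mul, integral_gaussian]
  have e1 : π / (1 / 4) = 4 * π := by ring
  rw [e1]
  have e2 : √(4 * π) = √2 * √(2 * π) := by
    rw [← Real.sqrt_mul (by norm_num)]; congr 1; ring
  rw [e2]
  have : √(2 * π) ≠ 0 := by positivity
  field_simp

lemma gauss_exp_sq_int : Integrable (fun y : ℝ => rexp (y ^ 2 / 4)) (gaussianReal 0 1) := by
  rw [gaussianReal_of_var_ne_zero _ one_ne_zero]
  rw [integrable_withDensity_iff_integrable_smul₀' ((measurable_gaussianPDF 0 1).aemeasurable)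
    (ae_of_all _ fun _ ↦ gaussianPDF_lt_top)]
  have h : ∀ y : ℝ, (gaussianPDF 0 1 y).toReal • rexp (y ^ 2 / 4) = (√(2 * π))⁻¹ * rexp (-(1 / 4) * y ^ 2) := by
    intro y
    rw [gaussianPDF, ENNReal.toReal_ofReal (gaussianPDFReal_nonneg _ _ _)]
    rw [gaussianPDFReal, smul_eq_mul, mul_assoc, ← Real.exp_add]
    congr 2
    · simp
    · simp; ring
  simp_rw [h]
  exact (integrable_exp_neg_mul_sq (by norm_num)).const_mul _

lemma rows_chernoff {w : ℕ} {e : E d} (he : ‖e‖ = 1) :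
    (rowsM d w) {A | 8 * (d : ℝ) < ∑ l, ⟪A l, e⟫ ^ 2} ≤
      ENNReal.ofReal ((√2) ^ w * rexp (-(2 * (d : ℝ)))) := by
  have hm : Measurable (fun a : E d => ⟪a, e⟫) := by fun_prop
  have hint1 : Integrable (fun a : E d => rexp (⟪a, e⟫ ^ 2 / 4)) (stdGaussian (E d)) := by
    have h := gauss_exp_sq_int
    rw [← map_inner_gauss he] at h
    exact (integrable_map_measure (by fun_prop) hm.aemeasurable).1 h
  have hval1 : ∫ a : E d, rexp (⟪a, e⟫ ^ 2 / 4) ∂(stdGaussian (E d)) = √2 := by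
    have h := gauss_exp_sq
    rw [← map_inner_gauss he, integral_map hm.aemeasurable (by fun_prop)] at h
    exact h
  set g : Rows d w → ℝ := fun A => ∏ l, (fun a : E d => rexp (⟪a, e⟫ ^ 2 / 4)) (A l) with hg
  have hgint : Integrable g (rowsM d w) := by
    unfold rowsM
    exact Integrable.fintype_prod fun _ => hint1
  have hgval : ∫ A, g A ∂(rowsM d w) = (√2) ^ w := by
    unfold rowsM
    have := integral_fintype_prod_eq_pow (ι := Fin w) (𝕜 := ℝ) (μ := stdGaussian (E d))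
      (fun a : E d => rexp (⟪a, e⟫ ^ 2 / 4))
    simp only [hg, this, hval1, Fintype.card_fin]
  have hgeq : ∀ A, g A = rexp ((∑ l, ⟪A l, e⟫ ^ 2) / 4) := by
    intro A
    simp only [hg]
    rw [← Real.exp_sum, Finset.sum_div]
  have hmark := mul_meas_ge_le_integral_of_nonneg (μ := rowsM d w) (f := g)
    (Eventually.of_forall fun A => by rw [hgeq]; exact (exp_pos _).le) hgint (rexp (2 * (d : ℝ)))
  rw [hgval] at hmark
  have hsub : {A : Rows d w | 8 * (d : ℝ) < ∑ l, ⟪A l, e⟫ ^ 2} ⊆ {A | rexp (2 * (d : ℝ)) ≤ g A} := by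
    intro A hA
    change 8 * (d : ℝ) < ∑ l, ⟪A l, e⟫ ^ 2 at hA
    change rexp (2 * (d : ℝ)) ≤ g A
    rw [hgeq]
    apply Real.exp_le_exp.2
    linarith
  calc (rowsM d w) {A | 8 * (d : ℝ) < ∑ l, ⟪A l, e⟫ ^ 2}
      ≤ (rowsM d w) {A | rexp (2 * (d : ℝ)) ≤ g A} := measure_mono hsub
    _ = ENNReal.ofReal ((rowsM d w).real {A | rexp (2 * (d : ℝ)) ≤ g A}) := by
        rw [ofReal_measureReal]
    _ ≤ _ := by
        apply ENNReal.ofReal_le_ofReal
        have h0 := exp_pos (2 * (d : ℝ))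
        rw [Real.exp_neg]
        rw [← div_eq_mul_inv, le_div_iff₀ h0, mul_comm]
        exact hmark

/-- The net controls the operator norm. -/
lemma opBd_of_net {w : ℕ} (A : Rows d w) (N : Finset (E d))
    (hnet : ∀ x : E d, ‖x‖ = 1 → ∃ e ∈ N, ‖x - e‖ ≤ 1 / 2)
    (hN : ∀ e ∈ N, ∑ l, ⟪A l, e⟫ ^ 2 ≤ 8 * (d : ℝ)) : opBd (√32) A := by
  let Lz : E d →ₗ[ℝ] EuclideanSpace ℝ (Fin w) :=
    { toFun := fun x => WithLp.toLp 2 fun l => ⟪A l, x⟫
      map_add' := by
        intro x y; ext l; simp [inner_add_right]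
      map_smul' := by
        intro c x; ext l; simp [inner_smul_right] }
  let L : E d →L[ℝ] EuclideanSpace ℝ (Fin w) := LinearMap.toContinuousLinearMap Lz
  have hLn : ∀ x : E d, ‖L x‖ ^ 2 = ∑ l, ⟪A l, x⟫ ^ 2 := by
    intro x
    rw [EuclideanSpace.norm_sq_eq]
    simp [L, Lz]
  set c := √(8 * (d : ℝ)) with hc
  have hc0 : 0 ≤ c := Real.sqrt_nonneg _
  have hLe : ∀ e ∈ N, ‖L e‖ ≤ c := by
    intro e he
    rw [hc]
    apply Real.le_sqrt_of_sq_le
    rw [hLn]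
    exact hN e he
  have hop : ‖L‖ ≤ c + ‖L‖ / 2 := by
    apply ContinuousLinearMap.opNorm_le_of_unit_norm (by positivity)
    intro x hx
    obtain ⟨e, he, hxe⟩ := hnet x hx
    have h1 : ‖L (x - e)‖ ≤ ‖L‖ * ‖x - e‖ := L.le_opNorm _
    have h2 : ‖L‖ * ‖x - e‖ ≤ ‖L‖ * (1 / 2) := by gcongr
    have h3 : ‖L x‖ ≤ ‖L e‖ + ‖L (x - e)‖ := by
      calc ‖L x‖ = ‖L e + L (x - e)‖ := by rw [← map_add]; simp
        _ ≤ _ := norm_add_le _ _
    have := hLe e he
    linarith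
  have hop2 : ‖L‖ ≤ 2 * c := by linarith
  intro x
  rw [← hLn]
  have h1 : ‖L x‖ ≤ ‖L‖ * ‖x‖ := L.le_opNorm _
  have h2 : ‖L x‖ ≤ 2 * c * ‖x‖ := h1.trans (by gcongr)
  have hcsq : c ^ 2 = 8 * (d : ℝ) := by
    rw [hc]; exact Real.sq_sqrt (by positivity)
  have h32 : (√32) ^ 2 = 32 := Real.sq_sqrt (by norm_num)
  rw [h32]
  calc ‖L x‖ ^ 2 ≤ (2 * c * ‖x‖) ^ 2 := by gcongr
    _ = 32 * (d : ℝ) * ‖x‖ ^ 2 := by
        rw [mul_pow, mul_pow, hcsq]; ring

/-- MODULE OPNORM. Net of size `5^d` on the unit sphere (packing, `Measure.addHaar_closedBall`), and for a fixed unit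
`e` the Chernoff bound `E exp(∑ ⟪A l,e⟫²/4) = 2^(w/2)`, `P(∑ ⟪A l,e⟫² > 8 d) ≤ 2^(w/2) e^(-2d)`. -/
theorem opBd_tail {w : ℕ} (hw : 32 * w ≤ d) (hd : 1 ≤ d) :
    (rowsM d w) {A | ¬ opBd (√32) A} ≤ ENNReal.ofReal (rexp (-((d : ℝ) / 3))) := by
  obtain ⟨N, hNc, hN1, hnet⟩ := exists_net hd
  have hsub : {A : Rows d w | ¬ opBd (√32) A} ⊆
      ⋃ e ∈ N, {A : Rows d w | 8 * (d : ℝ) < ∑ l, ⟪A l, e⟫ ^ 2} := by
    intro A hA
    by_contra hcon
    simp only [mem_iUnion, not_exists] at hcon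
    apply hA
    apply opBd_of_net A N hnet
    intro e he
    have := hcon e he
    exact not_lt.1 this
  have hnum : (5 : ℝ) ^ d * ((√2) ^ w * rexp (-(2 * (d : ℝ)))) ≤ rexp (-((d : ℝ) / 3)) := by
    have h5 : (5 : ℝ) ≤ rexp (33 / 20) := by
      have h1 : rexp (33 / 20) = rexp 1 * rexp (13 / 20) := by
        rw [← Real.exp_add]; norm_num
      have h2 := Real.quadratic_le_exp_of_nonneg (x := 13 / 20) (by norm_num)
      have h3 := Real.exp_one_gt_d9
      rw [h1]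
      nlinarith [exp_pos (13 / 20 : ℝ)]
    have h2 : √2 ≤ rexp (1 / 2) := by
      apply Real.sqrt_le_iff.2
      refine ⟨(exp_pos _).le, ?_⟩
      rw [← Real.exp_nat_mul]
      have h3 := Real.exp_one_gt_d9
      norm_num
      linarith
    have h6 : (5 : ℝ) ^ d ≤ rexp ((33 / 20) * (d : ℝ)) := by
      calc (5 : ℝ) ^ d ≤ (rexp (33 / 20)) ^ d := by gcongr
        _ = _ := by rw [← Real.exp_nat_mul]; congr 1; ring
    have h7 : (√2) ^ w ≤ rexp ((d : ℝ) / 64) := by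
      calc (√2) ^ w ≤ (rexp (1 / 2)) ^ w := by gcongr
        _ = rexp ((w : ℝ) / 2) := by rw [← Real.exp_nat_mul]; congr 1; ring
        _ ≤ _ := by
          apply Real.exp_le_exp.2
          have : (32 : ℝ) * w ≤ d := by exact_mod_cast hw
          linarith
    calc (5 : ℝ) ^ d * ((√2) ^ w * rexp (-(2 * (d : ℝ))))
        ≤ rexp ((33 / 20) * (d : ℝ)) * (rexp ((d : ℝ) / 64) * rexp (-(2 * (d : ℝ)))) := by gcongr
      _ = rexp ((33 / 20) * (d : ℝ) + ((d : ℝ) / 64 + -(2 * (d : ℝ)))) := by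
          rw [Real.exp_add, Real.exp_add]
      _ ≤ _ := by
          apply Real.exp_le_exp.2
          have : (0 : ℝ) ≤ d := by positivity
          linarith
  calc (rowsM d w) {A | ¬ opBd (√32) A}
      ≤ (rowsM d w) (⋃ e ∈ N, {A : Rows d w | 8 * (d : ℝ) < ∑ l, ⟪A l, e⟫ ^ 2}) := measure_mono hsub
    _ ≤ ∑ e ∈ N, (rowsM d w) {A : Rows d w | 8 * (d : ℝ) < ∑ l, ⟪A l, e⟫ ^ 2} :=
        measure_biUnion_finset_le _ _
    _ ≤ ∑ _e ∈ N, ENNReal.ofReal ((√2) ^ w * rexp (-(2 * (d : ℝ)))) :=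
        Finset.sum_le_sum fun e he => rows_chernoff (hN1 e he)
    _ = (N.card : ℝ≥0∞) * ENNReal.ofReal ((√2) ^ w * rexp (-(2 * (d : ℝ)))) := by
        rw [Finset.sum_const, nsmul_eq_mul]
    _ ≤ ((5 : ℝ≥0∞) ^ d) * ENNReal.ofReal ((√2) ^ w * rexp (-(2 * (d : ℝ)))) := by
        gcongr
        exact_mod_cast hNc
    _ = ENNReal.ofReal ((5 : ℝ) ^ d * ((√2) ^ w * rexp (-(2 * (d : ℝ))))) := by
        rw [ENNReal.ofReal_mul (by positivity), ENNReal.ofReal_pow (by norm_num)]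
        norm_num
    _ ≤ _ := ENNReal.ofReal_le_ofReal hnum

/-- Constants of the window bound: `2^w v_w (2 √32 √d)^w ≤ e^(13.3 a)`, for `w = 2 a`, `d ≤ 128 a`. -/
theorem vb_const_le {d a : ℕ} (ha : 1 ≤ a) (hda : d ≤ 128 * a) :
    (2 : ℝ) ^ (2 * a) * vb (2 * a) * (2 * √32 * √(d : ℝ)) ^ (2 * a) ≤ rexp (13.3 * a) := by
  have ha0 : (0 : ℝ) < a := by exact_mod_cast ha
  have hw : 1 ≤ 2 * a := by omega
  have hv := vb_le hw
  have hvb0 : 0 ≤ vb (2 * a) := by unfold vb; positivity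
  have e1 : (((2 * a : ℕ) : ℝ) / 2) = a := by push_cast; ring
  rw [e1] at hv
  have e2 : (2 * √32 * √(d : ℝ)) ^ (2 * a) = (128 * (d : ℝ)) ^ a := by
    have e : (2 * √32 * √(d : ℝ)) ^ 2 = 128 * (d : ℝ) := by
      rw [mul_pow, mul_pow, Real.sq_sqrt (by norm_num), Real.sq_sqrt (by positivity)]
      norm_num
    rw [pow_mul, e]
  have e3 : (2 : ℝ) ^ (2 * a) = 4 ^ a := by
    rw [pow_mul]; norm_num
  rw [e2, e3]
  have h1 : (2 * π * rexp 1 / ((2 * a : ℕ) : ℝ)) ^ (a : ℝ) = (π * rexp 1 / a) ^ a := by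
    rw [Real.rpow_natCast]
    congr 1
    push_cast
    field_simp
  rw [h1] at hv
  have hdr : (d : ℝ) ≤ 128 * a := by exact_mod_cast hda
  have hbase : 4 * (π * rexp 1 / a) * (128 * (d : ℝ)) ≤ rexp 13.3 := by
    have h2 : 4 * (π * rexp 1 / a) * (128 * (d : ℝ)) ≤ 4 * (π * rexp 1 / a) * (128 * (128 * a)) := by
      gcongr
    have h3 : 4 * (π * rexp 1 / a) * (128 * (128 * a)) = 65536 * π * rexp 1 := by
      field_simp
      norm_num
    rw [h3] at h2
    refine h2.trans ?_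
    -- 65536 π ≤ e^12.3
    have hpi := Real.pi_lt_d2
    have he := Real.exp_one_gt_d9
    have h4 : rexp 13.3 = rexp 1 * rexp 12.3 := by
      rw [← Real.exp_add]; norm_num
    rw [h4]
    have h5 : (65536 : ℝ) * π ≤ rexp 12.3 := by
      have h6 : rexp 12.3 = (rexp 1) ^ 12 * rexp 0.3 := by
        rw [← Real.exp_nat_mul, ← Real.exp_add]; norm_num
      have h7 : (1.3 : ℝ) ≤ rexp 0.3 := by
        have := Real.add_one_le_exp (0.3 : ℝ); linarith
      have h8 : (2.718 : ℝ) ^ 12 ≤ (rexp 1) ^ 12 := by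
        gcongr; linarith
      rw [h6]
      have h9 : (65536 : ℝ) * π ≤ 65536 * 3.15 := by linarith
      have h10 : (65536 * 3.15 : ℝ) ≤ 2.718 ^ 12 * 1.3 := by norm_num
      calc (65536 : ℝ) * π ≤ 2.718 ^ 12 * 1.3 := h9.trans h10
        _ ≤ _ := mul_le_mul h8 h7 (by norm_num) (by positivity)
    nlinarith [exp_pos (1 : ℝ)]
  calc (4 : ℝ) ^ a * vb (2 * a) * (128 * (d : ℝ)) ^ a
      ≤ (4 : ℝ) ^ a * (π * rexp 1 / a) ^ a * (128 * (d : ℝ)) ^ a := by gcongr
    _ = (4 * (π * rexp 1 / a) * (128 * (d : ℝ))) ^ a := by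
        rw [mul_pow (4 * (π * rexp 1 / a)) (128 * (d : ℝ)) a, mul_pow 4 (π * rexp 1 / a) a]
    _ ≤ (rexp 13.3) ^ a := by gcongr
    _ = _ := by
        rw [← Real.exp_nat_mul]; congr 1; ring

end Vale.Agent.P309F
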