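import Vale.Agent.P309F.EnvA

open MeasureTheory ProbabilityTheory Real Set Filter Topology
open scoped RealInnerProductSpace ENNReal

namespace Vale.Agent.P309F
open Vale.Agent.P309

variable {d : ℕ}

/-! ### Measurability -/

theorem envB_measurable_massC {w : ℕ} (pr : Measure (E d)) [SFinite pr] (n : ℕ) :
    Measurable (fun p : Rows d w × (Fin w → ℤ) => massC pr n p.1 p.2) := by
  set S : Set ((Rows d w × (Fin w → ℤ)) × E d) := {q | cell n q.1.1 q.2 = q.1.2} with hS
  have hmS : MeasurableSet S := by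
    have h1 : Measurable (fun q : (Rows d w × (Fin w → ℤ)) × E d =>
        (Function.uncurry (cell n : Rows d w → E d → (Fin w → ℤ)) (q.1.1, q.2), q.1.2)) :=
      ((measurable_cell n d w).comp
        ((measurable_fst.comp measurable_fst).prodMk measurable_snd)).prodMk
        (measurable_snd.comp measurable_fst)
    have h2 : MeasurableSet {x : (Fin w → ℤ) × (Fin w → ℤ) | x.1 = x.2} :=
      MeasurableSet.of_discrete
    exact h1 h2
  have h3 := measurable_measure_prodMk_left (ν := pr) hmS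
  exact h3.ennreal_toReal

theorem envB_measurable_ballM {w : ℕ} (pr : Measure (E d)) [SFinite pr] (n : ℕ) (r : ℝ) :
    Measurable (fun p : Rows d w × (Fin w → ℤ) => ballM pr p.1 (yc n p.2) r) := by
  set S : Set ((Rows d w × (Fin w → ℤ)) × E d) :=
    {q | ∑ l, (⟪q.1.1 l, q.2⟫ - yc n q.1.2 l) ^ 2 ≤ r ^ 2} with hS
  have hmS : MeasurableSet S := by
    apply measurableSet_le _ measurable_const
    apply Finset.measurable_sum
    intro l _
    apply Measurable.pow_const
    apply Measurable.sub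
    · have h : Measurable (fun q : (Rows d w × (Fin w → ℤ)) × E d => (q.1.1 l, q.2)) :=
        ((measurable_pi_apply l).comp (measurable_fst.comp measurable_fst)).prodMk measurable_snd
      exact Learner.measurable_inner_pair.comp h
    · have h : Measurable (fun i : Fin w → ℤ => yc n i l) := Measurable.of_discrete
      exact h.comp (measurable_snd.comp measurable_fst)
  have h3 := measurable_measure_prodMk_left (ν := pr) hmS
  exact h3.ennreal_toReal

theorem envB_priorM_sfinite (f : E d → ℝ) : SFinite (priorM f) := by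
  unfold priorM
  infer_instance

theorem measurableSet_goodG {w : ℕ} (n L : ℕ) (K C0 : ℝ) (f : E d → ℝ) (hf : BddNN f) :
    MeasurableSet (goodG (w := w) (priorM f) n L K C0) := by
  haveI := envB_priorM_sfinite f
  have h1 : MeasurableSet {p : Rows d w × (Fin w → ℤ) | opBd C0 p.1} :=
    measurable_fst (measurableSet_opBd C0)
  have h2 : MeasurableSet {p : Rows d w × (Fin w → ℤ) |
      tauG d w n K C0 ≤ massC (priorM f) n p.1 p.2} :=
    measurableSet_le measurable_const (envB_measurable_massC _ n)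
  have h3 : MeasurableSet {p : Rows d w × (Fin w → ℤ) | ∀ l ∈ Finset.range (L + 1),
      ((1 / 2 : ℝ) ^ n) ^ w / K * ((rLev d C0 l)⁻¹) ^ w *
        ballM (priorM f) p.1 (yc n p.2) (rLev d C0 l) ≤ massC (priorM f) n p.1 p.2} := by
    have he : {p : Rows d w × (Fin w → ℤ) | ∀ l ∈ Finset.range (L + 1),
      ((1 / 2 : ℝ) ^ n) ^ w / K * ((rLev d C0 l)⁻¹) ^ w *
        ballM (priorM f) p.1 (yc n p.2) (rLev d C0 l) ≤ massC (priorM f) n p.1 p.2} =
        ⋂ l ∈ Finset.range (L + 1), {p : Rows d w × (Fin w → ℤ) |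
      ((1 / 2 : ℝ) ^ n) ^ w / K * ((rLev d C0 l)⁻¹) ^ w *
        ballM (priorM f) p.1 (yc n p.2) (rLev d C0 l) ≤ massC (priorM f) n p.1 p.2} := by
      ext p
      simp only [mem_setOf_eq, mem_iInter]
    rw [he]
    exact Finset.measurableSet_biInter _ fun l _ =>
      measurableSet_le ((envB_measurable_ballM _ n _).const_mul _) (envB_measurable_massC _ n)
  exact h1.inter (h2.inter h3)

/-! ### Volumes in the label space -/

lemma envB_sum_sq_add_le {ι : Type*} [Fintype ι] (a b : ι → ℝ) {p q : ℝ} (hp : 0 ≤ p) (hq : 0 ≤ q)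
    (ha : ∑ l, a l ^ 2 ≤ p ^ 2) (hb : ∑ l, b l ^ 2 ≤ q ^ 2) :
    ∑ l, (a l + b l) ^ 2 ≤ (p + q) ^ 2 := by
  have h := Finset.sum_mul_sq_le_sq_mul_sq Finset.univ a b
  have h0a : 0 ≤ ∑ l, a l ^ 2 := Finset.sum_nonneg fun _ _ => sq_nonneg _
  have h0b : 0 ≤ ∑ l, b l ^ 2 := Finset.sum_nonneg fun _ _ => sq_nonneg _
  have h1 : (∑ l, a l * b l) ^ 2 ≤ (p * q) ^ 2 := by
    calc (∑ l, a l * b l) ^ 2 ≤ (∑ l, a l ^ 2) * ∑ l, b l ^ 2 := h
      _ ≤ p ^ 2 * q ^ 2 := mul_le_mul ha hb h0b (sq_nonneg _)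
      _ = (p * q) ^ 2 := by ring
  have h2 : ∑ l, a l * b l ≤ p * q := by
    have := abs_le_of_sq_le_sq h1 (mul_nonneg hp hq)
    exact (le_abs_self _).trans this
  have h3 : ∑ l, (a l + b l) ^ 2 = ∑ l, a l ^ 2 + 2 * ∑ l, a l * b l + ∑ l, b l ^ 2 := by
    rw [Finset.mul_sum, ← Finset.sum_add_distrib, ← Finset.sum_add_distrib]
    exact Finset.sum_congr rfl fun l _ => by ring
  rw [h3]
  nlinarith

lemma envB_vb_set_finite (w : ℕ) : volume {y : Fin w → ℝ | ∑ l, y l ^ 2 ≤ 1} ≠ ⊤ := by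
  have hsub : {y : Fin w → ℝ | ∑ l, y l ^ 2 ≤ 1} ⊆ Icc (fun _ => -1) (fun _ => 1) := by
    intro y hy
    have h : ∀ l, y l ^ 2 ≤ 1 := fun l => by
      refine le_trans ?_ hy
      exact Finset.single_le_sum (f := fun l => y l ^ 2) (fun _ _ => sq_nonneg _) (Finset.mem_univ l)
    constructor
    · intro l
      exact (abs_le.1 ((sq_le_one_iff_abs_le_one _).1 (h l))).1
    · intro l
      exact (abs_le.1 ((sq_le_one_iff_abs_le_one _).1 (h l))).2
  exact ne_top_of_le_ne_top (isCompact_Icc.measure_lt_top.ne) (measure_mono hsub)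

lemma envB_vb_nonneg (w : ℕ) : 0 ≤ vb w := ENNReal.toReal_nonneg

open scoped Pointwise in
/-- The volume of a Euclidean ball in the coordinates of `Fin w → ℝ`. -/
lemma envB_volume_ball_eq {w : ℕ} (y : Fin w → ℝ) {R : ℝ} (hR : 0 < R) :
    volume {z : Fin w → ℝ | ∑ l, (z l - y l) ^ 2 ≤ R ^ 2} = ENNReal.ofReal (vb w * R ^ w) := by
  set U : Set (Fin w → ℝ) := {y : Fin w → ℝ | ∑ l, y l ^ 2 ≤ 1} with hU
  have hset : {z : Fin w → ℝ | ∑ l, (z l - y l) ^ 2 ≤ R ^ 2} =
      (fun z => z + (-y)) ⁻¹' (R • U) := by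
    ext z
    simp only [mem_setOf_eq, mem_preimage]
    rw [mem_smul_set_iff_inv_smul_mem₀ hR.ne', hU, mem_setOf_eq]
    have h1 : ∑ l, ((R⁻¹ • (z + -y)) l) ^ 2 = (∑ l, (z l - y l) ^ 2) * (R ^ 2)⁻¹ := by
      rw [Finset.sum_mul]
      apply Finset.sum_congr rfl
      intro l _
      simp only [Pi.smul_apply, Pi.add_apply, Pi.neg_apply, smul_eq_mul]
      field_simp
      ring
    rw [h1, ← div_eq_mul_inv, div_le_one (by positivity)]
  rw [hset, measure_preimage_add_right, Measure.addHaar_smul, Module.finrank_fin_fun,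
    abs_of_pos (by positivity)]
  unfold vb
  rw [ENNReal.ofReal_mul ENNReal.toReal_nonneg, ENNReal.ofReal_toReal (envB_vb_set_finite w), mul_comm]

/-- The half open cube of a cell in the label space. -/
noncomputable def envB_cubeC {w : ℕ} (n : ℕ) (i : Fin w → ℤ) : Set (Fin w → ℝ) :=
  Set.pi univ fun l => Ico (yc n i l) (yc n i l + (1 / 2 : ℝ) ^ n)

lemma envB_volume_cubeC {w : ℕ} (n : ℕ) (i : Fin w → ℤ) :
    volume (envB_cubeC n i) = ENNReal.ofReal (((1 / 2 : ℝ) ^ n) ^ w) := by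
  unfold envB_cubeC
  rw [Real.volume_pi_Ico]
  simp only [add_sub_cancel_left]
  rw [Finset.prod_const, Finset.card_univ, Fintype.card_fin,
    ← ENNReal.ofReal_pow (by positivity)]

lemma envB_measurableSet_cubeC {w : ℕ} (n : ℕ) (i : Fin w → ℤ) : MeasurableSet (envB_cubeC n i) :=
  MeasurableSet.univ_pi fun _ => measurableSet_Ico

lemma envB_disjoint_cubeC {w : ℕ} (n : ℕ) {i j : Fin w → ℤ} (hij : i ≠ j) :
    Disjoint (envB_cubeC n i) (envB_cubeC n j) := by
  rw [Set.disjoint_left]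
  intro z hi hj
  apply hij
  funext l
  have h1 := hi l (mem_univ l)
  have h2 := hj l (mem_univ l)
  unfold yc at h1 h2
  have hδ : (0 : ℝ) < (1 / 2 : ℝ) ^ n := by positivity
  have h3 : (1 / 2 : ℝ) ^ n * (i l : ℝ) < (1 / 2 : ℝ) ^ n * ((j l : ℝ) + 1) := by
    have := h1.1.trans_lt h2.2
    linarith
  have h4 : (1 / 2 : ℝ) ^ n * (j l : ℝ) < (1 / 2 : ℝ) ^ n * ((i l : ℝ) + 1) := by
    have := h2.1.trans_lt h1.2
    linarith
  have h5 : (i l : ℝ) < (j l : ℝ) + 1 := lt_of_mul_lt_mul_left h3 hδ.le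
  have h6 : (j l : ℝ) < (i l : ℝ) + 1 := lt_of_mul_lt_mul_left h4 hδ.le
  have h7 : i l < j l + 1 := by exact_mod_cast h5
  have h8 : j l < i l + 1 := by exact_mod_cast h6
  omega

/-- Counting cells close to a point by the volume of the cubes. -/
lemma envB_count_cells_le {w : ℕ} (n : ℕ) {r : ℝ} (hr : 0 < r)
    (hδ : √(w : ℝ) * (1 / 2 : ℝ) ^ n ≤ r) (y : Fin w → ℝ) :
    ∑' i : Fin w → ℤ, (if ∑ l, (y l - yc n i l) ^ 2 ≤ r ^ 2
        then ENNReal.ofReal (((1 / 2 : ℝ) ^ n) ^ w) else 0) ≤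
      ENNReal.ofReal (vb w * (2 * r) ^ w) := by
  classical
  set S : (Fin w → ℤ) → Set (Fin w → ℝ) := fun i =>
    if ∑ l, (y l - yc n i l) ^ 2 ≤ r ^ 2 then envB_cubeC n i else ∅ with hS
  have hvol : ∀ i, volume (S i) = if ∑ l, (y l - yc n i l) ^ 2 ≤ r ^ 2
      then ENNReal.ofReal (((1 / 2 : ℝ) ^ n) ^ w) else 0 := by
    intro i
    simp only [hS]
    split_ifs
    · exact envB_volume_cubeC n i
    · simp
  have hmS : ∀ i, MeasurableSet (S i) := by
    intro i
    simp only [hS]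
    split_ifs
    · exact envB_measurableSet_cubeC n i
    · exact MeasurableSet.empty
  have hdisj : Pairwise (fun i j => Disjoint (S i) (S j)) := by
    intro i j hij
    have h := envB_disjoint_cubeC n hij
    refine Set.disjoint_of_subset ?_ ?_ h
    · simp only [hS]
      split_ifs
      · exact Subset.rfl
      · exact empty_subset _
    · simp only [hS]
      split_ifs
      · exact Subset.rfl
      · exact empty_subset _
  have hsub : (⋃ i, S i) ⊆ {z : Fin w → ℝ | ∑ l, (z l - y l) ^ 2 ≤ (2 * r) ^ 2} := by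
    intro z hz
    obtain ⟨i, hi⟩ := mem_iUnion.1 hz
    simp only [hS] at hi
    split_ifs at hi with hc
    · have h1 : ∑ l, (z l - yc n i l) ^ 2 ≤ r ^ 2 := by
        have hb : ∀ l, (z l - yc n i l) ^ 2 ≤ ((1 / 2 : ℝ) ^ n) ^ 2 := by
          intro l
          have := hi l (mem_univ l)
          have h0 : 0 ≤ z l - yc n i l := by linarith [this.1]
          have h2 : z l - yc n i l ≤ (1 / 2 : ℝ) ^ n := by linarith [this.2]
          exact pow_le_pow_left₀ h0 h2 2
        calc ∑ l, (z l - yc n i l) ^ 2 ≤ ∑ _l : Fin w, ((1 / 2 : ℝ) ^ n) ^ 2 :=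
              Finset.sum_le_sum fun l _ => hb l
          _ = (√(w : ℝ) * (1 / 2 : ℝ) ^ n) ^ 2 := by
              rw [Finset.sum_const, Finset.card_univ, Fintype.card_fin, nsmul_eq_mul, mul_pow,
                Real.sq_sqrt (Nat.cast_nonneg _)]
          _ ≤ r ^ 2 := pow_le_pow_left₀ (by positivity) hδ 2
      have h2 : ∑ l, (yc n i l - y l) ^ 2 ≤ r ^ 2 := by
        refine le_trans (le_of_eq ?_) hc
        exact Finset.sum_congr rfl fun l _ => by ring
      have h3 := envB_sum_sq_add_le (fun l => z l - yc n i l) (fun l => yc n i l - y l) hr.le hr.le h1 h2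
      have h4 : ∀ l, z l - yc n i l + (yc n i l - y l) = z l - y l := fun l => by ring
      simp only [h4] at h3
      rw [mem_setOf_eq, two_mul]
      exact h3
    · exact absurd hi (by simp)
  calc ∑' i : Fin w → ℤ, (if ∑ l, (y l - yc n i l) ^ 2 ≤ r ^ 2
        then ENNReal.ofReal (((1 / 2 : ℝ) ^ n) ^ w) else 0)
      = ∑' i, volume (S i) := tsum_congr fun i => (hvol i).symm
    _ = volume (⋃ i, S i) := (measure_iUnion hdisj hmS).symm
    _ ≤ volume {z : Fin w → ℝ | ∑ l, (z l - y l) ^ 2 ≤ (2 * r) ^ 2} := measure_mono hsub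
    _ = ENNReal.ofReal (vb w * (2 * r) ^ w) := envB_volume_ball_eq y (by positivity)

/-! ### The cells failing a test at one scale -/

/-- For fixed rows and a fixed scale, the cells failing the test have small total mass. -/
lemma envB_test_fail_mass {w : ℕ} (pr : Measure (E d)) [IsProbabilityMeasure pr] (A : Rows d w)
    (n : ℕ) {r K : ℝ} (hr : 0 < r) (hK : 0 < K) (hδ : √(w : ℝ) * (1 / 2 : ℝ) ^ n ≤ r) :
    pr {s | massC pr n A (cell n A s) <
        ((1 / 2 : ℝ) ^ n) ^ w / K * (r⁻¹) ^ w * ballM pr A (yc n (cell n A s)) r} ≤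
      ENNReal.ofReal (2 ^ w * vb w / K) := by
  classical
  set c : ℝ := (r⁻¹) ^ w / K with hc
  have hc0 : 0 ≤ c := by positivity
  set B : (Fin w → ℤ) → Set (E d) := fun i => {x | ∑ l, (⟪A l, x⟫ - yc n i l) ^ 2 ≤ r ^ 2} with hB
  have hmB : ∀ i, MeasurableSet (B i) := by
    intro i
    apply measurableSet_le _ measurable_const
    apply Finset.measurable_sum
    intro l _
    apply Measurable.pow_const
    apply Measurable.sub _ measurable_const
    exact (continuous_const.inner continuous_id).measurable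
  have hsub : {s | massC pr n A (cell n A s) <
        ((1 / 2 : ℝ) ^ n) ^ w / K * (r⁻¹) ^ w * ballM pr A (yc n (cell n A s)) r} ⊆
      ⋃ i : Fin w → ℤ, {s | massC pr n A i <
        ((1 / 2 : ℝ) ^ n) ^ w / K * (r⁻¹) ^ w * ballM pr A (yc n i) r ∧ cell n A s = i} := by
    intro s hs
    exact mem_iUnion.2 ⟨cell n A s, hs, rfl⟩
  have hterm : ∀ i : Fin w → ℤ, pr {s | massC pr n A i <
        ((1 / 2 : ℝ) ^ n) ^ w / K * (r⁻¹) ^ w * ballM pr A (yc n i) r ∧ cell n A s = i} ≤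
      ∫⁻ x, (if x ∈ B i then ENNReal.ofReal c * ENNReal.ofReal (((1 / 2 : ℝ) ^ n) ^ w) else 0) ∂pr := by
    intro i
    have hl : ∫⁻ x, (if x ∈ B i then ENNReal.ofReal c * ENNReal.ofReal (((1 / 2 : ℝ) ^ n) ^ w) else 0) ∂pr
        = ENNReal.ofReal c * ENNReal.ofReal (((1 / 2 : ℝ) ^ n) ^ w) * pr (B i) := by
      have : (fun x => if x ∈ B i then ENNReal.ofReal c * ENNReal.ofReal (((1 / 2 : ℝ) ^ n) ^ w) else 0)
          = (B i).indicator (fun _ => ENNReal.ofReal c * ENNReal.ofReal (((1 / 2 : ℝ) ^ n) ^ w)) := by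
        funext x
        simp [Set.indicator_apply]
      rw [this, lintegral_indicator (hmB i), lintegral_const, Measure.restrict_apply_univ]
    rw [hl]
    by_cases hi : massC pr n A i <
        ((1 / 2 : ℝ) ^ n) ^ w / K * (r⁻¹) ^ w * ballM pr A (yc n i) r
    · have h1 : {s | massC pr n A i <
        ((1 / 2 : ℝ) ^ n) ^ w / K * (r⁻¹) ^ w * ballM pr A (yc n i) r ∧ cell n A s = i} =
          cell n A ⁻¹' {i} := by
        ext s
        exact ⟨fun h => h.2, fun h => ⟨hi, h⟩⟩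
      rw [h1]
      have h2 : pr (cell n A ⁻¹' {i}) = ENNReal.ofReal (massC pr n A i) := by
        unfold massC
        rw [ofReal_measureReal]
      rw [h2]
      have h3 : ENNReal.ofReal c * ENNReal.ofReal (((1 / 2 : ℝ) ^ n) ^ w) * pr (B i) =
          ENNReal.ofReal (((1 / 2 : ℝ) ^ n) ^ w / K * (r⁻¹) ^ w * ballM pr A (yc n i) r) := by
        have h4 : pr (B i) = ENNReal.ofReal (ballM pr A (yc n i) r) := by
          unfold ballM
          rw [ofReal_measureReal]
        rw [h4, ← ENNReal.ofReal_mul hc0, ← ENNReal.ofReal_mul (by positivity)]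
        congr 1
        rw [hc]
        field_simp
      rw [h3]
      exact ENNReal.ofReal_le_ofReal hi.le
    · have h1 : {s | massC pr n A i <
        ((1 / 2 : ℝ) ^ n) ^ w / K * (r⁻¹) ^ w * ballM pr A (yc n i) r ∧ cell n A s = i} = ∅ := by
        ext s
        exact ⟨fun h => absurd h.1 hi, fun h => absurd h (notMem_empty s)⟩
      rw [h1]
      simp
  have hmeasB : ∀ i, Measurable (fun x =>
      if x ∈ B i then ENNReal.ofReal c * ENNReal.ofReal (((1 / 2 : ℝ) ^ n) ^ w) else 0) := by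
    intro i
    exact Measurable.ite (hmB i) measurable_const measurable_const
  have hpt : ∀ x : E d, ∑' i : Fin w → ℤ,
      (if x ∈ B i then ENNReal.ofReal c * ENNReal.ofReal (((1 / 2 : ℝ) ^ n) ^ w) else 0) ≤
      ENNReal.ofReal (2 ^ w * vb w / K) := by
    intro x
    have h1 := envB_count_cells_le n hr hδ (obs A x)
    have h2 : ∀ i : Fin w → ℤ,
        (if x ∈ B i then ENNReal.ofReal c * ENNReal.ofReal (((1 / 2 : ℝ) ^ n) ^ w) else 0) =
        ENNReal.ofReal c * (if ∑ l, (obs A x l - yc n i l) ^ 2 ≤ r ^ 2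
          then ENNReal.ofReal (((1 / 2 : ℝ) ^ n) ^ w) else 0) := by
      intro i
      by_cases h : x ∈ B i
      · have h' : ∑ l, (obs A x l - yc n i l) ^ 2 ≤ r ^ 2 := h
        rw [if_pos h, if_pos h']
      · have h' : ¬ ∑ l, (obs A x l - yc n i l) ^ 2 ≤ r ^ 2 := h
        rw [if_neg h, if_neg h', mul_zero]
    simp_rw [h2]
    rw [ENNReal.tsum_mul_left]
    calc ENNReal.ofReal c * _ ≤ ENNReal.ofReal c * ENNReal.ofReal (vb w * (2 * r) ^ w) := by
          gcongr
      _ = ENNReal.ofReal (2 ^ w * vb w / K) := by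
          rw [← ENNReal.ofReal_mul hc0]
          congr 1
          rw [hc, mul_pow, inv_pow]
          field_simp
  calc _ ≤ pr (⋃ i : Fin w → ℤ, {s | massC pr n A i <
        ((1 / 2 : ℝ) ^ n) ^ w / K * (r⁻¹) ^ w * ballM pr A (yc n i) r ∧ cell n A s = i}) :=
        measure_mono hsub
    _ ≤ ∑' i : Fin w → ℤ, pr {s | massC pr n A i <
        ((1 / 2 : ℝ) ^ n) ^ w / K * (r⁻¹) ^ w * ballM pr A (yc n i) r ∧ cell n A s = i} :=
        measure_iUnion_le _
    _ ≤ ∑' i : Fin w → ℤ, ∫⁻ x, (if x ∈ B i then ENNReal.ofReal c *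
          ENNReal.ofReal (((1 / 2 : ℝ) ^ n) ^ w) else 0) ∂pr := ENNReal.tsum_le_tsum hterm
    _ = ∫⁻ x, ∑' i : Fin w → ℤ, (if x ∈ B i then ENNReal.ofReal c *
          ENNReal.ofReal (((1 / 2 : ℝ) ^ n) ^ w) else 0) ∂pr :=
        (lintegral_tsum fun i => (hmeasB i).aemeasurable).symm
    _ ≤ ∫⁻ _x, ENNReal.ofReal (2 ^ w * vb w / K) ∂pr := lintegral_mono hpt
    _ = ENNReal.ofReal (2 ^ w * vb w / K) := by
        rw [lintegral_const, measure_univ, mul_one]

/-! ### Good cells -/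

lemma envB_rho_pos (l : ℕ) : 0 < rho l := by
  unfold rho
  positivity

lemma envB_rho_anti {l L : ℕ} (h : l ≤ L) : rho L ≤ rho l := by
  unfold rho
  have : ((1 : ℝ) / 2) ^ L ≤ (1 / 2) ^ l := pow_le_pow_of_le_one (by norm_num) (by norm_num) h
  linarith

lemma envB_rho_le_one {L : ℕ} (h : 1 ≤ L) : rho L ≤ 1 := by
  have h1 := envB_rho_anti h
  refine h1.trans (le_of_eq ?_)
  unfold rho
  norm_num

lemma envB_rLev_pos {d : ℕ} (hd : 0 < d) {C0 : ℝ} (hC : 0 < C0) (l : ℕ) : 0 < rLev d C0 l := by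
  unfold rLev
  have := envB_rho_pos l
  have hs : 0 < √(d : ℝ) := Real.sqrt_pos.2 (by exact_mod_cast hd)
  positivity

/-- Every unit vector is close to the corner of the cell of a unit vector. -/
lemma envB_unit_in_ball {w : ℕ} (hd : 0 < d) {C0 : ℝ} (hC : 0 < C0) (n L : ℕ) (hL : 1 ≤ L)
    (hδ : √(w : ℝ) * (1 / 2 : ℝ) ^ n ≤ rLev d C0 L) (A : Rows d w) (hA : opBd C0 A)
    {s x : E d} (hs : ‖s‖ = 1) (hx : ‖x‖ = 1) :
    ∑ l, (⟪A l, x⟫ - yc n (cell n A s) l) ^ 2 ≤ (rLev d C0 0) ^ 2 := by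
  have hsd : 0 < √(d : ℝ) := Real.sqrt_pos.2 (by exact_mod_cast hd)
  set p : ℝ := 2 * C0 * √(d : ℝ) with hp
  have hp0 : 0 < p := by positivity
  have h1 : ∑ l, (⟪A l, x - s⟫) ^ 2 ≤ p ^ 2 := by
    have h := hA (x - s)
    have hn : ‖x - s‖ ≤ 2 := by
      calc ‖x - s‖ ≤ ‖x‖ + ‖s‖ := norm_sub_le _ _
        _ = 2 := by rw [hx, hs]; norm_num
    have hn2 : ‖x - s‖ ^ 2 ≤ 4 := by
      have := pow_le_pow_left₀ (norm_nonneg _) hn 2
      linarith
    have hd0 : (0 : ℝ) ≤ d := Nat.cast_nonneg _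
    calc ∑ l, (⟪A l, x - s⟫) ^ 2 ≤ C0 ^ 2 * (d : ℝ) * ‖x - s‖ ^ 2 := h
      _ ≤ C0 ^ 2 * (d : ℝ) * 4 := by gcongr
      _ = p ^ 2 := by
          rw [hp, mul_pow, mul_pow, Real.sq_sqrt hd0]
          ring
  have hδ0 : (0 : ℝ) < (1 / 2 : ℝ) ^ n := by positivity
  have h2 : ∑ l, (⟪A l, s⟫ - yc n (cell n A s) l) ^ 2 ≤ p ^ 2 := by
    have hb : ∀ l, (⟪A l, s⟫ - yc n (cell n A s) l) ^ 2 ≤ ((1 / 2 : ℝ) ^ n) ^ 2 := by
      intro l
      have hfl := Int.floor_le ((2 : ℝ) ^ n * ⟪A l, s⟫)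
      have hfl2 := Int.lt_floor_add_one ((2 : ℝ) ^ n * ⟪A l, s⟫)
      have h2n : (1 / 2 : ℝ) ^ n * (2 : ℝ) ^ n = 1 := by
        rw [← mul_pow]
        norm_num
      have e : yc n (cell n A s) l = (1 / 2 : ℝ) ^ n * (⌊(2 : ℝ) ^ n * ⟪A l, s⟫⌋ : ℝ) := rfl
      have h3 : (1 / 2 : ℝ) ^ n * (⌊(2 : ℝ) ^ n * ⟪A l, s⟫⌋ : ℝ) ≤ ⟪A l, s⟫ := by
        calc (1 / 2 : ℝ) ^ n * (⌊(2 : ℝ) ^ n * ⟪A l, s⟫⌋ : ℝ)
            ≤ (1 / 2 : ℝ) ^ n * ((2 : ℝ) ^ n * ⟪A l, s⟫) := by gcongr
          _ = ⟪A l, s⟫ := by rw [← mul_assoc, h2n, one_mul]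
      have h4 : ⟪A l, s⟫ ≤ (1 / 2 : ℝ) ^ n * (⌊(2 : ℝ) ^ n * ⟪A l, s⟫⌋ : ℝ) + (1 / 2 : ℝ) ^ n := by
        calc ⟪A l, s⟫ = (1 / 2 : ℝ) ^ n * ((2 : ℝ) ^ n * ⟪A l, s⟫) := by
              rw [← mul_assoc, h2n, one_mul]
          _ ≤ (1 / 2 : ℝ) ^ n * ((⌊(2 : ℝ) ^ n * ⟪A l, s⟫⌋ : ℝ) + 1) := by gcongr
          _ = _ := by ring
      rw [e]
      exact pow_le_pow_left₀ (by linarith) (by linarith) 2
    calc ∑ l, (⟪A l, s⟫ - yc n (cell n A s) l) ^ 2 ≤ ∑ _l : Fin w, ((1 / 2 : ℝ) ^ n) ^ 2 :=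
          Finset.sum_le_sum fun l _ => hb l
      _ = (√(w : ℝ) * (1 / 2 : ℝ) ^ n) ^ 2 := by
          rw [Finset.sum_const, Finset.card_univ, Fintype.card_fin, nsmul_eq_mul, mul_pow,
            Real.sq_sqrt (Nat.cast_nonneg _)]
      _ ≤ p ^ 2 := by
          apply pow_le_pow_left₀ (by positivity)
          refine hδ.trans ?_
          unfold rLev
          have := envB_rho_le_one hL
          calc 2 * C0 * √(d : ℝ) * rho L ≤ 2 * C0 * √(d : ℝ) * 1 := by gcongr
            _ = p := by rw [hp, mul_one]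
  have h3 := envB_sum_sq_add_le (fun l => ⟪A l, x - s⟫) (fun l => ⟪A l, s⟫ - yc n (cell n A s) l)
    hp0.le hp0.le h1 h2
  have h4 : ∀ l, ⟪A l, x - s⟫ + (⟪A l, s⟫ - yc n (cell n A s) l) =
      ⟪A l, x⟫ - yc n (cell n A s) l := by
    intro l
    rw [inner_sub_right]
    ring
  simp only [h4] at h3
  have h5 : rLev d C0 0 = p + p := by
    unfold rLev rho
    rw [hp]
    norm_num
    ring
  rw [h5]
  exact h3

/-- For rows with bounded norm, the bad part of the sphere has small prior mass. -/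
lemma envB_section_bad {w : ℕ} (hw : 32 * w ≤ d) (hw1 : 1 ≤ w) (n L : ℕ) (hL : 1 ≤ L) {K : ℝ}
    (hK : 0 < K) (f : E d → ℝ) (hf : BddNN f) (hf1 : ∫ s, f s ∂(sphereM d) = 1)
    (hδ : √(w : ℝ) * (1 / 2 : ℝ) ^ n ≤ rLev d (√32) L) (A : Rows d w) (hA : opBd (√32) A) :
    priorM f {s | (A, cell n A s) ∉ goodG (priorM f) n L K (√32)} ≤
      ENNReal.ofReal (((L : ℝ) + 1) * 2 ^ w * vb w / K) := by
  have hd : 0 < d := by omega
  haveI : IsProbabilityMeasure (priorM f) := priorM_isProb hf hf1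
  have hC : (0 : ℝ) < √32 := by positivity
  set pr := priorM f with hpr
  set FS : ℕ → Set (E d) := fun l => {s | massC pr n A (cell n A s) <
    ((1 / 2 : ℝ) ^ n) ^ w / K * ((rLev d (√32) l)⁻¹) ^ w *
      ballM pr A (yc n (cell n A s)) (rLev d (√32) l)} with hFS
  have hae : ∀ᵐ s ∂pr, s ∈ {s | (A, cell n A s) ∉ goodG pr n L K (√32)} →
      s ∈ ⋃ l ∈ Finset.range (L + 1), FS l := by
    filter_upwards [priorM_ae_unit hd f] with s hs hbad
    by_contra hno
    apply hbad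
    have hpass : ∀ l ∈ Finset.range (L + 1),
        ((1 / 2 : ℝ) ^ n) ^ w / K * ((rLev d (√32) l)⁻¹) ^ w *
          ballM pr A (yc n (cell n A s)) (rLev d (√32) l) ≤ massC pr n A (cell n A s) := by
      intro l hl
      by_contra hlt
      apply hno
      exact mem_biUnion (Finset.mem_coe.2 hl) (not_le.1 hlt)
    refine ⟨hA, ?_, hpass⟩
    have h0 := hpass 0 (Finset.mem_range.2 (by omega))
    have hball : ballM pr A (yc n (cell n A s)) (rLev d (√32) 0) = 1 := by
      unfold ballM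
      have hae2 : ∀ᵐ x ∂pr, x ∈ {x | ∑ l, (⟪A l, x⟫ - yc n (cell n A s) l) ^ 2 ≤
          (rLev d (√32) 0) ^ 2} := by
        filter_upwards [priorM_ae_unit hd f] with x hx
        exact envB_unit_in_ball hd hC n L hL hδ A hA hs hx
      have : pr {x | ∑ l, (⟪A l, x⟫ - yc n (cell n A s) l) ^ 2 ≤ (rLev d (√32) 0) ^ 2} = 1 :=
        (measure_congr (Filter.eventuallyEq_univ.2 hae2)).trans measure_univ
      rw [measureReal_def, this]
      simp
    rw [hball, mul_one] at h0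
    exact h0
  have hterm : ∀ l ∈ Finset.range (L + 1), pr (FS l) ≤ ENNReal.ofReal (2 ^ w * vb w / K) := by
    intro l hl
    have hl' : l ≤ L := by
      have := Finset.mem_range.1 hl
      omega
    apply envB_test_fail_mass pr A n (envB_rLev_pos hd hC l) hK
    refine hδ.trans ?_
    unfold rLev
    have := envB_rho_anti hl'
    gcongr
  calc pr {s | (A, cell n A s) ∉ goodG pr n L K (√32)}
      ≤ pr (⋃ l ∈ Finset.range (L + 1), FS l) := measure_mono_ae hae
    _ ≤ ∑ l ∈ Finset.range (L + 1), pr (FS l) := measure_biUnion_finset_le _ _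
    _ ≤ ∑ _l ∈ Finset.range (L + 1), ENNReal.ofReal (2 ^ w * vb w / K) :=
        Finset.sum_le_sum hterm
    _ = ENNReal.ofReal (((L : ℝ) + 1) * 2 ^ w * vb w / K) := by
        rw [Finset.sum_const, Finset.card_range, nsmul_eq_mul]
        have : ((L + 1 : ℕ) : ℝ≥0∞) = ENNReal.ofReal ((L : ℝ) + 1) := by
          rw [← ENNReal.ofReal_natCast]
          push_cast
          rfl
        rw [this, ← ENNReal.ofReal_mul (by positivity)]
        congr 1
        ring

/-- MODULE GOODCELLS. Fubini in the label space: for fixed rows `A` with `opBd`, scale `l`, the bad cells at that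
scale have total mass at most `2^w vb w / K`: `∑ i δ^w 1(‖y - yc i‖ ≤ r) ≤ vol B(y, r + √w δ) ≤ vb w (2r)^w` for
`√w δ ≤ r` (disjoint cubes with corners `yc i`), then `∫ dpr(x)`. Cells with mass below `tauG` that pass the test at
scale `0` contain no unit vector (the ball of radius `rLev 0` around the corner of a cell containing a unit vector
contains the labels of all unit vectors) so they have mass `0`. Then integrate over `A` with `opBd_tail`. -/
theorem bad_mass {w : ℕ} (hw1 : 1 ≤ w) (hw : 32 * w ≤ d) (n L : ℕ) (hL : 1 ≤ L) {K : ℝ} (hK : 0 < K)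
    (f : E d → ℝ) (hf : BddNN f) (hf1 : ∫ s, f s ∂(sphereM d) = 1)
    (hδ : √(w : ℝ) * (1 / 2 : ℝ) ^ n ≤ rLev d (√32) L) :
    ∫ s, f s * (rowsM d w).real {A | (A, cell n A s) ∉ goodG (priorM f) n L K (√32)} ∂(sphereM d) ≤
      rexp (-((d : ℝ) / 3)) + ((L : ℝ) + 1) * 2 ^ w * vb w / K := by
  have hd : 0 < d := by omega
  haveI : IsProbabilityMeasure (priorM f) := priorM_isProb hf hf1
  set pr := priorM f with hpr
  set c : ℝ := ((L : ℝ) + 1) * 2 ^ w * vb w / K with hc
  have hc0 : 0 ≤ c := by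
    have := envB_vb_nonneg w
    positivity
  set T : Set (Rows d w × E d) := {q | (q.1, cell n q.1 q.2) ∉ goodG pr n L K (√32)} with hT
  have hmT : MeasurableSet T := by
    have h0 : Measurable (fun q : Rows d w × E d => (q.1, Function.uncurry (cell n) q)) :=
      measurable_fst.prodMk (measurable_cell n d w)
    exact h0 (measurableSet_goodG n L K (√32) f hf).compl
  have hsec : ∀ s, {A : Rows d w | (A, cell n A s) ∉ goodG pr n L K (√32)} = (fun A => (A, s)) ⁻¹' T :=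
    fun s => rfl
  have hmsec : Measurable fun s => rowsM d w ((fun A => (A, s)) ⁻¹' T) :=
    measurable_measure_prodMk_right hmT
  -- the main bound in `ℝ≥0∞`
  have hmain : ∫⁻ A, pr {s | (A, s) ∈ T} ∂(rowsM d w) ≤
      ENNReal.ofReal (rexp (-((d : ℝ) / 3))) + ENNReal.ofReal c := by
    have hpt : ∀ A : Rows d w, pr {s | (A, s) ∈ T} ≤
        ({A | ¬ opBd (√32) A} : Set (Rows d w)).indicator (fun _ => 1) A + ENNReal.ofReal c := by
      intro A
      by_cases hA : opBd (√32) A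
      · exact (envB_section_bad hw hw1 n L hL hK f hf hf1 hδ A hA).trans le_add_self
      · rw [Set.indicator_of_mem (show A ∈ {A | ¬ opBd (√32) A} from hA)]
        exact (prob_le_one).trans le_self_add
    have hmO : MeasurableSet {A : Rows d w | ¬ opBd (√32) A} := (measurableSet_opBd _).compl
    calc ∫⁻ A, pr {s | (A, s) ∈ T} ∂(rowsM d w)
        ≤ ∫⁻ A, (({A | ¬ opBd (√32) A} : Set (Rows d w)).indicator (fun _ => 1) A +
            ENNReal.ofReal c) ∂(rowsM d w) := lintegral_mono hpt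
      _ = (rowsM d w) {A | ¬ opBd (√32) A} + ENNReal.ofReal c := by
          rw [lintegral_add_right _ measurable_const, lintegral_indicator_const hmO, one_mul,
            lintegral_const, measure_univ, mul_one]
      _ ≤ _ := by
          gcongr
          exact opBd_tail hw (by omega)
  have hfub : ∫⁻ s, rowsM d w ((fun A => (A, s)) ⁻¹' T) ∂pr =
      ∫⁻ A, pr {s | (A, s) ∈ T} ∂(rowsM d w) := by
    have e1 := Measure.prod_apply (μ := rowsM d w) (ν := pr) hmT
    have e2 := Measure.prod_apply_symm (μ := rowsM d w) (ν := pr) hmT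
    rw [e1] at e2
    exact e2.symm
  have hdens : ∫⁻ s, rowsM d w ((fun A => (A, s)) ⁻¹' T) ∂pr =
      ∫⁻ s, ENNReal.ofReal (f s * (rowsM d w).real ((fun A => (A, s)) ⁻¹' T)) ∂(sphereM d) := by
    rw [hpr]
    unfold priorM
    rw [lintegral_withDensity_eq_lintegral_mul _ hf.meas.ennreal_ofReal hmsec]
    apply lintegral_congr
    intro s
    simp only [Pi.mul_apply]
    rw [ENNReal.ofReal_mul (hf.nonneg s), ofReal_measureReal]
  have hnn : 0 ≤ᵐ[sphereM d] fun s => f s * (rowsM d w).real ((fun A => (A, s)) ⁻¹' T) :=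
    Filter.Eventually.of_forall fun s => mul_nonneg (hf.nonneg s) measureReal_nonneg
  have hmeas : AEStronglyMeasurable (fun s => f s * (rowsM d w).real ((fun A => (A, s)) ⁻¹' T))
      (sphereM d) :=
    (hf.meas.mul hmsec.ennreal_toReal).aestronglyMeasurable
  simp_rw [hsec]
  rw [integral_eq_lintegral_of_nonneg_ae hnn hmeas]
  apply ENNReal.toReal_le_of_le_ofReal (by positivity)
  rw [← hdens, hfub, ENNReal.ofReal_add (by positivity) hc0]
  exact hmain

end Vale.Agent.P309F
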