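import Vale.Agent.P309F.ProjMoment

open MeasureTheory ProbabilityTheory Real Set Filter Topology
open scoped RealInnerProductSpace ENNReal

namespace Vale.Agent.P309F
open Vale.Agent.P309

variable {d : ℕ}

/-- MODULE COLLISION. Capped form of `row_collision`: `row_step` and monotonicity of the sets. -/
theorem row_collision_cap {u : ℕ} (s : Fin (u + 1) → E d) {δ : ℝ} (hδ : 0 < δ) :
    stdGaussian (E d) {a | ∀ j, |⟪a, s j - s 0⟫| < δ} ≤
      ∏ j : Fin u, ENNReal.ofReal (δ * (max (hdist (spanBelow s (j + 1)) (s j.succ)) δ)⁻¹) := by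
  induction u with
  | zero =>
    simp only [Finset.univ_eq_empty, Finset.prod_empty]
    exact prob_le_one
  | succ u ih =>
    rw [Fin.prod_univ_castSucc]
    have hih := ih (s ∘ Fin.castSucc)
    have hrw : (∏ j : Fin u, ENNReal.ofReal (δ * (max (hdist (spanBelow (s ∘ Fin.castSucc) (j + 1))
            ((s ∘ Fin.castSucc) j.succ)) δ)⁻¹)) =
        ∏ j : Fin u, ENNReal.ofReal (δ * (max (hdist (spanBelow s ((j.castSucc : Fin (u + 1)) + 1))
            (s (j.castSucc : Fin (u + 1)).succ)) δ)⁻¹) := by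
      refine Finset.prod_congr rfl fun j _ => ?_
      have h1 : spanBelow (s ∘ Fin.castSucc) ((j : ℕ) + 1) =
          spanBelow s ((j.castSucc : Fin (u + 1)) + 1) := by
        rw [Fin.val_castSucc]
        exact (spanBelow_castSucc s (by omega)).symm
      have h2 : (s ∘ Fin.castSucc) j.succ = s (j.castSucc : Fin (u + 1)).succ := by
        simp only [Function.comp, Fin.succ_castSucc]
      rw [h1, h2]
    rw [hrw] at hih
    have hlast : (Fin.last u).succ = Fin.last (u + 1) := Fin.succ_last u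
    have hval : ((Fin.last u : Fin (u + 1)) : ℕ) + 1 = u + 1 := by simp
    rw [hlast, hval]
    have h0 : s 0 = (s ∘ Fin.castSucc) 0 := by simp [Function.comp]
    have hsets : {a : E d | ∀ j : Fin (u + 1), |⟪a, s j.castSucc - s 0⟫| < δ} =
        {a : E d | ∀ j : Fin (u + 1), |⟪a, (s ∘ Fin.castSucc) j - (s ∘ Fin.castSucc) 0⟫| < δ} := by
      rw [← h0]; rfl
    rw [← hsets] at hih
    have hmain : stdGaussian (E d) {a | ∀ j, |⟪a, s j - s 0⟫| < δ} ≤
        stdGaussian (E d) {a : E d | ∀ j : Fin (u + 1), |⟪a, s j.castSucc - s 0⟫| < δ} *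
        ENNReal.ofReal (δ * (max (hdist (spanBelow s (u + 1)) (s (Fin.last (u + 1)))) δ)⁻¹) := by
      by_cases hh : δ ≤ hdist (spanBelow s (u + 1)) (s (Fin.last (u + 1)))
      · rw [max_eq_left hh]
        have hpos : 0 < hdist (spanBelow s (u + 1)) (s (Fin.last (u + 1))) := lt_of_lt_of_le hδ hh
        rw [ENNReal.ofReal_mul hδ.le, ENNReal.ofReal_inv_of_pos hpos]
        exact row_step s hδ
      · rw [max_eq_right (le_of_not_ge hh), mul_inv_cancel₀ hδ.ne']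
        simp only [ENNReal.ofReal_one, mul_one]
        exact measure_mono (fun a ha j => ha _)
    exact hmain.trans (mul_le_mul_left hih _)

/-- The distance to a subspace is at most the distance to any of its points. -/
lemma envC_hdist_le_sub (W : Submodule ℝ (E d)) (x : E d) {w : E d} (hw : w ∈ W) :
    hdist W x ≤ ‖x - w‖ := by
  unfold hdist
  have h1 : ⟪x - W.starProjection x, W.starProjection x - w⟫ = 0 :=
    (Submodule.mem_orthogonal' W _).mp (Submodule.sub_starProjection_mem_orthogonal x) _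
      (W.sub_mem (Submodule.starProjection_apply_mem W x) hw)
  have h2 : x - w = (x - W.starProjection x) + (W.starProjection x - w) := by abel
  have h3 : ‖x - w‖ ^ 2 = ‖x - W.starProjection x‖ ^ 2 + ‖W.starProjection x - w‖ ^ 2 := by
    rw [h2, @norm_add_sq_real, h1]; ring
  have h4 : ‖x - W.starProjection x‖ ^ 2 ≤ ‖x - w‖ ^ 2 := by
    rw [h3]; nlinarith [sq_nonneg ‖W.starProjection x - w‖]
  exact (sq_le_sq₀ (norm_nonneg _) (norm_nonneg _)).mp h4

/-- A linear functional on the span of a sequence with separated terms. -/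
lemma envC_inner_span_le {u : ℕ} (h : Fin (u + 1) → E d) (h0 : h 0 = 0) {σ₀ : ℝ} (hσ₀ : 0 < σ₀)
    (hnorm : ∀ i, ‖h i‖ ≤ 2)
    (hsep : ∀ j : Fin u, σ₀ ≤ hdist (spanBelow h (j + 1)) (h j.succ))
    (a : E d) {η : ℝ} (hη : 0 ≤ η) (ha : ∀ i, |⟪a, h i⟫| ≤ η) :
    ∀ k : ℕ, k ≤ u → ∀ z ∈ spanBelow h (k + 1),
      |⟪a, z⟫| ≤ η * ‖z‖ * ((1 + 2 / σ₀) ^ k - 1) := by
  intro k
  induction k with
  | zero =>
    intro _ z hz
    have hsub : spanBelow h (0 + 1) ≤ ⊥ := by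
      unfold spanBelow
      rw [Submodule.span_le]
      rintro x ⟨i, hi, rfl⟩
      have hi' : (i : ℕ) < 0 + 1 := hi
      have : i = 0 := Fin.ext (by rw [Fin.val_zero]; omega)
      rw [this, h0]
      simp
    have hz0 : z = 0 := by simpa using hsub hz
    simp [hz0]
  | succ k ih =>
    intro hk z hz
    set j : Fin u := ⟨k, by omega⟩ with hj
    have hjv : (j : ℕ) = k := rfl
    set W := spanBelow h (k + 1) with hW
    set y := h j.succ with hy
    have hins : spanBelow h (k + 1 + 1) = Submodule.span ℝ (insert y (h '' {i | (i : ℕ) < k + 1})) := by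
      unfold spanBelow
      congr 1
      ext x
      constructor
      · rintro ⟨i, hi, rfl⟩
        have hi' : (i : ℕ) < k + 1 + 1 := hi
        by_cases hik : (i : ℕ) = k + 1
        · left
          have : i = j.succ := by ext; simp [hj, hik]
          rw [this]
        · right
          exact ⟨i, by show (i : ℕ) < k + 1; omega, rfl⟩
      · rintro (rfl | ⟨i, hi, rfl⟩)
        · exact ⟨j.succ, by show ((j.succ : Fin (u + 1)) : ℕ) < k + 1 + 1; simp [hj], rfl⟩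
        · have hi' : (i : ℕ) < k + 1 := hi
          exact ⟨i, by show (i : ℕ) < k + 1 + 1; omega, rfl⟩
    rw [hins, Submodule.mem_span_insert] at hz
    obtain ⟨c, z₀, hz₀, rfl⟩ := hz
    have hz₀W : z₀ ∈ W := hz₀
    have hsepj : σ₀ ≤ hdist W y := hsep j
    set e := y - W.starProjection y with he
    have hene : ‖e‖ = hdist W y := rfl
    have hepos : 0 < ‖e‖ := lt_of_lt_of_le hσ₀ (by rw [hene]; exact hsepj)
    have horth : ∀ w ∈ W, ⟪w, e⟫ = 0 := fun w hw =>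
      (Submodule.mem_orthogonal W _).mp (Submodule.sub_starProjection_mem_orthogonal y) w hw
    have hye : ⟪y, e⟫ = ‖e‖ ^ 2 := by
      have h1 : y = e + W.starProjection y := by rw [he]; abel
      have h2 := horth _ (Submodule.starProjection_apply_mem W y)
      calc ⟪y, e⟫ = ⟪e + W.starProjection y, e⟫ := by rw [← h1]
        _ = ⟪e, e⟫ + ⟪W.starProjection y, e⟫ := inner_add_left _ _ _
        _ = ‖e‖ ^ 2 := by rw [h2, add_zero, real_inner_self_eq_norm_sq]
    set z := c • y + z₀ with hzdef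
    have hze : ⟪z, e⟫ = c * ‖e‖ ^ 2 := by
      rw [hzdef, inner_add_left, inner_smul_left, horth z₀ hz₀W, hye]
      simp
    have hc1 : |c| * ‖e‖ ≤ ‖z‖ := by
      have h1 : |c * ‖e‖ ^ 2| ≤ ‖z‖ * ‖e‖ := by
        rw [← hze]
        exact abs_real_inner_le_norm z e
      rw [abs_mul, abs_of_nonneg (by positivity : (0 : ℝ) ≤ ‖e‖ ^ 2)] at h1
      have h2 : (|c| * ‖e‖) * ‖e‖ ≤ ‖z‖ * ‖e‖ := by nlinarith
      exact le_of_mul_le_mul_right h2 hepos
    have hc2 : |c| * σ₀ ≤ ‖z‖ := by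
      have h1 : |c| * σ₀ ≤ |c| * ‖e‖ :=
        mul_le_mul_of_nonneg_left (by rw [hene]; exact hsepj) (abs_nonneg c)
      linarith
    have hz0eq : z₀ = z - c • y := by rw [hzdef]; abel
    have hz0n : ‖z₀‖ ≤ ‖z‖ + |c| * 2 := by
      rw [hz0eq]
      refine (norm_sub_le _ _).trans ?_
      rw [norm_smul, Real.norm_eq_abs]
      have := hnorm j.succ
      have h3 : |c| * ‖y‖ ≤ |c| * 2 := mul_le_mul_of_nonneg_left this (abs_nonneg c)
      linarith
    have hih := ih (by omega) z₀ hz₀W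
    set Λ := 1 + 2 / σ₀ with hΛ
    have hΛ1 : 1 ≤ Λ := by rw [hΛ]; have : 0 < 2 / σ₀ := by positivity
                           linarith
    have hΛk : 0 ≤ Λ ^ k - 1 := by
      have := one_le_pow₀ hΛ1 (n := k)
      linarith
    have hcle : |c| ≤ ‖z‖ / σ₀ := by rw [le_div_iff₀ hσ₀]; exact hc2
    have hz0n' : ‖z₀‖ ≤ ‖z‖ * Λ := by
      have : |c| * 2 ≤ ‖z‖ / σ₀ * 2 := by nlinarith
      rw [hΛ]
      have h5 : ‖z‖ * (1 + 2 / σ₀) = ‖z‖ + ‖z‖ / σ₀ * 2 := by ring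
      rw [h5]; linarith
    have hinner : ⟪a, z⟫ = c * ⟪a, y⟫ + ⟪a, z₀⟫ := by
      rw [hzdef, inner_add_right, inner_smul_right]
    have habs : |⟪a, z⟫| ≤ |c| * η + |⟪a, z₀⟫| := by
      rw [hinner]
      refine (abs_add_le _ _).trans ?_
      rw [abs_mul]
      have := mul_le_mul_of_nonneg_left (ha j.succ) (abs_nonneg c)
      linarith
    have h6 : |⟪a, z₀⟫| ≤ η * (‖z‖ * Λ) * (Λ ^ k - 1) :=
      hih.trans (mul_le_mul_of_nonneg_right (mul_le_mul_of_nonneg_left hz0n' hη) hΛk)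
    have h7 : |c| * η ≤ ‖z‖ / σ₀ * η := mul_le_mul_of_nonneg_right hcle hη
    have h8 : η * (‖z‖ * Λ) * (Λ ^ k - 1) + ‖z‖ / σ₀ * η = η * ‖z‖ * (Λ ^ (k + 1) - 1) - η * ‖z‖ / σ₀ := by
      have hL : Λ = 1 + 2 / σ₀ := hΛ
      have h9 : ‖z‖ / σ₀ * η = η * ‖z‖ / σ₀ := by ring
      have h10 : η * ‖z‖ * Λ = η * ‖z‖ + 2 * (η * ‖z‖ / σ₀) := by
        rw [hL]; ring
      rw [h9, pow_succ]
      have h11 : η * (‖z‖ * Λ) * (Λ ^ k - 1) = (η * ‖z‖) * (Λ ^ k * Λ) - (η * ‖z‖ * Λ) := by ring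
      rw [h11, h10]
      ring
    have h12 : 0 ≤ η * ‖z‖ / σ₀ := by positivity
    linarith


/-- The span of the range is the span below the top index. -/
lemma envC_span_range_eq {u : ℕ} (h : Fin (u + 1) → E d) :
    Submodule.span ℝ (Set.range h) = spanBelow h (u + 1) := by
  unfold spanBelow
  congr 1
  ext x
  constructor
  · rintro ⟨i, rfl⟩
    exact ⟨i, i.2, rfl⟩
  · rintro ⟨i, _, rfl⟩
    exact ⟨i, rfl⟩

/-- Labels of a unit vector close to the affine hull of colliding unit vectors. -/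
lemma envC_labels_close {w u n : ℕ} {A : Rows d w} {s : Fin (u + 1) → E d} {C0 σ₀ ρ : ℝ}
    (hC0 : 0 ≤ C0) (hσ₀ : 0 < σ₀) (hρ : 0 ≤ ρ) (hs : ∀ j, ‖s j‖ = 1) (hsep : ∀ j, σ₀ ≤ dSeq s j)
    (hcol : ∀ j, cell n A (s j) = cell n A (s 0)) (hop : opBd C0 A)
    (hn : √(w : ℝ) * (1 / 2 : ℝ) ^ n * (1 + 2 * ((1 + 2 / σ₀) ^ u - 1)) ≤ C0 * √(d : ℝ) * ρ)
    {x : E d} (hx : ‖x‖ = 1) (hxd : dAff s x ≤ ρ) :
    ∑ l, (⟪A l, x⟫ - yc n (cell n A (s 0)) l) ^ 2 ≤ (2 * C0 * √(d : ℝ) * ρ) ^ 2 := by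
  set δ : ℝ := (1 / 2 : ℝ) ^ n with hδ
  have hδ0 : 0 < δ := by positivity
  set W := Submodule.span ℝ (Set.range (hseq s)) with hW
  set v := x - s 0 with hv
  set z := W.starProjection v with hz
  have hzW : z ∈ spanBelow (hseq s) (u + 1) := by
    rw [← envC_span_range_eq]
    exact Submodule.starProjection_apply_mem W v
  have hvn : ‖v‖ ≤ 2 := by
    calc ‖v‖ ≤ ‖x‖ + ‖s 0‖ := norm_sub_le _ _
      _ = 2 := by rw [hx, hs 0]; norm_num
  have hzn : ‖z‖ ≤ 2 := (Submodule.norm_starProjection_apply_le W v).trans hvn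
  have hyn : ‖v - z‖ ≤ ρ := hxd
  set Λ := 1 + 2 / σ₀ with hΛ
  have hΛ1 : 1 ≤ Λ := by
    have : 0 < 2 / σ₀ := by positivity
    rw [hΛ]; linarith
  have hΛu : 0 ≤ Λ ^ u - 1 := by
    have := one_le_pow₀ hΛ1 (n := u)
    linarith
  have hcoll : ∀ l i, |⟪A l, hseq s i⟫| ≤ δ := by
    intro l i
    exact le_of_lt ((cell_subset w n s hcol) l (mem_univ l) i)
  have hnorm : ∀ i, ‖hseq s i‖ ≤ 2 := by
    intro i
    calc ‖s i - s 0‖ ≤ ‖s i‖ + ‖s 0‖ := norm_sub_le _ _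
      _ = 2 := by rw [hs i, hs 0]; norm_num
  have hβ1 : ∀ l, |⟪A l, z⟫| ≤ δ * 2 * (Λ ^ u - 1) := by
    intro l
    have h1 := envC_inner_span_le (hseq s) (by simp [hseq]) hσ₀ hnorm hsep (A l) hδ0.le (hcoll l) u le_rfl
      z hzW
    refine h1.trans ?_
    exact mul_le_mul_of_nonneg_right (mul_le_mul_of_nonneg_left hzn hδ0.le) hΛu
  have hβ2 : ∀ l, |⟪A l, s 0⟫ - yc n (cell n A (s 0)) l| ≤ δ := by
    intro l
    have h2n : (2 : ℝ) ^ n * δ = 1 := by
      rw [hδ, ← mul_pow]; norm_num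
    have h2pos : (0 : ℝ) < 2 ^ n := by positivity
    have hyc : yc n (cell n A (s 0)) l = δ * (⌊(2 : ℝ) ^ n * ⟪A l, s 0⟫⌋ : ℝ) := rfl
    rw [hyc]
    set t := ⟪A l, s 0⟫ with ht
    have hf1 := Int.floor_le ((2 : ℝ) ^ n * t)
    have hf2 := Int.lt_floor_add_one ((2 : ℝ) ^ n * t)
    have ht' : t = δ * ((2 : ℝ) ^ n * t) := by
      calc t = ((2 : ℝ) ^ n * δ) * t := by rw [h2n, one_mul]
        _ = δ * ((2 : ℝ) ^ n * t) := by ring
    have h3 : t - δ * (⌊(2 : ℝ) ^ n * t⌋ : ℝ) = δ * ((2 : ℝ) ^ n * t - (⌊(2 : ℝ) ^ n * t⌋ : ℝ)) := by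
      nth_rewrite 1 [ht']
      ring
    rw [h3, abs_mul, abs_of_pos hδ0, abs_of_nonneg (by linarith)]
    have h4 : (2 : ℝ) ^ n * t - (⌊(2 : ℝ) ^ n * t⌋ : ℝ) ≤ 1 := by linarith
    nlinarith
  set B := δ * (1 + 2 * (Λ ^ u - 1)) with hB
  have hB0 : 0 ≤ B := by positivity
  have hterm : ∀ l, (⟪A l, x⟫ - yc n (cell n A (s 0)) l) ^ 2 ≤ 2 * ⟪A l, v - z⟫ ^ 2 + 2 * B ^ 2 := by
    intro l
    have h1 : ⟪A l, x⟫ - yc n (cell n A (s 0)) l =
        ⟪A l, v - z⟫ + (⟪A l, z⟫ + (⟪A l, s 0⟫ - yc n (cell n A (s 0)) l)) := by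
      rw [hv, inner_sub_right, inner_sub_right]
      ring
    have h2 : |⟪A l, z⟫ + (⟪A l, s 0⟫ - yc n (cell n A (s 0)) l)| ≤ B := by
      refine (abs_add_le _ _).trans ?_
      have := hβ1 l
      have := hβ2 l
      rw [hB]
      nlinarith
    set β := ⟪A l, z⟫ + (⟪A l, s 0⟫ - yc n (cell n A (s 0)) l) with hβ
    have h3 : β ^ 2 ≤ B ^ 2 := by
      rw [← sq_abs β]
      exact pow_le_pow_left₀ (abs_nonneg _) h2 2
    rw [h1]
    nlinarith [sq_nonneg (⟪A l, v - z⟫ - β)]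
  have hsum : ∑ l, (⟪A l, x⟫ - yc n (cell n A (s 0)) l) ^ 2 ≤
      2 * ∑ l, ⟪A l, v - z⟫ ^ 2 + 2 * ((w : ℝ) * B ^ 2) := by
    refine (Finset.sum_le_sum fun l _ => hterm l).trans (le_of_eq ?_)
    rw [Finset.sum_add_distrib, Finset.mul_sum, Finset.sum_const, Finset.card_univ,
      Fintype.card_fin, nsmul_eq_mul]
    ring
  have hop' := hop (v - z)
  have hd0 : (0 : ℝ) ≤ d := by positivity
  have hsqd : √(d : ℝ) ^ 2 = d := Real.sq_sqrt hd0
  have hsqw : √(w : ℝ) ^ 2 = w := Real.sq_sqrt (by positivity)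
  have hop'' : ∑ l, ⟪A l, v - z⟫ ^ 2 ≤ C0 ^ 2 * (d : ℝ) * ρ ^ 2 := by
    refine hop'.trans (mul_le_mul_of_nonneg_left ?_ (by positivity))
    exact pow_le_pow_left₀ (norm_nonneg _) hyn 2
  have hwB : (w : ℝ) * B ^ 2 ≤ C0 ^ 2 * (d : ℝ) * ρ ^ 2 := by
    have h1 : √(w : ℝ) * B ≤ C0 * √(d : ℝ) * ρ := by
      have : √(w : ℝ) * B = √(w : ℝ) * δ * (1 + 2 * (Λ ^ u - 1)) := by rw [hB]; ring
      rw [this]
      exact hn
    have h2 : (√(w : ℝ) * B) ^ 2 ≤ (C0 * √(d : ℝ) * ρ) ^ 2 :=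
      pow_le_pow_left₀ (by positivity) h1 2
    have h3 : (√(w : ℝ) * B) ^ 2 = (w : ℝ) * B ^ 2 := by rw [mul_pow, hsqw]
    have h4 : (C0 * √(d : ℝ) * ρ) ^ 2 = C0 ^ 2 * (d : ℝ) * ρ ^ 2 := by rw [mul_pow, mul_pow, hsqd]
    rwa [h3, h4] at h2
  have hfin : (2 * C0 * √(d : ℝ) * ρ) ^ 2 = 4 * (C0 ^ 2 * (d : ℝ) * ρ ^ 2) := by
    rw [mul_pow, mul_pow, mul_pow, hsqd]
    ring
  rw [hfin]
  linarith

lemma envC_cancel_pow (x : ℝ) (hx : x ≠ 0) (w u : ℕ) : ((x ^ w)⁻¹) ^ u * (x ^ u) ^ w = 1 := by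
  rw [inv_pow, ← pow_mul, ← pow_mul, mul_comm u w]
  exact inv_mul_cancel₀ (pow_ne_zero _ hx)

/-- MODULE ENVELOPE. For a tuple of unit vectors. On a good cell with all replicas colliding: for `x` a unit vector with
`dAff s x ≤ rho l`, with foot `z`, `z - s 0 = ∑ λ j hseq s j.succ`, `∑ |λ j| ≤ 4 Lam` when all `dSeq s j ≥ σ₀` (triangular system,
`|λ last| ≤ ‖v‖/σ₀`), the labels satisfy `‖obs A x - yc i‖ ≤ C0 √d rho l + √w δ (1 + 4 Lam) ≤ rLev l`, so
`(rho l)⁻¹^w pr{dAff s x ≤ rho l} ≤ K (2 C0 √d)^w δ^(-w) mass`; `tauG` gives the same for the trivial term of `aLev` and for the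
other tuples. Collision probability: `cell_subset`, `row_collision_cap` for `hseq s`, to the power `w`. The `δ` cancel. -/
theorem Fn_bound {w u : ℕ} (n L : ℕ) {K σ₀ : ℝ} (hK : 0 < K) (hσ₀ : 0 < σ₀)
    (f : E d → ℝ) (hf : BddNN f) (hf1 : ∫ s, f s ∂(sphereM d) = 1)
    (hn : √(w : ℝ) * (1 / 2 : ℝ) ^ n * (1 + 2 * ((1 + 2 / σ₀) ^ u - 1)) ≤ √32 * √(d : ℝ) * rho L)
    (s : Fin (u + 1) → E d) (hs : ∀ j, ‖s j‖ = 1) :
    Fn (w := w) (priorM f) n L K (√32) s ≤
      (K * (2 * √32 * √(d : ℝ)) ^ w) ^ u * (∏ j : Fin u, ((max (dSeq s j) ((1 / 2 : ℝ) ^ n))⁻¹) ^ w) *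
        ((aSharp (priorM f) w L σ₀ s)⁻¹) ^ u := by
  classical
  have hd : 0 < d := by
    rcases Nat.eq_zero_or_pos d with h0 | h0
    · subst h0
      have h1 := hs 0
      have h2 : s 0 = 0 := Subsingleton.elim _ _
      rw [h2, norm_zero] at h1
      norm_num at h1
    · exact h0
  haveI := priorM_isProb hf hf1
  set pr := priorM f with hpr
  set δ : ℝ := (1 / 2 : ℝ) ^ n with hδ
  have hδ0 : 0 < δ := by positivity
  set C0 : ℝ := √32 with hC0def
  have hC0 : 0 < C0 := by positivity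
  have hsd : 0 < √(d : ℝ) := by positivity
  have hrho : ∀ l, 0 < rho l := fun l => by unfold rho; positivity
  set a := aSharp pr w L σ₀ s with ha
  have ha0 : 0 < a := by
    have h1 : ((rho 0)⁻¹) ^ w ≤ a := by
      rw [ha]
      unfold aSharp
      split_ifs with h
      · unfold aLev
        exact le_max_left _ _
      · exact le_rfl
    exact lt_of_lt_of_le (pow_pos (inv_pos.mpr (hrho 0)) w) h1
  set X := (2 * C0 * √(d : ℝ)) ^ w with hX
  have hX0 : 0 < X := by positivity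
  set T := K * X * (δ ^ w)⁻¹ with hT
  have hT0 : 0 < T := by positivity
  have hTl : ∀ l, T * (δ ^ w / K * ((rLev d C0 l)⁻¹) ^ w) = ((rho l)⁻¹) ^ w := by
    intro l
    have hr : rLev d C0 l = (2 * C0 * √(d : ℝ)) * rho l := rfl
    rw [hr, mul_inv, mul_pow, inv_pow (2 * C0 * √(d : ℝ)), ← hX, hT]
    have h1 : δ ^ w ≠ 0 := by positivity
    field_simp
  have key : ∀ A : Rows d w, (A, cell n A (s 0)) ∈ goodG pr n L K C0 →
      (∀ j, cell n A (s j) = cell n A (s 0)) → a ≤ T * massC pr n A (cell n A (s 0)) := by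
    intro A hgood hcol
    obtain ⟨hop, htau, hball⟩ := hgood
    have hfirst : ((rho 0)⁻¹) ^ w ≤ T * massC pr n A (cell n A (s 0)) := by
      rw [← hTl 0]
      exact mul_le_mul_of_nonneg_left htau hT0.le
    rw [ha]
    unfold aSharp
    split_ifs with hsep
    · unfold aLev
      refine max_le hfirst (Finset.sup'_le _ _ fun l hl => ?_)
      have hl' := Finset.mem_range.mp hl
      have h2 := hball l hl
      have h3 : ((rho l)⁻¹) ^ w * ballM pr A (yc n (cell n A (s 0))) (rLev d C0 l) ≤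
          T * massC pr n A (cell n A (s 0)) := by
        rw [← hTl l, mul_assoc]
        exact mul_le_mul_of_nonneg_left h2 hT0.le
      refine le_trans (mul_le_mul_of_nonneg_left ?_ (by have := hrho l; positivity)) h3
      -- the inclusion of sets, almost everywhere
      refine ENNReal.toReal_mono (measure_ne_top _ _) (measure_mono_ae ?_)
      filter_upwards [priorM_ae_unit hd f] with x hx hxd
      have hrhoL : rho L ≤ rho l := by
        unfold rho
        have : (1 / 2 : ℝ) ^ L ≤ (1 / 2 : ℝ) ^ l :=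
          pow_le_pow_of_le_one (by norm_num) (by norm_num) (by omega)
        linarith
      have hn' : √(w : ℝ) * (1 / 2 : ℝ) ^ n * (1 + 2 * ((1 + 2 / σ₀) ^ u - 1)) ≤
          C0 * √(d : ℝ) * rho l :=
        hn.trans (mul_le_mul_of_nonneg_left hrhoL (by positivity))
      exact envC_labels_close hC0.le hσ₀ (hrho l).le hs hsep hcol hop hn' hx hxd
    · exact hfirst
  unfold Fn
  set S : Set (Rows d w) := Set.pi Set.univ fun _ => {a : E d | ∀ j, |⟪a, s j - s 0⟫| < δ} with hS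
  have hS1m : MeasurableSet {a : E d | ∀ j, |⟪a, s j - s 0⟫| < δ} := by
    have : {a : E d | ∀ j, |⟪a, s j - s 0⟫| < δ} = ⋂ j, {a : E d | |⟪a, s j - s 0⟫| < δ} := by
      ext a; simp
    rw [this]
    refine MeasurableSet.iInter fun j => ?_
    exact (isOpen_lt (by fun_prop) continuous_const).measurableSet
  have hSm : MeasurableSet S := MeasurableSet.univ_pi fun _ => hS1m
  set c0 : ℝ := (T * a⁻¹) ^ u with hc0
  have hc00 : 0 ≤ c0 := by positivity
  have hle : ∀ A : Rows d w, (if (A, cell n A (s 0)) ∈ goodG pr n L K C0 ∧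
      ∀ j, cell n A (s j) = cell n A (s 0) then ((massC pr n A (cell n A (s 0)))⁻¹) ^ u else 0) ≤
      S.indicator (fun _ => c0) A := by
    intro A
    split_ifs with h
    · have hAS : A ∈ S := cell_subset w n s h.2
      rw [Set.indicator_of_mem hAS]
      have h1 := key A h.1 h.2
      set m := massC pr n A (cell n A (s 0)) with hm
      have hm0 : 0 < m := by
        have h2 : 0 < T * m := lt_of_lt_of_le ha0 h1
        exact (pos_iff_pos_of_mul_pos h2).mp hT0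
      have h3 : m⁻¹ ≤ T * a⁻¹ := by
        rw [inv_le_iff_one_le_mul₀ hm0]
        have h4 : T * a⁻¹ * m = (T * m) * a⁻¹ := by ring
        rw [h4, ← div_eq_mul_inv, one_le_div ha0]
        exact h1
      exact pow_le_pow_left₀ (inv_nonneg.mpr hm0.le) h3 u
    · exact Set.indicator_nonneg (fun _ _ => hc00) A
  have hnonneg : ∀ A : Rows d w, 0 ≤ (if (A, cell n A (s 0)) ∈ goodG pr n L K C0 ∧
      ∀ j, cell n A (s j) = cell n A (s 0) then ((massC pr n A (cell n A (s 0)))⁻¹) ^ u else 0) := by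
    intro A
    split_ifs with h
    · have h1 : 0 ≤ massC pr n A (cell n A (s 0)) := measureReal_nonneg
      positivity
    · exact le_rfl
  have hint : Integrable (S.indicator fun _ => c0) (rowsM d w) :=
    (integrable_const c0).indicator hSm
  refine (integral_mono_of_nonneg (Filter.Eventually.of_forall hnonneg) hint
    (Filter.Eventually.of_forall hle)).trans ?_
  rw [integral_indicator_const _ hSm, smul_eq_mul]
  -- the collision probability
  set R : ℝ := ∏ j : Fin u, (δ * (max (dSeq s j) δ)⁻¹) with hR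
  have hmaxpos : ∀ j, 0 < max (dSeq s j) δ := fun j => lt_max_of_lt_right hδ0
  have hR0 : 0 ≤ R := Finset.prod_nonneg fun j _ => by have := hmaxpos j; positivity
  have hprob : stdGaussian (E d) {a : E d | ∀ j, |⟪a, s j - s 0⟫| < δ} ≤ ENNReal.ofReal R := by
    have h1 := row_collision_cap (hseq s) hδ0
    have h2 : {a : E d | ∀ j, |⟪a, hseq s j - hseq s 0⟫| < δ} = {a : E d | ∀ j, |⟪a, s j - s 0⟫| < δ} := by
      ext a
      simp [hseq]
    rw [h2] at h1
    rw [hR, ENNReal.ofReal_prod_of_nonneg fun j _ => by have := hmaxpos j; positivity]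
    exact h1
  have hreal : (rowsM d w).real S ≤ R ^ w := by
    have h1 : (rowsM d w) S = stdGaussian (E d) {a : E d | ∀ j, |⟪a, s j - s 0⟫| < δ} ^ w := by
      rw [hS]
      unfold rowsM
      rw [Measure.pi_pi]
      simp
    unfold Measure.real
    rw [h1]
    refine ENNReal.toReal_le_of_le_ofReal (by positivity) ?_
    rw [ENNReal.ofReal_pow hR0]
    exact pow_le_pow_left' hprob w
  refine (mul_le_mul_of_nonneg_right hreal hc00).trans (le_of_eq ?_)
  rw [hR, hc0, hT, Finset.prod_mul_distrib, Finset.prod_const, Finset.card_univ, Fintype.card_fin,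
    Finset.prod_pow]
  have hδw : δ ^ w ≠ 0 := by positivity
  have hcancel : ((δ ^ w)⁻¹) ^ u * (δ ^ u) ^ w = 1 := envC_cancel_pow δ hδ0.ne' w u
  simp only [mul_pow, ← hC0def]
  calc _ = (K ^ u * (X ^ u)) * (a⁻¹) ^ u * (∏ j, (max (dSeq s j) δ)⁻¹) ^ w *
        (((δ ^ w)⁻¹) ^ u * (δ ^ u) ^ w) := by
        simp only [hX, mul_pow]
        ring
    _ = _ := by
        rw [hcancel, ← Finset.prod_pow]
        simp only [hX, mul_pow]
        ring


/-- Comparison of product measures. -/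
lemma envC_pi_lintegral_le {X : Type} [MeasurableSpace X] (σ τ : Measure X) [SFinite σ]
    [SigmaFinite σ] [SigmaFinite τ] {c : ℝ≥0∞} (h : τ ≤ c • σ) (k : ℕ)
    (g : (Fin k → X) → ℝ≥0∞) (hg : Measurable g) :
    ∫⁻ s, g s ∂(Measure.pi fun _ : Fin k => τ) ≤ c ^ k * ∫⁻ s, g s ∂(Measure.pi fun _ : Fin k => σ) := by
  induction k with
  | zero =>
    simp only [pow_zero, one_mul]
    rw [Measure.pi_of_empty, Measure.pi_of_empty]
  | succ k ih =>
    have mpτ := measurePreserving_piFinSuccAbove (fun _ : Fin (k + 1) => τ) (Fin.last k)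
    have mpσ := measurePreserving_piFinSuccAbove (fun _ : Fin (k + 1) => σ) (Fin.last k)
    set e := MeasurableEquiv.piFinSuccAbove (fun _ : Fin (k + 1) => X) (Fin.last k) with he
    have hg2 : Measurable fun z : X × (Fin k → X) => g (e.symm z) := hg.comp e.symm.measurable
    have h1 : ∫⁻ s, g s ∂(Measure.pi fun _ : Fin (k + 1) => τ) =
        ∫⁻ s', ∫⁻ x, g (e.symm (x, s')) ∂τ ∂(Measure.pi fun _ : Fin k => τ) := by
      rw [← (mpτ.symm e).lintegral_comp hg]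
      exact lintegral_prod_symm _ hg2.aemeasurable
    have h2 : ∫⁻ s, g s ∂(Measure.pi fun _ : Fin (k + 1) => σ) =
        ∫⁻ s', ∫⁻ x, g (e.symm (x, s')) ∂σ ∂(Measure.pi fun _ : Fin k => σ) := by
      rw [← (mpσ.symm e).lintegral_comp hg]
      exact lintegral_prod_symm _ hg2.aemeasurable
    rw [h1, h2]
    have hG : Measurable fun s' : Fin k → X => ∫⁻ x, g (e.symm (x, s')) ∂σ :=
      Measurable.lintegral_prod_left' hg2
    calc ∫⁻ s', ∫⁻ x, g (e.symm (x, s')) ∂τ ∂(Measure.pi fun _ : Fin k => τ)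
        ≤ ∫⁻ s', c * ∫⁻ x, g (e.symm (x, s')) ∂σ ∂(Measure.pi fun _ : Fin k => τ) := by
          refine lintegral_mono fun s' => ?_
          refine (lintegral_mono' h le_rfl).trans (le_of_eq ?_)
          rw [lintegral_smul_measure, smul_eq_mul]
      _ = c * ∫⁻ s', ∫⁻ x, g (e.symm (x, s')) ∂σ ∂(Measure.pi fun _ : Fin k => τ) :=
          lintegral_const_mul _ hG
      _ ≤ c * (c ^ k * ∫⁻ s', ∫⁻ x, g (e.symm (x, s')) ∂σ ∂(Measure.pi fun _ : Fin k => σ)) :=
          mul_le_mul_right (ih _ hG) _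
      _ = _ := by rw [pow_succ, mul_comm (c ^ k) c, mul_assoc]


/-- Comparison of product measures. -/
lemma envC_pi_le_smul {X : Type} [MeasurableSpace X] (σ τ : Measure X) [SigmaFinite σ] [SigmaFinite τ]
    {c : ℝ≥0∞} (h : τ ≤ c • σ) (k : ℕ) :
    Measure.pi (fun _ : Fin k => τ) ≤ (c ^ k) • Measure.pi (fun _ : Fin k => σ) := by
  refine Measure.le_iff.2 fun A hA => ?_
  have h1 := envC_pi_lintegral_le σ τ h k (A.indicator 1) (measurable_one.indicator hA)
  rw [lintegral_indicator_one hA, lintegral_indicator_one hA] at h1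
  simpa using h1

/-- Real form of the pointwise bound on ill conditioned tuples. -/
lemma envC_ill_real {u w : ℕ} (hw : w ≤ 2 * u) {σ₀ : ℝ} (hσ₀ : 0 < σ₀) (D Y : Fin u → ℝ)
    (hY : ∀ j, 0 < Y j) (hYD : ∀ j, Y j ≤ D j) (hD : ∀ j, D j ≤ 2) (hill : ∃ j, D j < σ₀) :
    (∏ j, (D j)⁻¹) ^ w ≤ σ₀ ^ w * 2 ^ (6 * u * u) * (∏ j, (Y j)⁻¹) ^ (6 * u) := by
  have hDpos : ∀ j, 0 < D j := fun j => (hY j).trans_le (hYD j)
  set P := ∏ j, (D j)⁻¹ with hP
  have hP0 : 0 < P := Finset.prod_pos fun j _ => inv_pos.mpr (hDpos j)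
  set t := (2 : ℝ) ^ u * P with ht
  have ht_prod : t = ∏ j, (2 * (D j)⁻¹) := by
    rw [Finset.prod_mul_distrib, ht, hP]
    simp
  have hfac : ∀ j, 1 ≤ 2 * (D j)⁻¹ := fun j => by
    rw [← div_eq_mul_inv, one_le_div (hDpos j)]
    exact hD j
  have hprod1 : ∀ S : Finset (Fin u), 1 ≤ ∏ j ∈ S, (2 * (D j)⁻¹) := fun S => by
    calc (1 : ℝ) = ∏ _j ∈ S, 1 := by simp
      _ ≤ _ := Finset.prod_le_prod (fun _ _ => zero_le_one) (fun j _ => hfac j)
  have ht1 : 1 ≤ t := by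
    rw [ht_prod]
    exact hprod1 _
  obtain ⟨j₀, hj₀⟩ := hill
  have hσt : 1 ≤ σ₀ * t := by
    rw [ht_prod, ← Finset.mul_prod_erase _ _ (Finset.mem_univ j₀)]
    have h1 := hprod1 (Finset.univ.erase j₀)
    have h2 : 1 ≤ σ₀ * (2 * (D j₀)⁻¹) := by
      have h3 : σ₀ * (2 * (D j₀)⁻¹) = 2 * (σ₀ / D j₀) := by
        rw [div_eq_mul_inv]; ring
      have h4 : 1 ≤ σ₀ / D j₀ := (one_le_div (hDpos j₀)).2 hj₀.le
      rw [h3]; linarith
    calc (1 : ℝ) ≤ σ₀ * (2 * (D j₀)⁻¹) * 1 := by linarith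
      _ ≤ σ₀ * (2 * (D j₀)⁻¹) * ∏ j ∈ Finset.univ.erase j₀, (2 * (D j)⁻¹) :=
          mul_le_mul_of_nonneg_left h1 (by linarith)
      _ = _ := by ring
  have h2u : (1 : ℝ) ≤ 2 ^ u := one_le_pow₀ (by norm_num)
  have hPt : P ≤ t := by
    rw [ht]; nlinarith
  have hPle : P ≤ σ₀ * t ^ 2 := by
    nlinarith
  have hYprod : P ≤ ∏ j, (Y j)⁻¹ :=
    Finset.prod_le_prod (fun j _ => (inv_pos.mpr (hDpos j)).le)
      (fun j _ => inv_anti₀ (hY j) (hYD j))
  calc P ^ w ≤ (σ₀ * t ^ 2) ^ w := pow_le_pow_left₀ hP0.le hPle w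
    _ = σ₀ ^ w * t ^ (2 * w) := by rw [mul_pow, ← pow_mul]
    _ ≤ σ₀ ^ w * t ^ (6 * u) :=
        mul_le_mul_of_nonneg_left (pow_le_pow_right₀ ht1 (by omega)) (by positivity)
    _ = σ₀ ^ w * (2 ^ (6 * u * u) * P ^ (6 * u)) := by
        rw [ht, mul_pow, ← pow_mul]
        congr 3
        ring
    _ ≤ σ₀ ^ w * (2 ^ (6 * u * u) * (∏ j, (Y j)⁻¹) ^ (6 * u)) := by
        refine mul_le_mul_of_nonneg_left (mul_le_mul_of_nonneg_left ?_ (by positivity)) (by positivity)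
        exact pow_le_pow_left₀ hP0.le hYprod _
    _ = _ := by ring

/-- The distance to the linear span is at most the distance to the affine span. -/
lemma envC_hdist_le_dSeq {u : ℕ} (s : Fin (u + 1) → E d) (j : Fin u) :
    hdist (spanBelow s (j + 1)) (s j.succ) ≤ dSeq s j := by
  set W₂ := spanBelow s ((j : ℕ) + 1) with hW₂
  set W₁ := spanBelow (hseq s) ((j : ℕ) + 1) with hW₁
  have hs0 : s 0 ∈ W₂ := Submodule.subset_span ⟨0, by simp, rfl⟩
  have hsub : W₁ ≤ W₂ := by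
    rw [hW₁]
    unfold spanBelow
    rw [Submodule.span_le]
    rintro x ⟨i, hi, rfl⟩
    exact W₂.sub_mem (Submodule.subset_span ⟨i, hi, rfl⟩) hs0
  have hw : s 0 + W₁.starProjection (hseq s j.succ) ∈ W₂ :=
    W₂.add_mem hs0 (hsub (Submodule.starProjection_apply_mem W₁ _))
  refine (envC_hdist_le_sub W₂ (s j.succ) hw).trans (le_of_eq ?_)
  show ‖s j.succ - (s 0 + W₁.starProjection (hseq s j.succ))‖ =
    ‖hseq s j.succ - W₁.starProjection (hseq s j.succ)‖
  congr 1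
  unfold hseq
  abel

/-- The distances of a tuple of unit vectors are at most `2`. -/
lemma envC_dSeq_le_two {u : ℕ} {s : Fin (u + 1) → E d} (hs : ∀ i, ‖s i‖ = 1) (j : Fin u) :
    dSeq s j ≤ 2 := by
  refine (envC_hdist_le_sub _ _ (Submodule.zero_mem _)).trans ?_
  rw [sub_zero]
  calc ‖s j.succ - s 0‖ ≤ ‖s j.succ‖ + ‖s 0‖ := norm_sub_le _ _
    _ = 2 := by rw [hs, hs]; norm_num

/-- MODULE ILL. Crude bound for the mass of ill conditioned tuples under the density bound: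
`(Fn_bound)` with `aSharp ≥ 2^(-w)`, `f ≤ F₀`, and `moment_rows`: on the ill set `1 ≤ (2^u σ₀ X)^w`, where
`X = ∏ (dSeq s j)⁻¹ ≤ ∏ (hdist (spanBelow s (j+1)) (s j.succ))⁻¹`, `X ≥ 2^(-u)`. -/
theorem ill_mass {u : ℕ} (hu : 8 * u ≤ d) (hu1 : 1 ≤ u) {w : ℕ} (hw : w ≤ 2 * u) {F₀ : ℝ}
    (f : E d → ℝ) (hf : BddNN f) (hF : ∀ s, f s ≤ F₀) {σ₀ : ℝ} (hσ₀ : 0 < σ₀) :
    ∫⁻ s in {s : Fin (u + 1) → E d | ∃ j, dSeq s j < σ₀},
      ∏ j : Fin u, (ENNReal.ofReal (dSeq s j))⁻¹ ^ w ∂(Measure.pi fun _ => priorM f) ≤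
      ENNReal.ofReal (F₀ ^ (u + 1) * σ₀ ^ w * (2 : ℝ) ^ (10 * u * u)) := by
  have hd : 0 < d := by omega
  have hF0 : 0 ≤ F₀ := (hf.nonneg 0).trans (hF 0)
  set τ := priorM f with hτdef
  set c := ENNReal.ofReal F₀ with hc
  have hτ : τ ≤ c • sphereM d := Measure.le_iff.2 fun A _ => by
    simpa using priorM_le hF A
  have : IsFiniteMeasure τ := ⟨by
    have h1 : τ Set.univ ≤ c * sphereM d Set.univ := by simpa using priorM_le hF Set.univ
    rw [measure_univ (μ := sphereM d), mul_one] at h1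
    exact lt_of_le_of_lt h1 ENNReal.ofReal_lt_top⟩
  have hpi := envC_pi_le_smul (sphereM d) τ hτ (u + 1)
  set Ill := {s : Fin (u + 1) → E d | ∃ j, dSeq s j < σ₀} with hIlldef
  have hIll : MeasurableSet Ill := by
    have : Ill = ⋃ j, {s : Fin (u + 1) → E d | dSeq s j < σ₀} := by
      ext s; simp [hIlldef]
    rw [this]
    exact MeasurableSet.iUnion fun j => measurableSet_lt (measurable_dSeq j) measurable_const
  have hunit : ∀ᵐ s ∂(Measure.pi fun _ : Fin (u + 1) => τ), ∀ i, ‖s i‖ = 1 := by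
    rw [ae_all_iff]
    intro i
    exact (Measure.quasiMeasurePreserving_eval (fun _ : Fin (u + 1) => τ) i).ae
      (priorM_ae_unit hd f)
  set K0 := ENNReal.ofReal (σ₀ ^ w * 2 ^ (6 * u * u)) with hK0
  have hK0ne : K0 ≠ 0 := by
    rw [hK0]
    simp only [ne_eq, ENNReal.ofReal_eq_zero, not_le]
    positivity
  set YY : (Fin (u + 1) → E d) → ℝ≥0∞ := fun s =>
    (∏ j : Fin u, (ENNReal.ofReal (hdist (spanBelow s (j + 1)) (s j.succ)))⁻¹) ^ (6 * u) with hYY
  have hpt : ∀ s : Fin (u + 1) → E d, (∀ i, ‖s i‖ = 1) → s ∈ Ill →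
      ∏ j : Fin u, (ENNReal.ofReal (dSeq s j))⁻¹ ^ w ≤ K0 * YY s := by
    intro s hs hsI
    by_cases hY0 : ∃ j : Fin u, hdist (spanBelow s (j + 1)) (s j.succ) = 0
    · obtain ⟨j₀, hj₀⟩ := hY0
      have htop : (∏ j : Fin u, (ENNReal.ofReal (hdist (spanBelow s (j + 1)) (s j.succ)))⁻¹) = ⊤ := by
        rw [← Finset.mul_prod_erase _ _ (Finset.mem_univ j₀), hj₀]
        simp only [ENNReal.ofReal_zero, ENNReal.inv_zero]
        rw [ENNReal.top_mul]
        rw [Finset.prod_ne_zero_iff]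
        intro j _
        exact ENNReal.inv_ne_zero.2 ENNReal.ofReal_ne_top
      have h6 : 6 * u ≠ 0 := by omega
      simp only [hYY]
      rw [htop, ENNReal.top_pow h6, ENNReal.mul_top hK0ne]
      exact le_top
    · push Not at hY0
      have hYpos : ∀ j : Fin u, 0 < hdist (spanBelow s (j + 1)) (s j.succ) := fun j =>
        lt_of_le_of_ne (norm_nonneg _) (hY0 j).symm
      have hYD := envC_hdist_le_dSeq s
      have hDpos : ∀ j : Fin u, 0 < dSeq s j := fun j => (hYpos j).trans_le (hYD j)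
      have hreal := envC_ill_real hw hσ₀ (fun j => dSeq s j)
        (fun j : Fin u => hdist (spanBelow s (j + 1)) (s j.succ)) hYpos hYD (envC_dSeq_le_two hs) hsI
      have hL : ∏ j : Fin u, (ENNReal.ofReal (dSeq s j))⁻¹ ^ w =
          ENNReal.ofReal ((∏ j : Fin u, (dSeq s j)⁻¹) ^ w) := by
        rw [← Finset.prod_pow, ENNReal.ofReal_prod_of_nonneg
          (fun j _ => pow_nonneg (inv_pos.mpr (hDpos j)).le w)]
        refine Finset.prod_congr rfl fun j _ => ?_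
        rw [ENNReal.ofReal_pow (inv_pos.mpr (hDpos j)).le, ENNReal.ofReal_inv_of_pos (hDpos j)]
      have hR : YY s = ENNReal.ofReal
          ((∏ j : Fin u, (hdist (spanBelow s (j + 1)) (s j.succ))⁻¹) ^ (6 * u)) := by
        have hnn : 0 ≤ ∏ j : Fin u, (hdist (spanBelow s (j + 1)) (s j.succ))⁻¹ :=
          Finset.prod_nonneg fun j _ => (inv_pos.mpr (hYpos j)).le
        simp only [hYY]
        rw [ENNReal.ofReal_pow hnn, ENNReal.ofReal_prod_of_nonneg
          (fun j _ => (inv_pos.mpr (hYpos j)).le)]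
        congr 1
        refine Finset.prod_congr rfl fun j _ => ?_
        rw [ENNReal.ofReal_inv_of_pos (hYpos j)]
      rw [hL, hR, hK0, ← ENNReal.ofReal_mul (by positivity)]
      exact ENNReal.ofReal_le_ofReal hreal
  have hmom : ∫⁻ s, YY s ∂(Measure.pi fun _ : Fin (u + 1) => sphereM d) ≤
      ENNReal.ofReal ((2 : ℝ) ^ (3 * u * u)) := moment_rows hu hu1
  calc ∫⁻ s in Ill, ∏ j : Fin u, (ENNReal.ofReal (dSeq s j))⁻¹ ^ w ∂(Measure.pi fun _ => τ)
      ≤ ∫⁻ s in Ill, K0 * YY s ∂(Measure.pi fun _ => τ) :=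
        lintegral_mono_ae ((ae_restrict_iff' hIll).2 (hunit.mono fun s hs hsI => hpt s hs hsI))
    _ ≤ ∫⁻ s, K0 * YY s ∂(Measure.pi fun _ : Fin (u + 1) => τ) :=
        lintegral_mono' Measure.restrict_le_self le_rfl
    _ ≤ ∫⁻ s, K0 * YY s ∂((c ^ (u + 1)) • Measure.pi fun _ : Fin (u + 1) => sphereM d) :=
        lintegral_mono' hpi le_rfl
    _ = c ^ (u + 1) * ∫⁻ s, K0 * YY s ∂(Measure.pi fun _ : Fin (u + 1) => sphereM d) := by
        rw [lintegral_smul_measure, smul_eq_mul]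
    _ = c ^ (u + 1) * (K0 * ∫⁻ s, YY s ∂(Measure.pi fun _ : Fin (u + 1) => sphereM d)) := by
        rw [lintegral_const_mul' _ _ ENNReal.ofReal_ne_top]
    _ ≤ c ^ (u + 1) * (K0 * ENNReal.ofReal ((2 : ℝ) ^ (3 * u * u))) :=
        mul_le_mul_right (mul_le_mul_right hmom _) _
    _ ≤ ENNReal.ofReal (F₀ ^ (u + 1) * σ₀ ^ w * (2 : ℝ) ^ (10 * u * u)) := by
        rw [hc, hK0, ← ENNReal.ofReal_pow hF0, ← ENNReal.ofReal_mul (by positivity),
          ← ENNReal.ofReal_mul (by positivity)]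
        refine ENNReal.ofReal_le_ofReal ?_
        have h2 : (2 : ℝ) ^ (6 * u * u) * 2 ^ (3 * u * u) ≤ 2 ^ (10 * u * u) := by
          rw [← pow_add]
          exact pow_le_pow_right₀ (by norm_num) (by nlinarith)
        calc F₀ ^ (u + 1) * (σ₀ ^ w * 2 ^ (6 * u * u) * 2 ^ (3 * u * u))
            = F₀ ^ (u + 1) * σ₀ ^ w * (2 ^ (6 * u * u) * 2 ^ (3 * u * u)) := by ring
          _ ≤ _ := mul_le_mul_of_nonneg_left h2 (by positivity)

end Vale.Agent.P309F
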