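import Vale.Agent.P309F.PsiBasics
import Vale.Agent.P309F.Ball
import Vale.Agent.P309F.HanAbs

open MeasureTheory ProbabilityTheory Real Set Filter Topology
open scoped RealInnerProductSpace ENNReal

namespace Vale.Agent.P309F
open Vale.Agent.P309

section Density

variable {X : Type*} {mX : MeasurableSpace X}

/-- A measure dominated by a multiple of a probability measure has a bounded density. -/
lemma exists_density (lam nu : Measure X) [IsProbabilityMeasure lam] [IsProbabilityMeasure nu]
    {C : ℝ} (hC : 0 ≤ C) (h : ∀ A, MeasurableSet A → lam A ≤ ENNReal.ofReal C * nu A) :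
    ∃ ℓ : X → ℝ, BddNN ℓ ∧ (∀ x, ℓ x ≤ C) ∧ ∫ x, ℓ x ∂nu = 1 ∧
      lam = nu.withDensity fun x => ENNReal.ofReal (ℓ x) := by
  have hac : lam ≪ nu := by
    refine Measure.AbsolutelyContinuous.mk fun s hs h0 => ?_
    have := h s hs
    rw [h0, mul_zero] at this
    exact le_antisymm this bot_le
  have hrn : Measurable (lam.rnDeriv nu) := Measure.measurable_rnDeriv lam nu
  have hle : lam.rnDeriv nu ≤ᵐ[nu] fun _ => ENNReal.ofReal C := by
    refine ae_le_of_forall_setLIntegral_le_of_sigmaFinite hrn fun s hs _ => ?_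
    rw [Measure.setLIntegral_rnDeriv hac, setLIntegral_const]
    exact h s hs
  let f : X → ℝ≥0∞ := fun x => min (lam.rnDeriv nu x) (ENNReal.ofReal C)
  have hf : Measurable f := hrn.min measurable_const
  have hfae : f =ᵐ[nu] lam.rnDeriv nu := hle.mono fun x hx => min_eq_left hx
  have hlt : ∀ x, f x ≠ ∞ := fun x =>
    ((min_le_right _ _).trans_lt ENNReal.ofReal_lt_top).ne
  refine ⟨fun x => (f x).toReal, ⟨hf.ennreal_toReal, fun x => ENNReal.toReal_nonneg, C, fun x => ?_⟩,
    fun x => ?_, ?_, ?_⟩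
  · exact ENNReal.toReal_le_of_le_ofReal hC (min_le_right _ _)
  · exact ENNReal.toReal_le_of_le_ofReal hC (min_le_right _ _)
  · have hw : lam = nu.withDensity f := by
      rw [withDensity_congr_ae hfae, Measure.withDensity_rnDeriv_eq _ _ hac]
    have h1 : lam Set.univ = ∫⁻ x, f x ∂nu := by
      rw [hw, withDensity_apply _ MeasurableSet.univ, Measure.restrict_univ]
    have h2 : ∫ x, (f x).toReal ∂nu = (∫⁻ x, f x ∂nu).toReal :=
      integral_toReal hf.aemeasurable (ae_of_all _ fun x => (hlt x).lt_top)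
    rw [h2, ← h1]
    simp
  · have hw : lam = nu.withDensity f := by
      rw [withDensity_congr_ae hfae, Measure.withDensity_rnDeriv_eq _ _ hac]
    rw [hw]
    refine withDensity_congr_ae (ae_of_all _ fun x => ?_)
    exact (ENNReal.ofReal_toReal (hlt x)).symm

end Density

section Transfer

variable {S : Type*} {mS : MeasurableSpace S}

/-- The image measure, with the ambient sigma algebra found from the measure. -/
noncomputable abbrev mapM (σ : Measure S) (P : S → S) : Measure S := @Measure.map S S mS mS P σ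

lemma mapM_prob {σ : Measure S} [IsProbabilityMeasure σ] {P : S → S} (hP : Measurable[mS, mS] P) :
    IsProbabilityMeasure (mapM σ P) :=
  Measure.isProbabilityMeasure_map hP.aemeasurable

lemma integral_mapM {σ : Measure S} {P : S → S} (hP : Measurable[mS, mS] P) {f : S → ℝ}
    (hf : Measurable[mS] f) : ∫ x, f x ∂(mapM σ P) = ∫ x, f (P x) ∂σ :=
  integral_map hP.aemeasurable hf.aestronglyMeasurable

/-- Functions measurable for a saturated sigma algebra are invariant. -/
lemma comp_eq_of_sat {P : S → S} {K : MeasurableSpace S}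
    (hsat : ∀ s, MeasurableSet[K] s → P ⁻¹' s = s) {w : S → ℝ} (hw : Measurable[K] w) (x : S) :
    w (P x) = w x := by
  have h1 : MeasurableSet[K] (w ⁻¹' {w x}) := hw (measurableSet_singleton _)
  have h2 := hsat _ h1
  have h3 : x ∈ w ⁻¹' {w x} := rfl
  rw [← h2] at h3
  exact h3

/-- Transfer of the entropy to the image measure. -/
lemma Hn_map {σ : Measure S} {P : S → S} (hP : Measurable[mS, mS] P) {w : S → ℝ}
    (hw : Measurable[mS] w) (hwP : ∀ x, w (P x) = w x) :
    Hn (mapM σ P) w = Hn σ w := by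
  have h1 : ∀ f : S → ℝ, Measurable[mS] f → (∀ x, f (P x) = f x) →
      ∫ x, f x ∂(mapM σ P) = ∫ x, f x ∂σ := by
    intro f hf hfP
    rw [integral_mapM hP hf]
    simp only [hfP]
  unfold Hn Hent
  rw [h1 (fun s => w s * log (w s)) (hw.mul (Real.measurable_log.comp hw))
    (fun x => by simp only [hwP]), h1 w hw hwP]

lemma setIntegral_mapM {σ : Measure S} {P : S → S} (hP : Measurable[mS, mS] P)
    {s : Set S} (hsm : MeasurableSet[mS] s) (hs' : P ⁻¹' s = s) {f : S → ℝ}
    (hf : Measurable[mS] f) (hfP : ∀ x, f (P x) = f x) :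
    ∫ x in s, f x ∂σ = ∫ x in s, f x ∂(mapM σ P) := by
  rw [← integral_indicator hsm, ← integral_indicator hsm, integral_mapM hP (hf.indicator hsm)]
  refine integral_congr_ae (ae_of_all _ fun x => ?_)
  by_cases hx : x ∈ s
  · have hx' : P x ∈ s := by
      have : x ∈ P ⁻¹' s := by rw [hs']; exact hx
      exact this
    simp [hx, hx', hfP]
  · have hx' : P x ∉ s := by
      intro h
      have : x ∈ P ⁻¹' s := h
      rw [hs'] at this
      exact hx this
    simp [hx, hx']

/-- Transfer of conditional entropies to the image measure. -/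
lemma Hn_condExp_map {σ : Measure S} [IsProbabilityMeasure σ] {P : S → S}
    (hP : Measurable[mS, mS] P) {K : MeasurableSpace S} (hK : K ≤ mS)
    (hsat : ∀ s, MeasurableSet[K] s → P ⁻¹' s = s) {q : S → ℝ} (hq : @BddNN S mS q)
    (hqP : ∀ x, q (P x) = q x) :
    Hn σ (σ[q|K]) = Hn (mapM σ P) ((mapM σ P)[q|K]) := by
  obtain ⟨F, hF⟩ := bn_bdd hq
  obtain ⟨x₀⟩ : Nonempty S := ne_of_prob σ
  have hF0 : 0 ≤ F := (bn_nonneg hq x₀).trans (hF x₀)
  have hprob : IsProbabilityMeasure (mapM σ P) := mapM_prob hP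
  obtain ⟨w, hwm, hwb, hw⟩ := exists_clip (ν := mapM σ P) hK (bn_meas hq) hF0 (bn_nonneg hq) hF
  have hwm' : Measurable[mS] w := hwm.mono hK le_rfl
  have hwP : ∀ x, w (P x) = w x := comp_eq_of_sat hsat hwm
  have hqiσ : Integrable q σ := bdd_int (bn_meas hq) (C := F) fun x => by
    rw [abs_of_nonneg (bn_nonneg hq x)]; exact hF x
  have hqim : Integrable q (mapM σ P) := bdd_int (bn_meas hq) (C := F) fun x => by
    rw [abs_of_nonneg (bn_nonneg hq x)]; exact hF x
  have hwi : Integrable w σ := bdd_int hwm' (C := F) fun x => by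
    rw [abs_of_nonneg (hwb x).1]; exact (hwb x).2
  have hkey : σ[q|K] =ᵐ[σ] w := by
    refine (ae_eq_condExp_of_forall_setIntegral_eq hK hqiσ (fun s _ _ => hwi.integrableOn)
      (fun s hs _ => ?_) hwm.stronglyMeasurable.aestronglyMeasurable).symm
    have hsm : MeasurableSet[mS] s := hK _ hs
    have hs' := hsat s hs
    rw [setIntegral_mapM hP hsm hs' hwm' hwP, setIntegral_mapM hP hsm hs' (bn_meas hq) hqP,
      setIntegral_congr_ae hsm (hw.mono fun x hx _ => hx),
      setIntegral_condExp hK hqim hs]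
  rw [Hn_congr hkey, ← Hn_congr hw]
  exact (Hn_map hP hwm' hwP).symm

end Transfer

variable {d : ℕ}

/-- The sigma algebra of one coordinate. -/
@[instance_reducible] noncomputable def coordM (i : Fin d) : MeasurableSpace (E d) :=
  MeasurableSpace.comap (fun x : E d => x i) inferInstance

/-- The ambient sigma algebra of `E d`. -/
abbrev bE (d : ℕ) : MeasurableSpace (E d) := inferInstance

lemma measurable_coordP_iff {m : MeasurableSpace (E d)} {J : Finset (Fin d)}
    (h : ∀ i ∈ J, coordM i ≤ m) : @Measurable (E d) (E d) m (bE d) (coordP J) := by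
  have h1 : @Measurable (E d) (Fin d → ℝ) m _ (fun x : E d => fun i => if i ∈ J then x i else 0) := by
    refine @measurable_pi_lambda _ _ _ m _ _ fun i => ?_
    by_cases hi : i ∈ J
    · simp only [hi, if_true]
      exact (comap_measurable (fun x : E d => x i)).mono (h i hi) le_rfl
    · simp only [hi, if_false]
      exact @measurable_const _ _ _ m _
  exact (WithLp.measurable_toLp 2 (Fin d → ℝ)).comp h1

lemma coordM_le_fibJ {i : Fin d} {J : Finset (Fin d)} (hi : i ∈ J) : coordM i ≤ fibJ J := by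
  have h : (fun x : E d => x i) = (fun y : E d => y i) ∘ coordP J := by
    ext x
    simp [coordP_apply, hi]
  have h2 : Measurable[fibJ J] (fun x : E d => x i) := by
    rw [h]
    exact (measurable_pi_apply i |>.comp (WithLp.measurable_ofLp 2 (Fin d → ℝ))).comp
      (comap_measurable (coordP J))
  exact h2.comap_le

lemma fibJ_le_iSup (J : Finset (Fin d)) : fibJ J ≤ ⨆ i ∈ J, coordM i := by
  have h : @Measurable (E d) (E d) (⨆ i ∈ J, coordM i) (bE d) (coordP J) :=
    measurable_coordP_iff fun i hi => le_iSup₂_of_le i hi le_rfl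
  exact h.comap_le

lemma fibJ_eq (J : Finset (Fin d)) : fibJ J = ⨆ i ∈ J, coordM i :=
  le_antisymm (fibJ_le_iSup J) (iSup₂_le fun _ hi => coordM_le_fibJ hi)

lemma HT_fibJ {m : ℕ} (B : Fin m → Finset (Fin d)) (T : Finset (Fin m)) :
    HT (fun b => fibJ (B b)) T = fibJ (T.biUnion B) := by
  apply le_antisymm
  · refine iSup₂_le fun b hb => ?_
    show fibJ (B b) ≤ _
    rw [fibJ_eq, fibJ_eq]
    refine iSup₂_le fun i hi => ?_
    exact le_iSup₂_of_le i (Finset.mem_biUnion.2 ⟨b, hb, hi⟩) le_rfl
  · rw [fibJ_eq]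
    refine iSup₂_le fun i hi => ?_
    obtain ⟨b, hb, hib⟩ := Finset.mem_biUnion.1 hi
    exact (coordM_le_fibJ hib).trans (le_iSup₂_of_le b hb le_rfl)

/-- Blocks of independent sigma algebras are independent. -/
lemma iIndep_blocks {Ω ι J : Type*} {mΩ : MeasurableSpace Ω} {μ : Measure Ω}
    [IsProbabilityMeasure μ] {m : ι → MeasurableSpace Ω} (hle : ∀ i, m i ≤ mΩ)
    (hind : iIndep m μ) [DecidableEq J] (S : J → Set ι)
    (hS : Pairwise fun a b => Disjoint (S a) (S b)) :
    iIndep (fun j => ⨆ i ∈ S j, m i) μ := by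
  rw [iIndep_iff]
  intro s f hf
  induction s using Finset.induction_on with
  | empty => simp
  | insert k s hk ih =>
    rw [Finset.set_biInter_insert, Finset.prod_insert hk,
      ← ih fun i hi => hf i (Finset.mem_insert_of_mem hi)]
    have hdis : Disjoint (S k) (⋃ j ∈ s, S j) := by
      simp only [Set.disjoint_iUnion_right]
      intro j hj
      exact hS fun h => hk (h ▸ hj)
    have h1 := indep_iSup_of_disjoint hle hind hdis
    rw [Indep_iff] at h1
    refine h1 _ _ (hf k (Finset.mem_insert_self _ _)) ?_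
    refine Finset.measurableSet_biInter _ fun j hj => ?_
    have h2 : (⨆ i ∈ S j, m i) ≤ ⨆ i ∈ ⋃ j ∈ s, S j, m i := by
      refine iSup₂_le fun i hi => le_iSup₂_of_le i ?_ le_rfl
      exact Set.mem_biUnion hj hi
    exact h2 _ (hf j (Finset.mem_insert_of_mem hj))

/-- The rescaled Gaussian on the coordinates outside `res`. -/
noncomputable def nuG (res : Finset (Fin d)) : Measure (E d) :=
  (stdGaussian (E d)).map fun g : E d => (√((d : ℝ) - 2))⁻¹ • coordP resᶜ g

lemma measurable_coordP (J : Finset (Fin d)) : Measurable (coordP J) :=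
  (coordP J).continuous.measurable

lemma measurable_scaledP (res : Finset (Fin d)) :
    Measurable fun g : E d => (√((d : ℝ) - 2))⁻¹ • coordP resᶜ g := by
  have hc : Continuous fun g : E d => (√((d : ℝ) - 2))⁻¹ • coordP resᶜ g :=
    (continuous_const_smul _).comp (coordP resᶜ).continuous
  exact hc.measurable

instance (res : Finset (Fin d)) : IsProbabilityMeasure (nuG res) := by
  unfold nuG
  exact Measure.isProbabilityMeasure_map (measurable_scaledP res).aemeasurable

/-- Under the rescaled Gaussian all coordinates are independent. -/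
lemma iIndep_coordM (res : Finset (Fin d)) : iIndep (fun i : Fin d => coordM i) (nuG res) := by
  classical
  set a : ℝ := (√((d : ℝ) - 2))⁻¹ with ha
  let X : Fin d → ℝ → ℝ := fun i t => if i ∈ resᶜ then a * t else 0
  have hX : ∀ i, Measurable (X i) := by
    intro i
    by_cases hi : i ∈ resᶜ
    · simp only [X, hi, if_true]; exact measurable_const.mul measurable_id
    · simp only [X, hi, if_false]; exact measurable_const
  have h1 : iIndepFun (fun i (y : Fin d → ℝ) => X i (y i))
      (Measure.pi fun _ : Fin d => gaussianReal 0 1) :=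
    iIndepFun_pi fun i => (hX i).aemeasurable
  let Ψ : (Fin d → ℝ) → E d := fun y => a • coordP resᶜ (WithLp.toLp 2 y)
  have hΨ : Measurable Ψ :=
    (measurable_scaledP res).comp (WithLp.measurable_toLp 2 (Fin d → ℝ))
  have hmap : nuG res = (Measure.pi fun _ : Fin d => gaussianReal 0 1).map Ψ := by
    unfold nuG
    rw [← map_pi_eq_stdGaussian (ι := Fin d),
      Measure.map_map (measurable_scaledP res) (WithLp.measurable_toLp 2 (Fin d → ℝ))]
    rfl
  have hc : ∀ i (y : Fin d → ℝ), (Ψ y) i = X i (y i) := by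
    intro i y
    simp only [Ψ, X, PiLp.smul_apply, coordP_apply, smul_eq_mul]
    by_cases hi : i ∈ resᶜ <;> simp [hi]
  have h2 : iIndepFun (fun i (x : E d) => x i) (nuG res) := by
    rw [iIndepFun_iff_measure_inter_preimage_eq_mul] at h1 ⊢
    intro T sets hsets
    have hcm : ∀ i, Measurable fun x : E d => x i := fun i =>
      measurable_pi_apply i |>.comp (WithLp.measurable_ofLp 2 (Fin d → ℝ))
    have hprem : ∀ i ∈ T, MeasurableSet ((fun x : E d => x i) ⁻¹' sets i) := fun i hi =>
      hcm i (hsets i hi)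
    have h3 := h1 T hsets
    rw [hmap, Measure.map_apply hΨ (Finset.measurableSet_biInter _ hprem)]
    have h4 : Ψ ⁻¹' ⋂ i ∈ T, (fun x : E d => x i) ⁻¹' sets i =
        ⋂ i ∈ T, (fun y : Fin d → ℝ => X i (y i)) ⁻¹' sets i := by
      ext y
      simp [hc]
    rw [h4, h3]
    refine Finset.prod_congr rfl fun i hi => ?_
    rw [Measure.map_apply hΨ (hprem i hi)]
    congr 1
    ext y
    simp [hc]
  exact h2

lemma coordP_comp {J J' : Finset (Fin d)} (h : J ⊆ J') (x : E d) :
    coordP J (coordP J' x) = coordP J x := by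
  ext i
  simp only [coordP_apply]
  by_cases hi : i ∈ J
  · simp [hi, h hi]
  · simp [hi]

lemma sat_fibJ {J J' : Finset (Fin d)} (h : J ⊆ J') (s : Set (E d))
    (hs : MeasurableSet[fibJ J] s) : (coordP J') ⁻¹' s = s := by
  obtain ⟨A, _, rfl⟩ := hs
  ext x
  simp [coordP_comp h]

lemma fibJ_mono {J J' : Finset (Fin d)} (h : J ⊆ J') : fibJ J ≤ fibJ J' := by
  rw [fibJ_eq, fibJ_eq]
  exact biSup_mono fun i hi => h hi

/-- **Han's inequality on the sphere.** See the abstract form `han_abstract`: the coordinates outside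
`res` have a law with a bounded density against a product measure. -/
theorem han_sphere {m : ℕ} (B : Fin m → Finset (Fin d)) (res : Finset (Fin d)) (hres : res.card = 2)
    (hd : 3 ≤ d) (hBr : ∀ b, Disjoint (B b) res) (hBB : Pairwise fun b c => Disjoint (B b) (B c))
    (hcov : ∀ i, i ∈ res ∨ ∃ b, i ∈ B b)
    {V : Type*} [Fintype V] [Nonempty V] (h : V → E d → ℝ) (hh : ∀ v, BddNN (h v))
    (h1 : ∀ s, ∑ v, h v s = 1) :
    ∑ v, Hent (sphereM d) (h v) ≤ ∑ v, Psi (fibJ resᶜ) (sphereM d) (h v) +
      ∑ b, ∑ v, Psi (fibJ (B b ∪ res)ᶜ) (sphereM d) (h v) + (m : ℝ) * d := by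
  classical
  -- the two index sets
  have hbi_top : Finset.univ.biUnion B = resᶜ := by
    ext i
    simp only [Finset.mem_biUnion, Finset.mem_univ, true_and, Finset.mem_compl]
    constructor
    · rintro ⟨b, hb⟩ hir
      exact Finset.disjoint_left.1 (hBr b) hb hir
    · intro hir
      exact (hcov i).resolve_left hir
  have hbi_b : ∀ b, (Finset.univ.erase b).biUnion B = (B b ∪ res)ᶜ := by
    intro b
    ext i
    simp only [Finset.mem_biUnion, Finset.mem_erase, Finset.mem_univ, and_true, Finset.mem_compl,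
      Finset.mem_union, not_or]
    constructor
    · rintro ⟨c, hcb, hc⟩
      exact ⟨fun hib => Finset.disjoint_left.1 (hBB hcb) hc hib,
        fun hir => Finset.disjoint_left.1 (hBr c) hc hir⟩
    · rintro ⟨hib, hir⟩
      obtain ⟨c, hc⟩ := (hcov i).resolve_left hir
      exact ⟨c, fun hcb => hib (hcb ▸ hc), hc⟩
  have hsub : ∀ b, (B b ∪ res)ᶜ ⊆ resᶜ := fun b => by
    intro i hi
    simp only [Finset.mem_compl, Finset.mem_union, not_or] at hi ⊢
    exact hi.2
  -- at least one block
  have hm : 1 ≤ m := by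
    have hcard : res.card < (Finset.univ : Finset (Fin d)).card := by
      simp [hres]
      omega
    obtain ⟨i, _, hi⟩ := Finset.exists_mem_notMem_of_card_lt_card hcard
    obtain ⟨b, _⟩ := (hcov i).resolve_left hi
    exact Nat.one_le_iff_ne_zero.2 fun h0 => (h0 ▸ b : Fin 0).elim0
  -- the measures
  have hP : Measurable (coordP resᶜ : E d → E d) := measurable_coordP _
  have hlamP : IsProbabilityMeasure (mapM (sphereM d) (coordP resᶜ)) := mapM_prob hP
  have hdom : ∀ A, MeasurableSet A → (mapM (sphereM d) (coordP resᶜ)) A ≤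
      ENNReal.ofReal (rexp d) * (nuG res) A := by
    intro A hA
    rw [Measure.map_apply hP hA]
    unfold nuG
    rw [Measure.map_apply (measurable_scaledP res) hA]
    exact sphere_coord_density res hres hd A hA
  obtain ⟨ℓ, hℓ, hℓC, hℓ1, hlam⟩ := exists_density _ _ (exp_pos _).le hdom
  -- independence of the blocks
  have hind : iIndep (fun b => fibJ (B b)) (nuG res) := by
    have hb := iIndep_blocks (m := fun i : Fin d => coordM i)
      (fun i => (coordM_le_fibJ (Finset.mem_univ i)).trans (fibJ_le _)) (iIndep_coordM res)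
      (fun b : Fin m => ((B b : Finset (Fin d)) : Set (Fin d)))
      (fun b c hbc => Finset.disjoint_coe.2 (hBB hbc))
    have he : (fun b => fibJ (B b)) = fun b : Fin m => ⨆ i ∈ ((B b : Finset (Fin d)) : Set (Fin d)), coordM i := by
      funext b
      rw [fibJ_eq]
      simp only [Finset.mem_coe]
    rw [he]
    exact hb
  -- measurability at the top level
  have hae : ∀ᵐ x ∂(nuG res), coordP resᶜ x = x := by
    unfold nuG
    have hset : MeasurableSet {x : E d | coordP resᶜ x = x} :=
      measurableSet_eq_fun (measurable_coordP _) measurable_id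
    rw [ae_map_iff (measurable_scaledP res).aemeasurable hset]
    refine ae_of_all _ fun g => ?_
    rw [map_smul, coordP_comp (Finset.Subset.refl _)]
  have hFm : ∀ u : E d → ℝ, BddNN u →
      (nuG res)[u|HT (fun b => fibJ (B b)) Finset.univ] =ᵐ[nuG res] u := by
    intro u hu
    rw [HT_fibJ, hbi_top]
    obtain ⟨F, hF⟩ := hu.bdd
    have huP : (fun x => u (coordP resᶜ x)) =ᵐ[nuG res] u :=
      hae.mono fun x hx => by simp only [hx]
    have hmeas : Measurable[fibJ resᶜ] fun x => u (coordP resᶜ x) :=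
      hu.meas.comp (comap_measurable _)
    have hint : Integrable (fun x => u (coordP resᶜ x)) (nuG res) :=
      bdd_int (hu.meas.comp hP) (C := F) fun x => by
        rw [abs_of_nonneg (hu.nonneg _)]; exact hF _
    have h2 : (nuG res)[u|fibJ resᶜ] =ᵐ[nuG res] (nuG res)[fun x => u (coordP resᶜ x)|fibJ resᶜ] :=
      condExp_congr_ae huP.symm
    rw [condExp_of_stronglyMeasurable (fibJ_le _) hmeas.stronglyMeasurable hint] at h2
    exact h2.trans huP
  -- the conditional expectations on the coordinates outside `res`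
  choose F hF using fun v => (hh v).bdd
  obtain ⟨x₀⟩ : Nonempty (E d) := ne_of_prob (sphereM d)
  have hF0 : ∀ v, 0 ≤ F v := fun v => ((hh v).nonneg x₀).trans (hF v x₀)
  have hex : ∀ v, ∃ w : E d → ℝ, Measurable[fibJ resᶜ] w ∧ (∀ x, 0 ≤ w x ∧ w x ≤ F v) ∧
      w =ᵐ[sphereM d] (sphereM d)[h v|fibJ resᶜ] := fun v =>
    exists_clip (fibJ_le _) (hh v).meas (hF0 v) (hh v).nonneg (hF v)
  choose q hqm hqb hq using hex
  have hqB : ∀ v, BddNN (q v) := fun v =>
    ⟨(hqm v).mono (fibJ_le _) le_rfl, fun x => (hqb v x).1, F v, fun x => (hqb v x).2⟩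
  have hqP : ∀ v x, q v (coordP resᶜ x) = q v x := fun v x =>
    comp_eq_of_sat (sat_fibJ (Finset.Subset.refl _)) (hqm v) x
  -- the partition
  have hsumσ : ∀ᵐ x ∂(sphereM d), ∑ v, q v x = 1 := by
    have hi : ∀ v, Integrable (h v) (sphereM d) := fun v =>
      bdd_int (hh v).meas (C := F v) fun x => by
        rw [abs_of_nonneg ((hh v).nonneg x)]; exact hF v x
    have h2 := condExp_finsetSum (μ := sphereM d) (s := Finset.univ) (f := h)
      (fun v _ => hi v) (fibJ resᶜ)
    have h3 : (∑ v, h v) = fun _ => (1 : ℝ) := by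
      funext x
      rw [Finset.sum_apply]
      exact h1 x
    rw [h3, condExp_const (fibJ_le _)] at h2
    filter_upwards [h2, ae_all_iff.2 hq] with x hx hx'
    simp only [hx']
    have : (∑ v, (sphereM d)[h v|fibJ resᶜ]) x = 1 := hx.symm
    rwa [Finset.sum_apply] at this
  have hsum : ∀ᵐ x ∂(mapM (sphereM d) (coordP resᶜ)), ∑ v, q v x = 1 := by
    have hset : MeasurableSet {x : E d | ∑ v, q v x = 1} :=
      measurableSet_eq_fun (Finset.measurable_sum _ fun v _ => (hqB v).meas) measurable_const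
    refine (ae_map_iff hP.aemeasurable hset).2 ?_
    simpa only [hqP] using hsumσ
  -- the abstract inequality
  have hcardm : 1 ≤ Fintype.card (Fin m) := by simpa using hm
  have habs := han_abstract (ν := nuG res) (lam := mapM (sphereM d) (coordP resᶜ))
    (G := fun b => fibJ (B b)) (ℓ := ℓ) (C := rexp d)
    (fun b => fibJ_le _) hind hFm hcardm hℓ hℓ1 hlam hℓC hqB hsum
  rw [Real.log_exp] at habs
  simp only [Fintype.card_fin, HT_fibJ, hbi_b] at habs
  -- transfer
  have hT1 : ∀ v, Hn (mapM (sphereM d) (coordP resᶜ)) (q v) = Hn (sphereM d) (q v) := fun v =>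
    Hn_map hP (hqB v).meas (hqP v)
  have hT2 : ∀ b v, Hn (mapM (sphereM d) (coordP resᶜ))
      ((mapM (sphereM d) (coordP resᶜ))[q v|fibJ (B b ∪ res)ᶜ]) =
      Hn (sphereM d) ((sphereM d)[h v|fibJ (B b ∪ res)ᶜ]) := fun b v => by
    rw [← Hn_condExp_map hP (fibJ_le _) (sat_fibJ (hsub b)) (hqB v) (hqP v)]
    refine Hn_congr ?_
    have h2 : (sphereM d)[q v|fibJ (B b ∪ res)ᶜ] =ᵐ[sphereM d]
        (sphereM d)[(sphereM d)[h v|fibJ resᶜ]|fibJ (B b ∪ res)ᶜ] := condExp_congr_ae (hq v)
    exact h2.trans (condExp_condExp_of_le (fibJ_mono (hsub b)) (fibJ_le _))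
  simp only [hT1, hT2] at habs
  -- the two functionals
  have hP0 : ∀ v, Psi (fibJ resᶜ) (sphereM d) (h v) = Hn (sphereM d) (h v) - Hn (sphereM d) (q v) :=
    fun v => by
      show Hn (sphereM d) (h v) - Hn (sphereM d) ((sphereM d)[h v|fibJ resᶜ]) = _
      rw [← Hn_congr (hq v)]
  have hPb : ∀ b v, Psi (fibJ (B b ∪ res)ᶜ) (sphereM d) (h v) =
      Hn (sphereM d) (h v) - Hn (sphereM d) ((sphereM d)[h v|fibJ (B b ∪ res)ᶜ]) := fun b v => rfl
  have hnn : ∀ v, Hn (sphereM d) (q v) ≤ Hn (sphereM d) (h v) := fun v => by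
    have := Psi_nonneg (fibJ resᶜ) (σ := sphereM d) (fibJ_le resᶜ) (hh v)
    rw [hP0 v] at this
    linarith
  simp only [hP0, hPb]
  have hcompare : ∑ b : Fin m, ∑ v, (Hn (sphereM d) (q v) -
      Hn (sphereM d) ((sphereM d)[h v|fibJ (B b ∪ res)ᶜ])) ≤
      ∑ b : Fin m, ∑ v, (Hn (sphereM d) (h v) -
        Hn (sphereM d) ((sphereM d)[h v|fibJ (B b ∪ res)ᶜ])) :=
    Finset.sum_le_sum fun b _ => Finset.sum_le_sum fun v _ => by linarith [hnn v]
  have hdpos : (0 : ℝ) ≤ d := Nat.cast_nonneg d
  have hsplit : ∑ v, (Hn (sphereM d) (h v) - Hn (sphereM d) (q v)) =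
      ∑ v, Hn (sphereM d) (h v) - ∑ v, Hn (sphereM d) (q v) := Finset.sum_sub_distrib _ _
  rw [hsplit]
  have hfin : ((m : ℝ) - 1) * d ≤ (m : ℝ) * d := by nlinarith
  show ∑ v, Hn (sphereM d) (h v) ≤ _
  linarith

end Vale.Agent.P309F
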