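import Vale.Agent.P309F.Defs

open MeasureTheory ProbabilityTheory Real Set Filter Topology
open scoped RealInnerProductSpace ENNReal

namespace Vale.Agent.P309F
open Vale.Agent.P309

lemma continuousStar_op (d : ℕ) : ContinuousStar (E d →L[ℝ] E d) :=
  ⟨(ContinuousLinearMap.adjoint (𝕜 := ℝ) (E := E d) (F := E d)).continuous⟩

/-- The orthogonal group of `E d`, as the unitary elements of the operators, is compact. -/
lemma compact_unitary (d : ℕ) : CompactSpace (unitary (E d →L[ℝ] E d)) := by
  have := continuousStar_op d
  have : ProperSpace (E d →L[ℝ] E d) := FiniteDimensional.proper_real _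
  refine isCompact_iff_compactSpace.mp
    ((isCompact_closedBall (0 : E d →L[ℝ] E d) 1).of_isClosed_subset isClosed_unitary ?_)
  intro u hu
  rw [mem_closedBall_zero_iff]
  refine ContinuousLinearMap.opNorm_le_bound _ zero_le_one fun x => ?_
  rw [one_mul]
  exact (Unitary.norm_map ⟨u, hu⟩ x).le

/-- MODULE ROT: Haar measure on the orthogonal group (compact topological group), normalized,
acting on `E d`; `inv` is left invariance (`τ R = O⁻¹ * R`). -/
theorem exists_rotModel (d : ℕ) : Nonempty (RotModel d) := by
  have := continuousStar_op d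
  have := compact_unitary d
  letI mG : MeasurableSpace (unitary (E d →L[ℝ] E d)) := borel _
  have : BorelSpace (unitary (E d →L[ℝ] E d)) := ⟨rfl⟩
  let μ : Measure (unitary (E d →L[ℝ] E d)) := Measure.haarMeasure ⊤
  have hμ1 : μ univ = 1 := by
    have h := Measure.haarMeasure_self (G := unitary (E d →L[ℝ] E d))
      (K₀ := (⊤ : TopologicalSpace.PositiveCompacts (unitary (E d →L[ℝ] E d))))
    simpa [μ] using h
  have hp : IsProbabilityMeasure μ := ⟨hμ1⟩
  have : μ.IsMulLeftInvariant := by
    dsimp only [μ]
    infer_instance
  refine ⟨{ Ω := unitary (E d →L[ℝ] E d), ms := mG, ϖ := μ, prob := hp,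
            act := Unitary.linearIsometryEquiv, meas_symm := ?_, inv := ?_ }⟩
  · have hc : Continuous fun p : (unitary (E d →L[ℝ] E d)) × E d =>
        (star (p.1 : E d →L[ℝ] E d)) p.2 :=
      (continuous_star.comp (continuous_subtype_val.comp continuous_fst)).clm_apply continuous_snd
    exact hc.measurable
  · intro O
    refine ⟨fun R => (Unitary.linearIsometryEquiv.symm O)⁻¹ * R,
      measurePreserving_mul_left μ _, fun R x => ?_⟩
    simp only [map_mul, map_inv, MulEquiv.apply_symm_apply]
    rfl

end Vale.Agent.P309F
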