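import Vale.Agent.P309F.PotStep
import Vale.Agent.P309F.Han
import Vale.Agent.P309F.Rot

open MeasureTheory ProbabilityTheory Real Set Filter Topology
open scoped RealInnerProductSpace ENNReal

namespace Vale.Agent.P309F
open Vale.Agent.P309

variable {d : ℕ} {V : Type} [Fintype V] [Nonempty V]

lemma log_card_nonneg : 0 ≤ log (Fintype.card V) := by
  apply Real.log_nonneg
  exact_mod_cast Fintype.card_pos (α := V)

omit [Nonempty V] in
lemma law_zero_eq (L : Learner d V) (v : V) : (fun s => L.law 0 s v) = fun _ => L.init v := rfl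

lemma Atot_nonneg (a : ℕ) : 0 ≤ Atot V a := by
  have h0 := log_card_nonneg (V := V)
  unfold Atot
  have h1 : 0 ≤ log (4 + log (Fintype.card V) / (4 * a)) := by
    apply Real.log_nonneg
    have : 0 ≤ log (Fintype.card V) / (4 * (a : ℝ)) := by positivity
    linarith
  have h2 : (0 : ℝ) ≤ (a : ℝ) := by positivity
  have h3 : 0 ≤ (2 / (2 * (a : ℝ) + 1)) * log (Fintype.card V) := by positivity
  linarith

omit [Fintype V] [Nonempty V] in
lemma Psi_const_eq {S : Type*} (G : MeasurableSpace S) {mS : MeasurableSpace S} (hG : G ≤ mS)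
    (σ : Measure S) [IsProbabilityMeasure σ] (c : ℝ) : Psi G σ (fun _ => c) = 0 := by
  unfold Psi
  rw [condExp_const hG c]
  ring

/-- Iteration of `pot_step`. -/
lemma pot_iter (L : Learner d V) (𝓡 : RotModel d) {a : ℕ} (ha : 1 ≤ a) (had : 64 * a ≤ d)
    (hda : d ≤ 128 * a) (J : Finset (Fin d)) (hJ : d ≤ J.card + 2 * a + 2) (Jw : ℕ) :
    ∃ I : 𝓡.Ω → ℝ≥0∞, Measurable I ∧ ∫⁻ R, I R ∂𝓡.ϖ ≤ ENNReal.ofReal ((Jw : ℝ) * Atot V a) ∧ ∀ R,
      ENNReal.ofReal (∑ v, Psi (fibO J (𝓡.act R)) (sphereM d) (fun s => L.law (Jw * (2 * a)) s v)) ≤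
        I R := by
  induction Jw with
  | zero =>
    refine ⟨0, measurable_const, by simp, fun R => ?_⟩
    have e : ∀ v, Psi (fibO J (𝓡.act R)) (sphereM d) (fun s => L.law (0 * (2 * a)) s v) = 0 := by
      intro v
      rw [zero_mul, law_zero_eq]
      exact Psi_const_eq _ (fibO_le J _) _ _
    rw [Finset.sum_eq_zero (fun v _ => e v)]
    simp
  | succ Jw ih =>
    obtain ⟨I, hIm, hIi, hI⟩ := ih
    obtain ⟨I', hIm', hIi', hI'⟩ := pot_step L 𝓡 ha had hda J hJ (Jw * (2 * a))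
    refine ⟨fun R => I R + I' R, hIm.add hIm', ?_, fun R => ?_⟩
    · rw [lintegral_add_left hIm]
      have hA := Atot_nonneg (V := V) a
      calc _ ≤ ENNReal.ofReal ((Jw : ℝ) * Atot V a) + ENNReal.ofReal (Atot V a) := add_le_add hIi hIi'
        _ = _ := by
          rw [← ENNReal.ofReal_add (by positivity) hA]
          congr 1
          push_cast
          ring
    · have e : (Jw + 1) * (2 * a) = Jw * (2 * a) + 2 * a := by ring
      rw [e]
      set X := ∑ v, Psi (fibO J (𝓡.act R)) (sphereM d) (fun s => L.law (Jw * (2 * a)) s v) with hX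
      set Y := ∑ v', Psi (fibO J (𝓡.act R)) (sphereM d) (fun s => L.law (Jw * (2 * a) + 2 * a) s v') with hY
      calc ENNReal.ofReal Y = ENNReal.ofReal (X + (Y - X)) := by congr 1; ring
        _ ≤ ENNReal.ofReal X + ENNReal.ofReal (Y - X) := ENNReal.ofReal_add_le
        _ ≤ _ := add_le_add (hI R) (hI' R)

omit [Fintype V] [Nonempty V] in
lemma final_ofReal_sum_le {ι : Type*} (t : Finset ι) (x : ι → ℝ) :
    ENNReal.ofReal (∑ i ∈ t, x i) ≤ ∑ i ∈ t, ENNReal.ofReal (x i) := by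
  classical
  induction t using Finset.induction_on with
  | empty => simp
  | insert i t hi ih =>
    rw [Finset.sum_insert hi, Finset.sum_insert hi]
    exact ENNReal.ofReal_add_le.trans (add_le_add le_rfl ih)

/-- The blocks of coordinates. -/
def blk (d a : ℕ) (b : Fin ((d - 2) / (2 * a) + 1)) : Finset (Fin d) :=
  Finset.univ.filter fun i => 2 ≤ i.val ∧ (i.val - 2) / (2 * a) = b.val

/-- The reserve. -/
def resv (d : ℕ) (hd : 2 ≤ d) : Finset (Fin d) := {⟨0, by omega⟩, ⟨1, by omega⟩}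

lemma resv_card (hd : 2 ≤ d) : (resv d hd).card = 2 := by
  unfold resv
  rw [Finset.card_pair]
  simp [Fin.ext_iff]

lemma mem_resv (hd : 2 ≤ d) (i : Fin d) : i ∈ resv d hd ↔ i.val < 2 := by
  unfold resv
  simp only [Finset.mem_insert, Finset.mem_singleton, Fin.ext_iff]
  omega

lemma blk_card_le {a : ℕ} (ha : 1 ≤ a) (b : Fin ((d - 2) / (2 * a) + 1)) :
    (blk d a b).card ≤ 2 * a := by
  have hpos : 0 < 2 * a := by omega
  have := Finset.card_le_card_of_injOn (s := blk d a b) (t := Finset.Ico (b.val * (2 * a)) (b.val * (2 * a) + 2 * a))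
    (fun i => i.val - 2) ?_ ?_
  · simpa using this
  · intro i hi
    have hi' := (Finset.mem_filter.1 hi).2
    simp only [Finset.coe_Ico, Set.mem_Ico]
    rw [← hi'.2]
    have h1 := Nat.div_add_mod (i.val - 2) (2 * a)
    have h2 := Nat.mod_lt (i.val - 2) hpos
    have h3 : (i.val - 2) / (2 * a) * (2 * a) = 2 * a * ((i.val - 2) / (2 * a)) := Nat.mul_comm _ _
    constructor <;> omega
  · intro i hi j hj hij
    have hi' := (Finset.mem_filter.1 hi).2
    have hj' := (Finset.mem_filter.1 hj).2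
    have : i.val - 2 = j.val - 2 := hij
    apply Fin.ext
    omega

lemma blk_hJ {a : ℕ} (ha : 1 ≤ a) (hd : 2 ≤ d) (b : Fin ((d - 2) / (2 * a) + 1)) :
    d ≤ ((blk d a b ∪ resv d hd)ᶜ).card + 2 * a + 2 := by
  rw [Finset.card_compl, Fintype.card_fin]
  have h1 := Finset.card_union_le (blk d a b) (resv d hd)
  have h2 := blk_card_le ha b
  have h3 := resv_card hd
  have h4 := Finset.card_le_univ (blk d a b ∪ resv d hd)
  rw [Fintype.card_fin] at h4
  omega

lemma res_hJ {a : ℕ} (hd : 2 ≤ d) : d ≤ ((resv d hd)ᶜ).card + 2 * a + 2 := by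
  rw [Finset.card_compl, Fintype.card_fin, resv_card hd]
  omega

/-- MODULE INFO. -/
theorem info_full (L : Learner d V) {a : ℕ} (ha : 1 ≤ a) (had : 64 * a ≤ d) (hda : d ≤ 128 * a)
    (Jw : ℕ) :
    ∑ v, Hent (sphereM d) (fun s => L.law (Jw * (2 * a)) s v) ≤
      (((d - 2) / (2 * a) + 1 : ℕ) : ℝ) * d +
        (((d - 2) / (2 * a) + 2 : ℕ) : ℝ) * ((Jw : ℝ) * Atot V a) := by
  have hd2 : 3 ≤ d := by omega
  have hd22 : 2 ≤ d := by omega
  obtain ⟨𝓡⟩ := exists_rotModel d
  set m := (d - 2) / (2 * a) + 1 with hm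
  set res := resv d hd22 with hres
  let Js : Option (Fin m) → Finset (Fin d) := fun o => match o with
    | none => resᶜ
    | some b => (blk d a b ∪ res)ᶜ
  have hJs : ∀ o, d ≤ (Js o).card + 2 * a + 2 := by
    intro o
    cases o with
    | none => exact res_hJ hd22
    | some b => exact blk_hJ ha hd22 b
  choose I hIm hIi hI using fun o => pot_iter L 𝓡 ha had hda (Js o) (hJs o) Jw
  set T := Jw * (2 * a) with hT
  set c := ∑ v, Hent (sphereM d) (fun s => L.law T s v) with hc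
  have hA := Atot_nonneg (V := V) a
  have hpoint : ∀ R, ENNReal.ofReal (c - (m : ℝ) * d) ≤ ∑ o, I o R := by
    intro R
    set O := 𝓡.act R with hO
    let h : V → E d → ℝ := fun v s => L.law T (O s) v
    have hh : ∀ v, BddNN (h v) := by
      intro v
      have hb := L.bddNN_law T v
      refine ⟨hb.meas.comp O.continuous.measurable, fun s => hb.nonneg _, ?_⟩
      obtain ⟨F, hF⟩ := hb.bdd
      exact ⟨F, fun s => hF _⟩
    have h1 : ∀ s, ∑ v, h v s = 1 := fun s => L.law_sum T (O s)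
    have hBr : ∀ b, Disjoint (blk d a b) res := by
      intro b
      rw [Finset.disjoint_left]
      intro i hi hi2
      have hi' := (Finset.mem_filter.1 hi).2.1
      have := (mem_resv hd22 i).1 hi2
      omega
    have hBB : Pairwise fun b c : Fin m => Disjoint (blk d a b) (blk d a c) := by
      intro b c hbc
      rw [Finset.disjoint_left]
      intro i hi hi2
      have hi' := (Finset.mem_filter.1 hi).2.2
      have hi2' := (Finset.mem_filter.1 hi2).2.2
      exact hbc (Fin.ext (hi'.symm.trans hi2'))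
    have hcov : ∀ i, i ∈ res ∨ ∃ b : Fin m, i ∈ blk d a b := by
      intro i
      by_cases hi : i.val < 2
      · exact Or.inl ((mem_resv hd22 i).2 hi)
      · right
        have hle : (i.val - 2) / (2 * a) ≤ (d - 2) / (2 * a) :=
          Nat.div_le_div_right (by have := i.isLt; omega)
        refine ⟨⟨(i.val - 2) / (2 * a), by omega⟩, ?_⟩
        exact Finset.mem_filter.2 ⟨Finset.mem_univ _, by omega, rfl⟩
    have hhan := han_sphere (blk d a) res (resv_card hd22) hd2 hBr hBB hcov h hh h1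
    have e1 : ∑ v, Hent (sphereM d) (h v) = c := by
      refine Finset.sum_congr rfl fun v _ => ?_
      exact Hent_rot O (h := fun s => L.law T s v)
    have e2 : ∀ o, ∑ v, Psi (fibO (Js o) O) (sphereM d) (fun s => L.law T s v) =
        ∑ v, Psi (fibJ (Js o)) (sphereM d) (h v) := by
      intro o
      refine Finset.sum_congr rfl fun v _ => ?_
      exact Psi_rot (Js o) O (L.bddNN_law T v)
    have hle : c - (m : ℝ) * d ≤ ∑ o, ∑ v, Psi (fibO (Js o) O) (sphereM d) (fun s => L.law T s v) := by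
      rw [Fintype.sum_option]
      simp_rw [e2]
      rw [e1] at hhan
      simp only [Js]
      linarith
    calc ENNReal.ofReal (c - (m : ℝ) * d)
        ≤ ENNReal.ofReal (∑ o, ∑ v, Psi (fibO (Js o) O) (sphereM d) (fun s => L.law T s v)) :=
          ENNReal.ofReal_le_ofReal hle
      _ ≤ ∑ o, ENNReal.ofReal (∑ v, Psi (fibO (Js o) O) (sphereM d) (fun s => L.law T s v)) :=
          final_ofReal_sum_le _ _
      _ ≤ _ := Finset.sum_le_sum fun o _ => hI o R
  have hint : ENNReal.ofReal (c - (m : ℝ) * d) ≤ ENNReal.ofReal (((m + 1 : ℕ) : ℝ) * ((Jw : ℝ) * Atot V a)) := by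
    calc ENNReal.ofReal (c - (m : ℝ) * d)
        = ∫⁻ _, ENNReal.ofReal (c - (m : ℝ) * d) ∂𝓡.ϖ := by simp
      _ ≤ ∫⁻ R, ∑ o, I o R ∂𝓡.ϖ := lintegral_mono hpoint
      _ = ∑ o, ∫⁻ R, I o R ∂𝓡.ϖ := lintegral_finsetSum _ fun o _ => hIm o
      _ ≤ ∑ _o : Option (Fin m), ENNReal.ofReal ((Jw : ℝ) * Atot V a) :=
          Finset.sum_le_sum fun o _ => hIi o
      _ = _ := by
          rw [Finset.sum_const, Finset.card_univ, Fintype.card_option, Fintype.card_fin, nsmul_eq_mul,
            ENNReal.ofReal_mul (p := ((m + 1 : ℕ) : ℝ)) (by positivity), ENNReal.ofReal_natCast]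
  have hle2 := (ENNReal.ofReal_le_ofReal_iff (by positivity)).1 hint
  have e3 : m + 1 = (d - 2) / (2 * a) + 2 := by omega
  rw [e3] at hle2
  linarith


lemma atot_arith {a D Mr Mm : ℝ} (ha : 1 ≤ a) (h1 : 64 * a ≤ D) (h2 : D ≤ 128 * a) (hMr0 : 0 ≤ Mr)
    (hMr : Mr ≤ Mm) :
    (2 / (2 * a + 1)) * Mr + 20 * a + 8 + 3 * log (4 + Mr / (4 * a)) ≤
      D * (1 + 256 * (Mm / D ^ 2)) := by
  have ha0 : 0 < a := by linarith
  have hD0 : 0 < D := by linarith
  set x := Mr / a with hx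
  have hx0 : 0 ≤ x := by positivity
  set y := Mm / D with hy
  have hMm0 : 0 ≤ Mm := hMr0.trans hMr
  have hy0 : 0 ≤ y := by positivity
  have e1 : (2 / (2 * a + 1)) * Mr ≤ x := by
    rw [hx, div_mul_eq_mul_div, div_le_div_iff₀ (by linarith) ha0]
    nlinarith
  have e2 : Mr / (4 * a) = x / 4 := by
    rw [hx]; field_simp
  have e3 : log (4 + x / 4) ≤ 3 + x / 4 := by
    have hpos : 0 < 4 + x / 4 := by positivity
    have := Real.log_le_sub_one_of_pos hpos
    linarith
  have e4 : x ≤ 128 * y := by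
    rw [hx, hy, mul_div_assoc', div_le_div_iff₀ ha0 hD0]
    nlinarith
  have e5 : D * (1 + 256 * (Mm / D ^ 2)) = D + 256 * y := by
    rw [hy]; field_simp
  rw [e5, e2]
  linarith

/-- The arithmetic at the end. -/
lemma final_arith_full {D t μ Hs H A Jw At Mm : ℝ} (hD : 64 ≤ D) (ht : 0 ≤ t) (hμ : 0 ≤ μ)
    (hJw : Jw ≤ 64 * t + 1) (hAt : At ≤ D * (1 + 256 * μ)) (hAt0 : 0 ≤ At) (hJw0 : 0 ≤ Jw)
    (hMm : Mm ≤ 65) (hMm0 : 0 ≤ Mm)
    (hHs : Hs ≤ Mm * D + (Mm + 1) * (Jw * At)) (hH : D / 8 ≤ H) (hA0 : 0 ≤ A)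
    (hfano : H * A ≤ Hs + 1) :
    A ≤ 10000000 * (1 + μ) * (1 + t) := by
  have hD0 : 0 < D := by linarith
  have hP : 0 ≤ (1 + μ) * (1 + t) := by positivity
  have h1 : Jw * At ≤ (64 * t + 1) * (D * (1 + 256 * μ)) := by
    apply mul_le_mul hJw hAt hAt0 (by positivity)
  have h2 : (64 * t + 1) * (D * (1 + 256 * μ)) ≤ 16384 * D * ((1 + μ) * (1 + t)) := by
    have e : 16384 * D * ((1 + μ) * (1 + t)) - (64 * t + 1) * (D * (1 + 256 * μ)) =
        D * (16320 * t + 16128 * μ + 16383 + 0 * t * μ) := by ring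
    have : 0 ≤ D * (16320 * t + 16128 * μ + 16383 + 0 * t * μ) := by positivity
    linarith
  have h3 : (Mm + 1) * (Jw * At) ≤ 66 * (16384 * D * ((1 + μ) * (1 + t))) := by
    apply mul_le_mul (by linarith) (h1.trans h2) (by positivity) (by norm_num)
  have h4 : Mm * D ≤ 65 * D := by
    apply mul_le_mul_of_nonneg_right hMm hD0.le
  have hP1 : 1 ≤ (1 + μ) * (1 + t) := by nlinarith [mul_nonneg hμ ht]
  have h5 : H * A ≤ 1081410 * D * ((1 + μ) * (1 + t)) := by
    have h6 : 65 * D ≤ 65 * D * ((1 + μ) * (1 + t)) := by nlinarith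
    have h7 : (1 : ℝ) ≤ D * ((1 + μ) * (1 + t)) := by nlinarith
    nlinarith
  have h8 : D / 8 * A ≤ H * A := mul_le_mul_of_nonneg_right hH hA0
  have h9 : D * (A - 8 * 1081410 * ((1 + μ) * (1 + t))) ≤ 0 := by nlinarith
  have h10 : A - 8 * 1081410 * ((1 + μ) * (1 + t)) ≤ 0 := by
    by_contra hcon
    push Not at hcon
    have := mul_pos hD0 hcon
    linarith
  nlinarith

/-- MODULE MAIN. Padding as in `main_bound`, `success_fano` with `cap_bound`, arithmetic with `a = d / 64`. -/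
theorem main_full : ∃ C : ℝ, 0 < C ∧ ∀ (d : ℕ), 64 ≤ d → ∀ (M T : ℕ) (V : Type) [Fintype V]
    (L : Learner d V) (ε : ℝ), 0 < ε → ε < 1 / 4 → Fintype.card V ≤ 2 ^ M →
    2 / 3 ≤ L.success T ε →
    log (1 / ε) ≤ C * (1 + (M : ℝ) / (d : ℝ) ^ 2) * (1 + (T : ℝ) / (d : ℝ)) := by
  refine ⟨10000000, by norm_num, ?_⟩
  intro d hd M T V _ L ε hε0 hε hV hsucc
  have : Nonempty V := by
    by_contra hne
    rw [not_nonempty_iff] at hne
    have := L.init_sum
    simp at this
  have hd0 : 0 < d := by omega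
  obtain ⟨a, ha_def⟩ : ∃ a, a = d / 64 := ⟨_, rfl⟩
  have had : 64 * a ≤ d := by rw [ha_def]; exact Nat.mul_div_le d 64
  have ha : 1 ≤ a := by omega
  have hda : d ≤ 128 * a := by omega
  have hw0 : 0 < 2 * a := by omega
  obtain ⟨Jw, hJ_def⟩ : ∃ J, J = T / (2 * a) + 1 := ⟨_, rfl⟩
  have hTJ : T ≤ Jw * (2 * a) := by
    have := Nat.lt_mul_div_succ T hw0
    rw [hJ_def]
    nlinarith
  obtain ⟨k, hk⟩ := Nat.exists_eq_add_of_le hTJ
  have hlaw : ∀ v, (fun s => (L.pad T).law (Jw * (2 * a)) s v) = fun s => L.law T s v := by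
    intro v
    funext s
    rw [hk]
    exact L.pad_law_add T k s v
  have hinfo := info_full (L.pad T) ha had hda Jw
  simp only [hlaw] at hinfo
  -- the cap
  obtain ⟨h, hh_def⟩ : ∃ h, h = d / 4 := ⟨_, rfl⟩
  have hh4 : 4 * h ≤ d := by rw [hh_def]; exact Nat.mul_div_le d 4
  have hh8 : d ≤ 8 * h := by omega
  set κ : ℝ := ε ^ (2 * h) * 2 ^ h with hκ_def
  have hκ0 : 0 < κ := by positivity
  have hκ1 : κ ≤ 1 := by
    have : κ = (ε ^ 2 * 2) ^ h := by
      rw [hκ_def, mul_pow, ← pow_mul]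
    rw [this]
    apply pow_le_one₀ (by positivity)
    nlinarith
  have hhr : (4 : ℝ) * h ≤ (d : ℝ) := by exact_mod_cast hh4
  have hdr : (64 : ℝ) ≤ (d : ℝ) := by exact_mod_cast hd
  have hcap : ∀ ŝ : E d, ‖ŝ‖ = 1 → (sphereM d).real {s | ‖s‖ = 1 ∧ arccos ⟪ŝ, s⟫ ≤ ε} ≤ κ := by
    intro ŝ hŝ
    refine (cap_bound hŝ hε0 (h := h) (by omega)).trans ?_
    rw [hκ_def]
    apply mul_le_mul_of_nonneg_left _ (by positivity)
    have hden : 0 < (d : ℝ) - 1 - 2 * h := by linarith
    have hnum : 0 ≤ (d : ℝ) - 2 * h := by linarith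
    apply pow_le_pow_left₀ (div_nonneg hnum hden.le)
    rw [div_le_iff₀ hden]
    linarith
  have hfano := success_fano hd0 L T hκ0 hκ1 hcap
  -- logarithms
  set A : ℝ := log (1 / ε) with hA_def
  have hlog2 : 0 < log 2 := Real.log_pos (by norm_num)
  have hlog2' : log 2 < 1 := by
    have := Real.log_two_lt_d9
    linarith
  have hA2 : 2 * log 2 ≤ A := by
    have h4 : log 4 = 2 * log 2 := by
      rw [show (4 : ℝ) = 2 ^ 2 by norm_num, Real.log_pow]; norm_num
    rw [← h4, hA_def]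
    apply Real.log_le_log (by norm_num)
    rw [le_div_iff₀ hε0]
    linarith
  have hlogκ : log (1 / κ) = 2 * h * A - h * log 2 := by
    rw [one_div, Real.log_inv, hκ_def, Real.log_mul (by positivity) (by positivity), Real.log_pow,
      Real.log_pow, hA_def, one_div, Real.log_inv]
    push_cast
    ring
  have hh0 : (0 : ℝ) ≤ (h : ℝ) := by positivity
  have hlogκ0 : (3 / 2) * h * A ≤ log (1 / κ) := by
    rw [hlogκ]
    nlinarith
  have hApos : 0 < A := by linarith
  have hlogκ1 : 0 ≤ log (1 / κ) := le_trans (by positivity) hlogκ0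
  have hfan : (h : ℝ) * A ≤ ∑ v, Hent (sphereM d) (fun s => L.law T s v) + 1 := by
    have h2 : (2 / 3) * log (1 / κ) ≤ L.success T ε * log (1 / κ) :=
      mul_le_mul_of_nonneg_right hsucc hlogκ1
    nlinarith
  -- the memory
  have hcard : log (Fintype.card V) ≤ M := by
    have hc : (Fintype.card V : ℝ) ≤ 2 ^ M := by exact_mod_cast hV
    have hc0 : (0 : ℝ) < Fintype.card V := by
      exact_mod_cast Fintype.card_pos
    calc log (Fintype.card V) ≤ log (2 ^ M) := Real.log_le_log hc0 hc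
      _ = M * log 2 := Real.log_pow _ _
      _ ≤ M * 1 := mul_le_mul_of_nonneg_left hlog2'.le (by positivity)
      _ = M := mul_one _
  have hcard0 := log_card_nonneg (V := V)
  set D : ℝ := (d : ℝ) with hD
  have hD0 : 0 < D := by linarith
  have har : (1 : ℝ) ≤ (a : ℝ) := by exact_mod_cast ha
  have hadr : (64 : ℝ) * a ≤ D := by rw [hD]; exact_mod_cast had
  have hdar : D ≤ 128 * a := by rw [hD]; exact_mod_cast hda
  set t : ℝ := (T : ℝ) / D with ht_def
  set μ : ℝ := (M : ℝ) / D ^ 2 with hμ_def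
  have ht0 : 0 ≤ t := by positivity
  have hμ0 : 0 ≤ μ := by positivity
  -- the window count
  have hJw : (Jw : ℝ) ≤ 64 * t + 1 := by
    rw [hJ_def]
    push_cast
    have h1 : ((T / (2 * a) : ℕ) : ℝ) ≤ (T : ℝ) / ((2 * a : ℕ) : ℝ) := Nat.cast_div_le
    have h2 : (T : ℝ) / ((2 * a : ℕ) : ℝ) ≤ 64 * t := by
      push_cast
      rw [div_le_iff₀ (by positivity), ht_def]
      have e : 64 * ((T : ℝ) / D) * (2 * a) = (T : ℝ) * (128 * a / D) := by
        ring
      rw [e]
      have h6 : 1 ≤ 128 * (a : ℝ) / D := by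
        rw [le_div_iff₀ hD0]; linarith
      have hT0 : (0 : ℝ) ≤ T := Nat.cast_nonneg T
      nlinarith
    linarith
  -- the bound per window
  have hAt : Atot V a ≤ D * (1 + 256 * μ) := by
    unfold Atot
    exact atot_arith har hadr hdar hcard0 hcard
  have hm65 : (((d - 2) / (2 * a) + 1 : ℕ) : ℝ) ≤ 65 := by
    have h1 : (d - 2) / (2 * a) ≤ 64 := by
      apply Nat.div_le_of_le_mul
      omega
    have : (d - 2) / (2 * a) + 1 ≤ 65 := by omega
    exact_mod_cast this
  have e2 : (((d - 2) / (2 * a) + 2 : ℕ) : ℝ) = (((d - 2) / (2 * a) + 1 : ℕ) : ℝ) + 1 := by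
    push_cast; ring
  rw [e2] at hinfo
  have hHD : D / 8 ≤ (h : ℝ) := by
    have : (d : ℝ) ≤ 8 * h := by exact_mod_cast hh8
    linarith
  have hfinal := final_arith_full (D := D) hdr ht0 hμ0 hJw hAt (Atot_nonneg a) (by positivity) hm65
    (by positivity) hinfo hHD hApos.le hfan
  linarith

end Vale.Agent.P309F
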