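import Vale.Agent.P309F.PsiBasics

open MeasureTheory ProbabilityTheory Real Set Filter Topology
open scoped RealInnerProductSpace ENNReal

namespace Vale.Agent.P309F
open Vale.Agent.P309

set_option linter.unusedSectionVars false

variable {Ω S ι V : Type*} [MeasurableSpace Ω] [MeasurableSpace ι]
  [Countable ι] [MeasurableSingletonClass ι] [Fintype V]

open Classical in
/-- The replica density of a sub Markov rule `ϑ`. -/
noncomputable def Frep {mS : MeasurableSpace S} (γ : Measure Ω) (pr : Measure S) (c : Ω → S → ι)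
    (ϑ : Ω → ι → ℝ) {u : ℕ} (s : Fin (u + 1) → S) : ℝ :=
  ∫ A, ϑ A (c A (s 0)) * (if ∀ j, c A (s j) = c A (s 0) then
    ((pr.real (c A ⁻¹' {c A (s 0)}))⁻¹) ^ u else 0) ∂γ

open Classical in
/-- The integrand of the replica density. -/
noncomputable def Wrep {mS : MeasurableSpace S} (pr : Measure S) (c : Ω → S → ι)
    (ϑ : Ω → ι → ℝ) {u : ℕ} (A : Ω) (s : Fin (u + 1) → S) : ℝ :=
  ϑ A (c A (s 0)) * (if ∀ j, c A (s j) = c A (s 0) then
    ((pr.real (c A ⁻¹' {c A (s 0)}))⁻¹) ^ u else 0)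

lemma Frep_eq {mS : MeasurableSpace S} (γ : Measure Ω) (pr : Measure S) (c : Ω → S → ι)
    (ϑ : Ω → ι → ℝ) {u : ℕ} (s : Fin (u + 1) → S) :
    Frep γ pr c ϑ s = ∫ A, Wrep pr c ϑ A s ∂γ := rfl

lemma measurable_Wrep {mS : MeasurableSpace S} (pr : Measure S) [IsFiniteMeasure pr]
    (c : Ω → S → ι) (hc : Measurable (Function.uncurry c))
    (ϑ : Ω → ι → ℝ) (hϑm : Measurable (Function.uncurry ϑ)) (u : ℕ) :
    Measurable (fun p : Ω × (Fin (u + 1) → S) => Wrep pr c ϑ p.1 p.2) := by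
  classical
  have hcj : ∀ j, Measurable fun p : Ω × (Fin (u + 1) → S) => c p.1 (p.2 j) :=
    fun j => hc.comp (measurable_fst.prodMk ((measurable_pi_apply j).comp measurable_snd))
  have hmass : Measurable fun q : Ω × ι => pr.real (c q.1 ⁻¹' {q.2}) := by
    have hT : MeasurableSet {q : (Ω × ι) × S | c q.1.1 q.2 = q.1.2} :=
      measurableSet_eq_of_countable
        (hc.comp ((measurable_fst.comp measurable_fst).prodMk measurable_snd))
        (measurable_snd.comp measurable_fst)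
    exact (measurable_measure_prodMk_left (ν := pr) hT).ennreal_toReal
  have hcol : MeasurableSet {p : Ω × (Fin (u + 1) → S) | ∀ j, c p.1 (p.2 j) = c p.1 (p.2 0)} := by
    have : {p : Ω × (Fin (u + 1) → S) | ∀ j, c p.1 (p.2 j) = c p.1 (p.2 0)} =
        ⋂ j, {p | c p.1 (p.2 j) = c p.1 (p.2 0)} := by
      ext p; simp
    rw [this]
    exact MeasurableSet.iInter fun j => measurableSet_eq_of_countable (hcj j) (hcj 0)
  unfold Wrep
  refine (hϑm.comp (measurable_fst.prodMk (hcj 0))).mul ?_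
  refine Measurable.ite hcol ?_ measurable_const
  exact ((hmass.comp (measurable_fst.prodMk (hcj 0))).inv).pow_const u

lemma Wrep_bounds {mS : MeasurableSpace S} (pr : Measure S) (c : Ω → S → ι) (ϑ : Ω → ι → ℝ)
    (hϑ0 : ∀ A i, 0 ≤ ϑ A i) (hϑ1 : ∀ A i, ϑ A i ≤ 1) {τ₀ : ℝ} (hτ₀ : 0 < τ₀)
    (hϑτ : ∀ A i, 0 < ϑ A i → τ₀ ≤ pr.real (c A ⁻¹' {i})) {u : ℕ} (A : Ω)
    (s : Fin (u + 1) → S) :
    0 ≤ Wrep pr c ϑ A s ∧ Wrep pr c ϑ A s ≤ (τ₀⁻¹) ^ u := by
  classical
  unfold Wrep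
  have hb0 : 0 ≤ (τ₀⁻¹) ^ u := by positivity
  rcases (hϑ0 A (c A (s 0))).eq_or_lt with h | h
  · rw [← h]; simpa using hb0
  · have hm := hϑτ A _ h
    have hmp : 0 < pr.real (c A ⁻¹' {c A (s 0)}) := lt_of_lt_of_le hτ₀ hm
    by_cases hs : ∀ j, c A (s j) = c A (s 0)
    · rw [if_pos hs]
      have h1 : ((pr.real (c A ⁻¹' {c A (s 0)}))⁻¹) ^ u ≤ (τ₀⁻¹) ^ u :=
        pow_le_pow_left₀ (by positivity) (inv_anti₀ hτ₀ hm) u
      constructor
      · positivity
      · calc _ ≤ 1 * (τ₀⁻¹) ^ u := mul_le_mul (hϑ1 _ _) h1 (by positivity) zero_le_one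
          _ = _ := one_mul _
    · rw [if_neg hs]; simp only [mul_zero]; exact ⟨le_rfl, hb0⟩

lemma integrable_Wrep {mS : MeasurableSpace S} (γ : Measure Ω) [IsProbabilityMeasure γ]
    (pr : Measure S) [IsFiniteMeasure pr] (c : Ω → S → ι) (hc : Measurable (Function.uncurry c))
    (ϑ : Ω → ι → ℝ) (hϑm : Measurable (Function.uncurry ϑ))
    (hϑ0 : ∀ A i, 0 ≤ ϑ A i) (hϑ1 : ∀ A i, ϑ A i ≤ 1) {τ₀ : ℝ} (hτ₀ : 0 < τ₀)
    (hϑτ : ∀ A i, 0 < ϑ A i → τ₀ ≤ pr.real (c A ⁻¹' {i})) {u : ℕ} (s : Fin (u + 1) → S) :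
    Integrable (fun A => Wrep pr c ϑ A s) γ := by
  have hmeasA : Measurable fun A => Wrep pr c ϑ A s :=
    (measurable_Wrep pr c hc ϑ hϑm u).comp (measurable_id.prodMk measurable_const)
  refine Integrable.of_bound hmeasA.aestronglyMeasurable ((τ₀⁻¹) ^ u) (ae_of_all _ fun A => ?_)
  have hW := Wrep_bounds pr c ϑ hϑ0 hϑ1 hτ₀ hϑτ A s
  rw [Real.norm_eq_abs, abs_of_nonneg hW.1]
  exact hW.2

/-- Measurability of the replica density. -/
theorem measurable_Frep {mS : MeasurableSpace S} (γ : Measure Ω) [IsProbabilityMeasure γ]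
    (pr : Measure S) [IsFiniteMeasure pr] (c : Ω → S → ι) (hc : Measurable (Function.uncurry c))
    (ϑ : Ω → ι → ℝ) (hϑm : Measurable (Function.uncurry ϑ)) (u : ℕ) :
    Measurable (Frep (u := u) γ pr c ϑ) := by
  have h1 : StronglyMeasurable (Function.uncurry fun (s : Fin (u + 1) → S) (A : Ω) =>
      Wrep pr c ϑ A s) :=
    ((measurable_Wrep pr c hc ϑ hϑm u).comp measurable_swap).stronglyMeasurable
  exact (h1.integral_prod_right (ν := γ)).measurable

/-- Bounds of the replica density. -/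
theorem Frep_bounds {mS : MeasurableSpace S} (γ : Measure Ω) [IsProbabilityMeasure γ]
    (pr : Measure S) (c : Ω → S → ι) (ϑ : Ω → ι → ℝ) (hc : Measurable (Function.uncurry c))
    (hϑm : Measurable (Function.uncurry ϑ)) [IsFiniteMeasure pr]
    (hϑ0 : ∀ A i, 0 ≤ ϑ A i) (hϑ1 : ∀ A i, ϑ A i ≤ 1) {τ₀ : ℝ} (hτ₀ : 0 < τ₀)
    (hϑτ : ∀ A i, 0 < ϑ A i → τ₀ ≤ pr.real (c A ⁻¹' {i})) {u : ℕ} (s : Fin (u + 1) → S) :
    0 ≤ Frep γ pr c ϑ s ∧ Frep γ pr c ϑ s ≤ (τ₀⁻¹) ^ u := by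
  have hW := fun A => Wrep_bounds pr c ϑ hϑ0 hϑ1 hτ₀ hϑτ A s
  have hint := integrable_Wrep γ pr c hc ϑ hϑm hϑ0 hϑ1 hτ₀ hϑτ s
  constructor
  · exact integral_nonneg fun A => (hW A).1
  · calc Frep γ pr c ϑ s = ∫ A, Wrep pr c ϑ A s ∂γ := rfl
      _ ≤ ∫ _, (τ₀⁻¹) ^ u ∂γ := integral_mono hint (integrable_const _) fun A => (hW A).2
      _ = _ := by simp

open Classical in
/-- Fixed rows: integrate the replicas over the cells. -/
lemma cell_marginal {mS : MeasurableSpace S} (pr : Measure S) [IsProbabilityMeasure pr]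
    {C : S → ι} (hC : Measurable C) (t : ι → ℝ) (ht : ∀ i, 0 ≤ t i) {u : ℕ} (j : Fin (u + 1))
    {h : S → ℝ≥0∞} (hh : Measurable h) :
    ∫⁻ s : Fin (u + 1) → S, ENNReal.ofReal (t (C (s 0)) *
        (if ∀ k, C (s k) = C (s 0) then ((pr.real (C ⁻¹' {C (s 0)}))⁻¹) ^ u else 0)) * h (s j)
        ∂(Measure.pi fun _ => pr) =
      ∫⁻ x, ENNReal.ofReal (t (C x)) * h x ∂pr := by
  classical
  have hcell : ∀ i, MeasurableSet (C ⁻¹' {i}) := fun i => hC (measurableSet_singleton i)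
  -- the factors
  let g : ι → Fin (u + 1) → S → ℝ≥0∞ := fun i k =>
    (C ⁻¹' {i}).indicator (if k = j then h else fun _ => 1)
  have hg : ∀ i k, Measurable (g i k) := by
    intro i k
    refine Measurable.indicator ?_ (hcell i)
    by_cases hk : k = j
    · simpa [hk] using hh
    · simp [hk]
  have hprod : ∀ i, ∫⁻ s : Fin (u + 1) → S, ∏ k, g i k (s k) ∂(Measure.pi fun _ => pr) =
      (∫⁻ x in C ⁻¹' {i}, h x ∂pr) * (pr (C ⁻¹' {i})) ^ u := by
    intro i
    have hind : iIndepFun (fun (k : Fin (u + 1)) (s : Fin (u + 1) → S) => g i k (s k))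
        (Measure.pi fun _ : Fin (u + 1) => pr) :=
      iIndepFun_pi (X := fun k => g i k) fun k => (hg i k).aemeasurable
    have h1 := lintegral_prod_eq_prod_lintegral_of_indepFun
      (μ := Measure.pi fun _ : Fin (u + 1) => pr) Finset.univ
      (fun (k : Fin (u + 1)) (s : Fin (u + 1) → S) => g i k (s k)) hind
      (fun k => (hg i k).comp (measurable_pi_apply k))
    rw [h1]
    have h2 : ∀ k : Fin (u + 1), ∫⁻ s : Fin (u + 1) → S, g i k (s k) ∂(Measure.pi fun _ => pr) =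
        ∫⁻ x, g i k x ∂pr := by
      intro k
      exact (measurePreserving_eval (fun _ : Fin (u + 1) => pr) k).lintegral_comp (hg i k)
    simp_rw [h2]
    rw [Fintype.prod_eq_mul_prod_compl j]
    have h3 : ∫⁻ x, g i j x ∂pr = ∫⁻ x in C ⁻¹' {i}, h x ∂pr := by
      simp only [g, if_true]
      exact lintegral_indicator (hcell i) h
    have h4 : ∀ k ∈ ({j} : Finset (Fin (u + 1)))ᶜ, ∫⁻ x, g i k x ∂pr = pr (C ⁻¹' {i}) := by
      intro k hk
      have hkj : k ≠ j := by simpa using hk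
      simp only [g, if_neg hkj]
      rw [lintegral_indicator (hcell i)]
      simp
    rw [h3, Finset.prod_congr rfl h4, Finset.prod_const, Finset.card_compl, Finset.card_singleton,
      Fintype.card_fin]
    simp
  -- decomposition of the integrand
  have hdec : ∀ s : Fin (u + 1) → S, ENNReal.ofReal (t (C (s 0)) *
        (if ∀ k, C (s k) = C (s 0) then ((pr.real (C ⁻¹' {C (s 0)}))⁻¹) ^ u else 0)) * h (s j) =
      ∑' i, ENNReal.ofReal (t i * ((pr.real (C ⁻¹' {i}))⁻¹) ^ u) * ∏ k, g i k (s k) := by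
    intro s
    by_cases hs : ∀ k, C (s k) = C (s 0)
    · rw [if_pos hs, tsum_eq_single (C (s 0))]
      · congr 1
        rw [Fintype.prod_eq_mul_prod_compl j]
        have h5 : g (C (s 0)) j (s j) = h (s j) := by
          simp only [g, if_true]
          rw [Set.indicator_of_mem]
          simp [hs j]
        have h6 : ∀ k ∈ ({j} : Finset (Fin (u + 1)))ᶜ, g (C (s 0)) k (s k) = 1 := by
          intro k hk
          have hkj : k ≠ j := by simpa using hk
          simp only [g, if_neg hkj]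
          rw [Set.indicator_of_mem]
          simp [hs k]
        rw [h5, Finset.prod_congr rfl h6]
        simp
      · intro i hi
        have : ∏ k, g i k (s k) = 0 := by
          refine Finset.prod_eq_zero (Finset.mem_univ 0) ?_
          simp only [g]
          rw [Set.indicator_of_notMem]
          simpa using Ne.symm hi
        rw [this, mul_zero]
    · rw [if_neg hs]
      simp only [mul_zero, ENNReal.ofReal_zero, zero_mul]
      symm
      rw [ENNReal.tsum_eq_zero]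
      intro i
      have : ∏ k, g i k (s k) = 0 := by
        by_cases h0 : C (s 0) = i
        · push Not at hs
          obtain ⟨k, hk⟩ := hs
          refine Finset.prod_eq_zero (Finset.mem_univ k) ?_
          simp only [g]
          rw [Set.indicator_of_notMem]
          simpa [h0] using (by rw [← h0]; exact hk)
        · refine Finset.prod_eq_zero (Finset.mem_univ 0) ?_
          simp only [g]
          rw [Set.indicator_of_notMem]
          simpa using h0
      rw [this, mul_zero]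
  simp_rw [hdec]
  have hmeas : ∀ i, AEMeasurable (fun s : Fin (u + 1) → S =>
      ENNReal.ofReal (t i * ((pr.real (C ⁻¹' {i}))⁻¹) ^ u) * ∏ k, g i k (s k))
      (Measure.pi fun _ => pr) := fun i =>
    ((Finset.measurable_fun_prod _ fun k _ =>
      (hg i k).comp (measurable_pi_apply k)).const_mul _).aemeasurable
  rw [lintegral_tsum hmeas]
  have hterm : ∀ i, ∫⁻ s : Fin (u + 1) → S,
      ENNReal.ofReal (t i * ((pr.real (C ⁻¹' {i}))⁻¹) ^ u) * ∏ k, g i k (s k)
        ∂(Measure.pi fun _ => pr) =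
      ∫⁻ x in C ⁻¹' {i}, ENNReal.ofReal (t (C x)) * h x ∂pr := by
    intro i
    have hm : Measurable (fun s : Fin (u + 1) → S => ∏ k, g i k (s k)) :=
      Finset.measurable_fun_prod _ fun k _ => (hg i k).comp (measurable_pi_apply k)
    rw [lintegral_const_mul _ hm, hprod i]
    have h7 : ∫⁻ x in C ⁻¹' {i}, ENNReal.ofReal (t (C x)) * h x ∂pr =
        ENNReal.ofReal (t i) * ∫⁻ x in C ⁻¹' {i}, h x ∂pr := by
      rw [← lintegral_const_mul _ hh]
      refine setLIntegral_congr_fun (hcell i) fun x hx => ?_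
      have : C x = i := hx
      simp [this]
    rw [h7]
    by_cases hnull : pr (C ⁻¹' {i}) = 0
    · rw [setLIntegral_measure_zero _ _ hnull]; simp
    · have hpos : 0 < pr.real (C ⁻¹' {i}) := by
        have := measureReal_nonneg (μ := pr) (s := C ⁻¹' {i})
        refine lt_of_le_of_ne this (Ne.symm ?_)
        rw [Ne, measureReal_eq_zero_iff]
        exact hnull
      have hreal : pr (C ⁻¹' {i}) = ENNReal.ofReal (pr.real (C ⁻¹' {i})) :=
        (ofReal_measureReal (μ := pr) (s := C ⁻¹' {i})).symm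
      set e := pr.real (C ⁻¹' {i}) with he
      rw [hreal, ← ENNReal.ofReal_pow hpos.le, mul_comm (∫⁻ x in C ⁻¹' {i}, h x ∂pr), ← mul_assoc,
        ← ENNReal.ofReal_mul (by have := ht i; positivity)]
      congr 2
      rw [mul_assoc, ← mul_pow, inv_mul_cancel₀ hpos.ne', one_pow, mul_one]
  simp_rw [hterm]
  rw [← lintegral_iUnion hcell]
  · have : (⋃ i, C ⁻¹' {i}) = univ := by
      ext x; simp
    rw [this, Measure.restrict_univ]
  · intro i i' hii
    exact Disjoint.preimage _ (by simpa using hii)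


section Marginal

variable {mS : MeasurableSpace S} (γ : Measure Ω) [IsProbabilityMeasure γ]
    (pr : Measure S) [IsProbabilityMeasure pr] (c : Ω → S → ι)
    (hc : Measurable (Function.uncurry c))
    (ϑ : Ω → ι → ℝ) (hϑm : Measurable (Function.uncurry ϑ))
    (hϑ0 : ∀ A i, 0 ≤ ϑ A i) (hϑ1 : ∀ A i, ϑ A i ≤ 1) {τ₀ : ℝ} (hτ₀ : 0 < τ₀)
    (hϑτ : ∀ A i, 0 < ϑ A i → τ₀ ≤ pr.real (c A ⁻¹' {i}))

include hc hϑm hϑ0 hϑ1 hτ₀ hϑτ

/-- The marginals of the replica density. -/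
lemma marginal_lintegral {u : ℕ} (j : Fin (u + 1)) {h : S → ℝ≥0∞} (hh : Measurable h) :
    ∫⁻ s : Fin (u + 1) → S, ENNReal.ofReal (Frep γ pr c ϑ s) * h (s j)
        ∂(Measure.pi fun _ => pr) =
      ∫⁻ x, ENNReal.ofReal (∫ A, ϑ A (c A x) ∂γ) * h x ∂pr := by
  classical
  have hW := fun (A : Ω) (s : Fin (u + 1) → S) => Wrep_bounds pr c ϑ hϑ0 hϑ1 hτ₀ hϑτ A s
  have hWm := measurable_Wrep pr c hc ϑ hϑm u
  have h1 : ∀ s : Fin (u + 1) → S, ENNReal.ofReal (Frep γ pr c ϑ s) =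
      ∫⁻ A, ENNReal.ofReal (Wrep pr c ϑ A s) ∂γ := by
    intro s
    rw [Frep_eq, ofReal_integral_eq_lintegral_ofReal
      (integrable_Wrep γ pr c hc ϑ hϑm hϑ0 hϑ1 hτ₀ hϑτ s) (ae_of_all _ fun A => (hW A s).1)]
  have hWAm : ∀ s : Fin (u + 1) → S, Measurable fun A => ENNReal.ofReal (Wrep pr c ϑ A s) :=
    fun s => (hWm.comp (measurable_id.prodMk measurable_const)).ennreal_ofReal
  have h2 : ∀ s : Fin (u + 1) → S, ENNReal.ofReal (Frep γ pr c ϑ s) * h (s j) =
      ∫⁻ A, ENNReal.ofReal (Wrep pr c ϑ A s) * h (s j) ∂γ := by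
    intro s
    rw [h1 s, lintegral_mul_const _ (hWAm s)]
  simp_rw [h2]
  have hprodm : AEMeasurable (Function.uncurry fun (s : Fin (u + 1) → S) (A : Ω) =>
      ENNReal.ofReal (Wrep pr c ϑ A s) * h (s j))
      ((Measure.pi fun _ : Fin (u + 1) => pr).prod γ) := by
    refine Measurable.aemeasurable ?_
    exact (hWm.comp measurable_swap).ennreal_ofReal.mul
      (hh.comp ((measurable_pi_apply j).comp measurable_fst))
  rw [lintegral_lintegral_swap hprodm]
  have h3 : ∀ A : Ω, ∫⁻ s : Fin (u + 1) → S, ENNReal.ofReal (Wrep pr c ϑ A s) * h (s j)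
      ∂(Measure.pi fun _ => pr) = ∫⁻ x, ENNReal.ofReal (ϑ A (c A x)) * h x ∂pr := by
    intro A
    have hCA : Measurable (c A) := hc.comp measurable_prodMk_left
    exact cell_marginal pr hCA (ϑ A) (hϑ0 A) j hh
  simp_rw [h3]
  have hprodm2 : AEMeasurable (Function.uncurry fun (A : Ω) (x : S) =>
      ENNReal.ofReal (ϑ A (c A x)) * h x) (γ.prod pr) := by
    refine Measurable.aemeasurable ?_
    have : Measurable fun p : Ω × S => ϑ p.1 (c p.1 p.2) := hϑm.comp (measurable_fst.prodMk hc)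
    exact this.ennreal_ofReal.mul (hh.comp measurable_snd)
  rw [lintegral_lintegral_swap hprodm2]
  refine lintegral_congr fun x => ?_
  have hAm : Measurable fun A => ϑ A (c A x) :=
    hϑm.comp (measurable_id.prodMk (hc.comp (measurable_id.prodMk measurable_const)))
  have hAint : Integrable (fun A => ϑ A (c A x)) γ := by
    refine Integrable.of_bound hAm.aestronglyMeasurable 1 (ae_of_all _ fun A => ?_)
    rw [Real.norm_eq_abs, abs_of_nonneg (hϑ0 _ _)]
    exact hϑ1 _ _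
  rw [ofReal_integral_eq_lintegral_ofReal hAint (ae_of_all _ fun A => hϑ0 _ _),
    lintegral_mul_const _ hAm.ennreal_ofReal]

/-- The average of a rule over the rows is measurable. -/
lemma measurable_aver : Measurable fun x => ∫ A, ϑ A (c A x) ∂γ := by
  have h0 : Measurable fun p : S × Ω => ϑ p.2 (c p.2 p.1) :=
    hϑm.comp (measurable_snd.prodMk (hc.comp (measurable_snd.prodMk measurable_fst)))
  have h1 : StronglyMeasurable (Function.uncurry fun (x : S) (A : Ω) => ϑ A (c A x)) :=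
    h0.stronglyMeasurable
  exact (h1.integral_prod_right (ν := γ)).measurable

lemma aver_bounds (x : S) : 0 ≤ ∫ A, ϑ A (c A x) ∂γ ∧ ∫ A, ϑ A (c A x) ∂γ ≤ 1 := by
  have hAm : Measurable fun A => ϑ A (c A x) :=
    hϑm.comp (measurable_id.prodMk (hc.comp (measurable_id.prodMk measurable_const)))
  have hAint : Integrable (fun A => ϑ A (c A x)) γ := by
    refine Integrable.of_bound hAm.aestronglyMeasurable 1 (ae_of_all _ fun A => ?_)
    rw [Real.norm_eq_abs, abs_of_nonneg (hϑ0 _ _)]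
    exact hϑ1 _ _
  constructor
  · exact integral_nonneg fun A => hϑ0 _ _
  · calc ∫ A, ϑ A (c A x) ∂γ ≤ ∫ _, 1 ∂γ :=
        integral_mono hAint (integrable_const _) fun A => hϑ1 _ _
      _ = 1 := by simp

/-- Marginal identity for nonnegative real test functions. -/
lemma marginal_nonneg {u : ℕ} (j : Fin (u + 1)) {h : S → ℝ} (hh : Measurable h)
    (h0 : ∀ x, 0 ≤ h x) {K : ℝ} (hK : ∀ x, (∫ A, ϑ A (c A x) ∂γ) * h x ≤ K) :
    Integrable (fun s : Fin (u + 1) → S => Frep γ pr c ϑ s * h (s j))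
        (Measure.pi fun _ => pr) ∧
      ∫ s : Fin (u + 1) → S, Frep γ pr c ϑ s * h (s j) ∂(Measure.pi fun _ => pr) =
        ∫ x, (∫ A, ϑ A (c A x) ∂γ) * h x ∂pr := by
  have hF := fun s : Fin (u + 1) → S => Frep_bounds γ pr c ϑ hc hϑm hϑ0 hϑ1 hτ₀ hϑτ s
  have hFm := measurable_Frep γ pr c hc ϑ hϑm u
  have ham := measurable_aver γ pr c hc ϑ hϑm hϑ0 hϑ1 hτ₀ hϑτ
  have hab := aver_bounds γ pr c hc ϑ hϑm hϑ0 hϑ1 hτ₀ hϑτ
  have hmarg := marginal_lintegral γ pr c hc ϑ hϑm hϑ0 hϑ1 hτ₀ hϑτ j hh.ennreal_ofReal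
  have e1 : ∫⁻ s : Fin (u + 1) → S, ENNReal.ofReal (Frep γ pr c ϑ s * h (s j))
      ∂(Measure.pi fun _ => pr) = ∫⁻ x, ENNReal.ofReal ((∫ A, ϑ A (c A x) ∂γ) * h x) ∂pr := by
    simp_rw [ENNReal.ofReal_mul (hF _).1, ENNReal.ofReal_mul (hab _).1]
    exact hmarg
  have hm1 : Measurable fun s : Fin (u + 1) → S => Frep γ pr c ϑ s * h (s j) :=
    hFm.mul (hh.comp (measurable_pi_apply j))
  have hm2 : Measurable fun x => (∫ A, ϑ A (c A x) ∂γ) * h x := ham.mul hh
  have hn1 : ∀ s : Fin (u + 1) → S, 0 ≤ Frep γ pr c ϑ s * h (s j) :=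
    fun s => mul_nonneg (hF s).1 (h0 _)
  have hn2 : ∀ x, 0 ≤ (∫ A, ϑ A (c A x) ∂γ) * h x := fun x => mul_nonneg (hab x).1 (h0 x)
  have hint2 : Integrable (fun x => (∫ A, ϑ A (c A x) ∂γ) * h x) pr := by
    refine Integrable.of_bound hm2.aestronglyMeasurable K (ae_of_all _ fun x => ?_)
    rw [Real.norm_eq_abs, abs_of_nonneg (hn2 x)]
    exact hK x
  have hfin : ∫⁻ x, ENNReal.ofReal ((∫ A, ϑ A (c A x) ∂γ) * h x) ∂pr ≠ ∞ :=
    (hint2.lintegral_lt_top).ne
  constructor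
  · refine ⟨hm1.aestronglyMeasurable, ?_⟩
    rw [hasFiniteIntegral_iff_ofReal (ae_of_all _ hn1), e1]
    exact lt_top_iff_ne_top.2 hfin
  · rw [integral_eq_lintegral_of_nonneg_ae (ae_of_all _ hn1) hm1.aestronglyMeasurable, e1,
      integral_eq_lintegral_of_nonneg_ae (ae_of_all _ hn2) hm2.aestronglyMeasurable]

/-- Marginal identity for real test functions with a bounded product. -/
lemma marginal_real {u : ℕ} (j : Fin (u + 1)) {h : S → ℝ} (hh : Measurable h)
    {K : ℝ} (hK : ∀ x, (∫ A, ϑ A (c A x) ∂γ) * |h x| ≤ K) :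
    Integrable (fun s : Fin (u + 1) → S => Frep γ pr c ϑ s * h (s j))
        (Measure.pi fun _ => pr) ∧
      ∫ s : Fin (u + 1) → S, Frep γ pr c ϑ s * h (s j) ∂(Measure.pi fun _ => pr) =
        ∫ x, (∫ A, ϑ A (c A x) ∂γ) * h x ∂pr := by
  have hab := aver_bounds γ pr c hc ϑ hϑm hϑ0 hϑ1 hτ₀ hϑτ
  have ham := measurable_aver γ pr c hc ϑ hϑm hϑ0 hϑ1 hτ₀ hϑτ
  have hp : ∀ x, (∫ A, ϑ A (c A x) ∂γ) * max (h x) 0 ≤ K := fun x =>
    (mul_le_mul_of_nonneg_left (max_le (le_abs_self _) (abs_nonneg _)) (hab x).1).trans (hK x)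
  have hn : ∀ x, (∫ A, ϑ A (c A x) ∂γ) * max (- h x) 0 ≤ K := fun x =>
    (mul_le_mul_of_nonneg_left (max_le (neg_le_abs _) (abs_nonneg _)) (hab x).1).trans (hK x)
  obtain ⟨i1, e1⟩ := marginal_nonneg γ pr c hc ϑ hϑm hϑ0 hϑ1 hτ₀ hϑτ j
    (h := fun x => max (h x) 0) (hh.max measurable_const) (fun x => le_max_right _ _) hp
  obtain ⟨i2, e2⟩ := marginal_nonneg γ pr c hc ϑ hϑm hϑ0 hϑ1 hτ₀ hϑτ j
    (h := fun x => max (- h x) 0) (hh.neg.max measurable_const) (fun x => le_max_right _ _) hn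
  have hsplit : ∀ y, h y = max (h y) 0 - max (- h y) 0 := by
    intro y
    rcases le_total (h y) 0 with hy | hy
    · rw [max_eq_right hy, max_eq_left (by linarith)]; ring
    · rw [max_eq_left hy, max_eq_right (by linarith)]; ring
  have hfun : (fun s : Fin (u + 1) → S => Frep γ pr c ϑ s * h (s j)) = fun s =>
      Frep γ pr c ϑ s * max (h (s j)) 0 - Frep γ pr c ϑ s * max (- h (s j)) 0 := by
    funext s
    rw [← mul_sub, ← hsplit]
  have hi1 : Integrable (fun x => (∫ A, ϑ A (c A x) ∂γ) * max (h x) 0) pr := by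
    refine Integrable.of_bound (ham.mul (hh.max measurable_const)).aestronglyMeasurable K
      (ae_of_all _ fun x => ?_)
    rw [Real.norm_eq_abs, abs_of_nonneg (mul_nonneg (hab x).1 (le_max_right _ _))]
    exact hp x
  have hi2 : Integrable (fun x => (∫ A, ϑ A (c A x) ∂γ) * max (- h x) 0) pr := by
    refine Integrable.of_bound (ham.mul (hh.neg.max measurable_const)).aestronglyMeasurable K
      (ae_of_all _ fun x => ?_)
    rw [Real.norm_eq_abs, abs_of_nonneg (mul_nonneg (hab x).1 (le_max_right _ _))]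
    exact hn x
  constructor
  · rw [hfun]
    exact i1.sub i2
  · rw [hfun, integral_sub i1 i2, e1, e2, ← integral_sub hi1 hi2]
    refine integral_congr_ae (ae_of_all _ fun x => ?_)
    show _ - _ = _
    rw [← mul_sub, ← hsplit]

end Marginal

/-- The total mass of the replica density: integrate the replicas, the cell masses cancel. -/
theorem integral_Frep {mS : MeasurableSpace S} (γ : Measure Ω) [IsProbabilityMeasure γ]
    (pr : Measure S) [IsProbabilityMeasure pr] (c : Ω → S → ι) (ϑ : Ω → ι → ℝ)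
    (hc : Measurable (Function.uncurry c)) (hϑm : Measurable (Function.uncurry ϑ))
    (hϑ0 : ∀ A i, 0 ≤ ϑ A i) (hϑ1 : ∀ A i, ϑ A i ≤ 1) {τ₀ : ℝ} (hτ₀ : 0 < τ₀)
    (hϑτ : ∀ A i, 0 < ϑ A i → τ₀ ≤ pr.real (c A ⁻¹' {i})) {u : ℕ} :
    ∫ s, Frep γ pr c ϑ s ∂(Measure.pi fun _ : Fin (u + 1) => pr) =
      ∫ s, ∫ A, ϑ A (c A s) ∂γ ∂pr := by
  have hab := aver_bounds γ pr c hc ϑ hϑm hϑ0 hϑ1 hτ₀ hϑτ
  have := (marginal_nonneg γ pr c hc ϑ hϑm hϑ0 hϑ1 hτ₀ hϑτ (u := u) 0 (h := fun _ => 1)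
    measurable_const (fun _ => zero_le_one) (K := 1) (fun x => by simpa using (hab x).2)).2
  simpa using this


section Tower

variable {G : MeasurableSpace S} {mS : MeasurableSpace S} {σ : Measure S} [IsProbabilityMeasure σ]

lemma tower_mul (hG : G ≤ mS) {ψ u : S → ℝ} (hψ : Measurable[G] ψ) {K : ℝ} (hK : ∀ x, |ψ x| ≤ K)
    (hu : Integrable u σ) : ∫ x, ψ x * u x ∂σ = ∫ x, ψ x * condExp G σ u x ∂σ := by
  have h1 := condExp_stronglyMeasurable_mul_of_bound hG (μ := σ) hψ.stronglyMeasurable hu K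
    (ae_of_all _ fun x => by simpa using hK x)
  have h2 : ∫ x, (ψ * u) x ∂σ = ∫ x, (condExp G σ (ψ * u)) x ∂σ := (integral_condExp hG).symm
  calc ∫ x, ψ x * u x ∂σ = ∫ x, (ψ * u) x ∂σ := rfl
    _ = ∫ x, (condExp G σ (ψ * u)) x ∂σ := h2
    _ = ∫ x, (ψ * condExp G σ u) x ∂σ := integral_congr_ae h1
    _ = _ := rfl

lemma exists_version (hG : G ≤ mS) {u : S → ℝ} (hu : BddNN u) {Fb : ℝ} (hFb0 : 0 ≤ Fb)
    (hFb : ∀ s, u s ≤ Fb) :
    ∃ m : S → ℝ, Measurable[G] m ∧ (∀ s, 0 ≤ m s) ∧ (∀ s, m s ≤ Fb) ∧ m =ᵐ[σ] condExp G σ u := by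
  have hsm : StronglyMeasurable[G] (condExp G σ u) := stronglyMeasurable_condExp
  have hm1 : Measurable[G] (condExp G σ u) := hsm.measurable
  refine ⟨fun s => max 0 (min (condExp G σ u s) Fb), ?_, ?_, ?_, ?_⟩
  · exact Measurable.max measurable_const (hm1.min measurable_const)
  · exact fun s => le_max_left _ _
  · exact fun s => max_le hFb0 (min_le_right _ _)
  · have h0 : 0 ≤ᵐ[σ] condExp G σ u := condExp_nonneg (ae_of_all _ hu.nonneg)
    have h1 : condExp G σ u ≤ᵐ[σ] condExp G σ (fun _ => Fb) :=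
      condExp_mono hu.integrable (integrable_const Fb) (ae_of_all _ hFb)
    rw [condExp_const hG Fb] at h1
    filter_upwards [h0, h1] with x hx0 hx1
    have hx1' : condExp G σ u x ≤ Fb := hx1
    have hx0' : 0 ≤ condExp G σ u x := hx0
    simp only [min_eq_left hx1', max_eq_right hx0']

end Tower

section PiTools

variable {mS : MeasurableSpace S}

lemma map_update_pi (pr : Measure S) [IsProbabilityMeasure pr] {n : ℕ} (j : Fin n) :
    Measure.map (fun p : (Fin n → S) × S => Function.update p.1 j p.2)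
      ((Measure.pi fun _ => pr).prod pr) = Measure.pi fun _ => pr := by
  classical
  have hT : Measurable fun p : (Fin n → S) × S => Function.update p.1 j p.2 := measurable_update'
  symm
  refine Measure.pi_eq fun B hB => ?_
  rw [Measure.map_apply hT (MeasurableSet.univ_pi hB)]
  have hset : (fun p : (Fin n → S) × S => Function.update p.1 j p.2) ⁻¹' (Set.pi univ B) =
      (Set.pi univ (Function.update B j univ)) ×ˢ (B j) := by
    ext ⟨s, x⟩
    simp only [mem_preimage, Set.mem_pi, mem_univ, forall_const, mem_prod]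
    constructor
    · intro h
      refine ⟨fun k => ?_, ?_⟩
      · by_cases hk : k = j
        · subst hk; simp
        · have := h k
          rw [Function.update_of_ne hk] at this
          rw [Function.update_of_ne hk]
          exact this
      · have := h j
        rwa [Function.update_self] at this
    · rintro ⟨h1, h2⟩ k
      by_cases hk : k = j
      · subst hk; simpa using h2
      · have := h1 k
        rw [Function.update_of_ne hk] at this
        rw [Function.update_of_ne hk]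
        exact this
  rw [hset, Measure.prod_prod, Measure.pi_pi, Fintype.prod_eq_mul_prod_compl j,
    Fintype.prod_eq_mul_prod_compl j (fun k => pr (B k))]
  have h1 : ∀ k ∈ ({j} : Finset (Fin n))ᶜ, pr (Function.update B j univ k) = pr (B k) := by
    intro k hk
    have hkj : k ≠ j := by simpa using hk
    rw [Function.update_of_ne hkj]
  rw [Finset.prod_congr rfl h1]
  simp only [Function.update_self, measure_univ, one_mul]
  rw [mul_comm]

lemma lintegral_resample (pr : Measure S) [IsProbabilityMeasure pr] {n : ℕ} (j : Fin n)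
    {f : (Fin n → S) → ℝ≥0∞} (hf : Measurable f) :
    ∫⁻ s, ∫⁻ x, f (Function.update s j x) ∂pr ∂(Measure.pi fun _ => pr) =
      ∫⁻ s, f s ∂(Measure.pi fun _ => pr) := by
  classical
  have hT : Measurable fun p : (Fin n → S) × S => Function.update p.1 j p.2 := measurable_update'
  calc ∫⁻ s, ∫⁻ x, f (Function.update s j x) ∂pr ∂(Measure.pi fun _ => pr)
      = ∫⁻ p, f (Function.update p.1 j p.2) ∂((Measure.pi fun _ => pr).prod pr) :=
        (lintegral_prod _ (hf.comp hT).aemeasurable).symm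
    _ = ∫⁻ s, f s ∂(Measure.map (fun p : (Fin n → S) × S => Function.update p.1 j p.2)
          ((Measure.pi fun _ => pr).prod pr)) := (lintegral_map hf hT).symm
    _ = _ := by rw [map_update_pi]

/-- Coordinate by coordinate replacement of the factors `κ`. -/
lemma pi_tower (pr : Measure S) [IsProbabilityMeasure pr] {u : ℕ}
    (Gt : (Fin (u + 1) → S) → ℝ) (hGm : Measurable Gt)
    {κ : S → ℝ} (hκm : Measurable κ) {b : ℝ}
    (hκ : ∀ (j : Fin (u + 1)) (s : Fin (u + 1) → S),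
      ∫⁻ x, ENNReal.ofReal (Gt (Function.update s j x)) * ENNReal.ofReal (κ x) ∂pr ≤
        ENNReal.ofReal b * ∫⁻ x, ENNReal.ofReal (Gt (Function.update s j x)) ∂pr)
    (T : Finset (Fin (u + 1))) :
    ∫⁻ s, ENNReal.ofReal (Gt s) * ∏ k ∈ T, ENNReal.ofReal (κ (s k)) ∂(Measure.pi fun _ => pr) ≤
      ENNReal.ofReal b ^ T.card * ∫⁻ s, ENNReal.ofReal (Gt s) ∂(Measure.pi fun _ => pr) := by
  classical
  induction T using Finset.induction_on with
  | empty => simp
  | insert j T hj ih =>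
    rw [Finset.card_insert_of_notMem hj, pow_succ']
    have hfm : ∀ T' : Finset (Fin (u + 1)), Measurable fun s : Fin (u + 1) → S =>
        ENNReal.ofReal (Gt s) * ∏ k ∈ T', ENNReal.ofReal (κ (s k)) := fun T' =>
      hGm.ennreal_ofReal.mul (Finset.measurable_fun_prod _ fun k _ =>
        (hκm.comp (measurable_pi_apply k)).ennreal_ofReal)
    rw [← lintegral_resample pr j (hfm (insert j T))]
    have hstep : ∀ s : Fin (u + 1) → S,
        ∫⁻ x, ENNReal.ofReal (Gt (Function.update s j x)) *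
          ∏ k ∈ insert j T, ENNReal.ofReal (κ (Function.update s j x k)) ∂pr ≤
        ENNReal.ofReal b * ∫⁻ x, ENNReal.ofReal (Gt (Function.update s j x)) *
          ∏ k ∈ T, ENNReal.ofReal (κ (Function.update s j x k)) ∂pr := by
      intro s
      have hrest : ∀ x, ∏ k ∈ T, ENNReal.ofReal (κ (Function.update s j x k)) =
          ∏ k ∈ T, ENNReal.ofReal (κ (s k)) := by
        intro x
        refine Finset.prod_congr rfl fun k hk => ?_
        have hkj : k ≠ j := fun h => hj (h ▸ hk)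
        rw [Function.update_of_ne hkj]
      have hGx : Measurable fun x => ENNReal.ofReal (Gt (Function.update s j x)) :=
        (hGm.comp (measurable_update s)).ennreal_ofReal
      have e1 : ∀ x, ENNReal.ofReal (Gt (Function.update s j x)) *
          ∏ k ∈ insert j T, ENNReal.ofReal (κ (Function.update s j x k)) =
          (ENNReal.ofReal (Gt (Function.update s j x)) * ENNReal.ofReal (κ x)) *
            ∏ k ∈ T, ENNReal.ofReal (κ (s k)) := by
        intro x
        rw [Finset.prod_insert hj, hrest x, Function.update_self, mul_assoc]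
      simp_rw [e1, hrest]
      have hGκ : Measurable fun x => ENNReal.ofReal (Gt (Function.update s j x)) *
          ENNReal.ofReal (κ x) := hGx.mul hκm.ennreal_ofReal
      rw [lintegral_mul_const _ hGκ, lintegral_mul_const _ hGx, ← mul_assoc]
      exact mul_le_mul_left (hκ j s) _
    calc _ ≤ ∫⁻ s, ENNReal.ofReal b * ∫⁻ x, ENNReal.ofReal (Gt (Function.update s j x)) *
          ∏ k ∈ T, ENNReal.ofReal (κ (Function.update s j x k)) ∂pr
            ∂(Measure.pi fun _ => pr) := lintegral_mono hstep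
      _ = ENNReal.ofReal b * ∫⁻ s, ENNReal.ofReal (Gt s) * ∏ k ∈ T, ENNReal.ofReal (κ (s k))
            ∂(Measure.pi fun _ => pr) := by
          rw [lintegral_const_mul' _ _ ENNReal.ofReal_ne_top, lintegral_resample pr j (hfm T)]
      _ ≤ _ := by
          rw [mul_assoc]
          exact mul_le_mul_right ih _

end PiTools

/-- The Gibbs inequality, in integrated form. -/
lemma gibbs_abstract {X : Type*} [MeasurableSpace X] (μ : Measure X) [IsProbabilityMeasure μ]
    {H Φ Lg : X → ℝ} (hH : BM H) (hH0 : ∀ x, 0 ≤ H x) (hΦ : Integrable Φ μ) (hΦ0 : ∀ x, 0 ≤ Φ x)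
    (hLg : Integrable (fun x => H x * Lg x) μ) {T Zb : ℝ} (hT : T = ∫ x, H x ∂μ) (hTpos : 0 < T)
    (hZ : ∫ x, Φ x ∂μ ≤ Zb) (hZpos : 0 < Zb)
    (hae : ∀ᵐ x ∂μ, 0 < H x → 0 < Φ x ∧ log (Φ x) = Lg x) :
    ∫ x, H x * Lg x ∂μ ≤ ∫ x, H x * log (H x) ∂μ + T * log Zb - T * log T := by
  have hHi := hH.integrable μ
  have hHl : Integrable (fun x => H x * log (H x)) μ := (hH.mul_log hH0).integrable μ
  have hpt : ∀ᵐ x ∂μ, H x * Lg x + H x * log T - H x * log Zb - H x * log (H x) ≤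
      T / Zb * Φ x - H x := by
    filter_upwards [hae] with x hx
    rcases (hH0 x).eq_or_lt with h0 | h0
    · rw [← h0]
      simp only [zero_mul, add_zero, sub_zero]
      exact mul_nonneg (div_nonneg hTpos.le hZpos.le) (hΦ0 x)
    · obtain ⟨hp, hl⟩ := hx h0
      have hy : 0 < T * Φ x / (Zb * H x) := by positivity
      have h1 := Real.log_le_sub_one_of_pos hy
      have h2 : log (T * Φ x / (Zb * H x)) = log T + Lg x - log Zb - log (H x) := by
        rw [log_div (by positivity) (by positivity), log_mul hTpos.ne' hp.ne',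
          log_mul hZpos.ne' h0.ne', hl]
        ring
      rw [h2] at h1
      have h3 := mul_le_mul_of_nonneg_left h1 h0.le
      have h4 : H x * (T * Φ x / (Zb * H x) - 1) = T / Zb * Φ x - H x := by field_simp
      rw [h4] at h3
      linarith
  have hc1 : ∀ r : ℝ, Integrable (fun x => H x * r) μ := fun r => hHi.mul_const r
  have i1 : Integrable (fun x => H x * Lg x + H x * log T) μ := hLg.add (hc1 _)
  have i2 : Integrable (fun x => H x * Lg x + H x * log T - H x * log Zb) μ := i1.sub (hc1 _)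
  have hL : Integrable (fun x => H x * Lg x + H x * log T - H x * log Zb - H x * log (H x)) μ :=
    i2.sub hHl
  have i3 : Integrable (fun x => T / Zb * Φ x) μ := hΦ.const_mul _
  have hR : Integrable (fun x => T / Zb * Φ x - H x) μ := i3.sub hHi
  have hI := integral_mono_ae hL hR hpt
  have e1 : ∫ x, (H x * Lg x + H x * log T - H x * log Zb - H x * log (H x)) ∂μ =
      ∫ x, H x * Lg x ∂μ + T * log T - T * log Zb - ∫ x, H x * log (H x) ∂μ := by
    rw [integral_sub i2 hHl, integral_sub i1 (hc1 _), integral_add hLg (hc1 _),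
      integral_mul_const, integral_mul_const, ← hT]
  have e2 : ∫ x, (T / Zb * Φ x - H x) ∂μ = T / Zb * ∫ x, Φ x ∂μ - T := by
    rw [integral_sub i3 hHi, integral_const_mul, ← hT]
  rw [e1, e2] at hI
  have h5 : T / Zb * ∫ x, Φ x ∂μ ≤ T := by
    calc T / Zb * ∫ x, Φ x ∂μ ≤ T / Zb * Zb := mul_le_mul_of_nonneg_left hZ (by positivity)
      _ = T := by field_simp
  linarith


lemma BM.prod_coord {X : Type*} [MeasurableSpace X] {n : ℕ} {κ : X → ℝ} (hκ : BM κ) :
    BM (fun s : Fin n → X => ∏ k, κ (s k)) := by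
  obtain ⟨K, hK⟩ := hκ.bdd
  refine ⟨Finset.measurable_fun_prod _ fun k _ => hκ.meas.comp (measurable_pi_apply k), K ^ n,
    fun s => ?_⟩
  rw [Finset.abs_prod]
  calc ∏ k, |κ (s k)| ≤ ∏ _k : Fin n, K :=
        Finset.prod_le_prod (fun k _ => abs_nonneg _) fun k _ => hK _
    _ = K ^ n := by simp

lemma BM_log_of_pos {X : Type*} [MeasurableSpace X] {h : X → ℝ} (hh : BM h) {c : ℝ} (hc : 0 < c)
    (hlo : ∀ x, c ≤ h x) : BM (fun x => log (h x)) := by
  have h1 : BM (fun x => c⁻¹ * h x) := (BM.const c⁻¹).mul hh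
  have h2 : BM (fun x => log (c⁻¹ * h x)) := h1.log_of_one_le fun x => by
    rw [inv_mul_eq_div, one_le_div hc]
    exact hlo x
  have h3 : BM (fun x => log (c⁻¹ * h x) + log c) := h2.add (BM.const _)
  convert h3 using 2 with x
  have hx : 0 < h x := lt_of_lt_of_le hc (hlo x)
  rw [log_mul (inv_ne_zero hc.ne') hx.ne', log_inv]
  ring

/-- The Gibbs inequality for one rule. -/
lemma per_rule {mS : MeasurableSpace S} (γ : Measure Ω) [IsProbabilityMeasure γ]
    (pr : Measure S) [IsProbabilityMeasure pr] (c : Ω → S → ι)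
    (hc : Measurable (Function.uncurry c))
    (ϑ : Ω → ι → ℝ) (hϑm : Measurable (Function.uncurry ϑ))
    (hϑ0 : ∀ A i, 0 ≤ ϑ A i) (hϑ1 : ∀ A i, ϑ A i ≤ 1) {τ₀ : ℝ} (hτ₀ : 0 < τ₀)
    (hϑτ : ∀ A i, 0 < ϑ A i → τ₀ ≤ pr.real (c A ⁻¹' {i})) {u : ℕ}
    (Gt : (Fin (u + 1) → S) → ℝ) (hGm : Measurable Gt) {g₀ g₁ : ℝ} (hg₀ : 0 < g₀)
    (hGb : ∀ s, g₀ ≤ Gt s ∧ Gt s ≤ g₁)
    {R : S → ℝ} (hR : BM R) {r₀ : ℝ} (hr₀ : 0 < r₀) (hRlo : ∀ x, r₀ ≤ R x)
    {b : ℝ} (hb : 0 < b)
    (hκ : ∀ (j : Fin (u + 1)) (s : Fin (u + 1) → S),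
      ∫⁻ x, ENNReal.ofReal (Gt (Function.update s j x)) *
          ENNReal.ofReal ((∫ A, ϑ A (c A x) ∂γ) * R x) ∂pr ≤
        ENNReal.ofReal b * ∫⁻ x, ENNReal.ofReal (Gt (Function.update s j x)) ∂pr)
    (htv : 0 < ∫ x, ∫ A, ϑ A (c A x) ∂γ ∂pr) :
    ((u : ℝ) + 1) * ∫ x, (∫ A, ϑ A (c A x) ∂γ) * log ((∫ A, ϑ A (c A x) ∂γ) * R x) ∂pr ≤
      ∫ s, Frep γ pr c ϑ s * log (Frep γ pr c ϑ s) ∂(Measure.pi fun _ : Fin (u + 1) => pr) -
      ∫ s, Frep γ pr c ϑ s * log (Gt s) ∂(Measure.pi fun _ : Fin (u + 1) => pr) +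
      (∫ x, ∫ A, ϑ A (c A x) ∂γ ∂pr) *
        log (b ^ (u + 1) * ∫ s, Gt s ∂(Measure.pi fun _ : Fin (u + 1) => pr)) -
      (∫ x, ∫ A, ϑ A (c A x) ∂γ ∂pr) * log (∫ x, ∫ A, ϑ A (c A x) ∂γ ∂pr) := by
  classical
  set PR : Measure (Fin (u + 1) → S) := Measure.pi fun _ : Fin (u + 1) => pr with hPR
  have : IsProbabilityMeasure PR := by rw [hPR]; infer_instance
  set a : S → ℝ := fun x => ∫ A, ϑ A (c A x) ∂γ with ha
  set H : (Fin (u + 1) → S) → ℝ := Frep γ pr c ϑ with hH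
  set tv : ℝ := ∫ x, a x ∂pr with htvdef
  have hab : ∀ x, 0 ≤ a x ∧ a x ≤ 1 := aver_bounds γ pr c hc ϑ hϑm hϑ0 hϑ1 hτ₀ hϑτ
  have ham : Measurable a := measurable_aver γ pr c hc ϑ hϑm hϑ0 hϑ1 hτ₀ hϑτ
  have hFb := fun s : Fin (u + 1) → S => Frep_bounds γ pr c ϑ hc hϑm hϑ0 hϑ1 hτ₀ hϑτ s
  have hFm : Measurable H := measurable_Frep γ pr c hc ϑ hϑm u
  have hHB : BM H := ⟨hFm, (τ₀⁻¹) ^ u, fun s => by
    rw [abs_of_nonneg (hFb s).1]; exact (hFb s).2⟩
  have hH0 : ∀ s, 0 ≤ H s := fun s => (hFb s).1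
  have hGB : BM Gt := ⟨hGm, g₁, fun s => by
    rw [abs_of_pos (lt_of_lt_of_le hg₀ (hGb s).1)]; exact (hGb s).2⟩
  have hGp : ∀ s, 0 < Gt s := fun s => lt_of_lt_of_le hg₀ (hGb s).1
  have hlogG : BM fun s => log (Gt s) := BM_log_of_pos hGB hg₀ fun s => (hGb s).1
  have hlogR : BM fun x => log (R x) := BM_log_of_pos hR hr₀ hRlo
  have hRp : ∀ x, 0 < R x := fun x => lt_of_lt_of_le hr₀ (hRlo x)
  set κ : S → ℝ := fun x => a x * R x with hκdef
  have hκm : Measurable κ := ham.mul hR.meas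
  have hκ0 : ∀ x, 0 ≤ κ x := fun x => mul_nonneg (hab x).1 (hRp x).le
  obtain ⟨KR, hKR⟩ := hR.bdd
  have hκb : ∀ x, κ x ≤ KR := fun x => by
    have h1 := (le_abs_self _).trans (hKR x)
    have h2 : 0 ≤ KR := (abs_nonneg _).trans (hKR x)
    calc κ x ≤ 1 * KR := mul_le_mul (hab x).2 h1 (hRp x).le zero_le_one
      _ = KR := one_mul _
  have hκB : BM κ := ⟨hκm, KR, fun x => by rw [abs_of_nonneg (hκ0 x)]; exact hκb x⟩
  obtain ⟨L, hL⟩ := hlogR.bdd
  have hL0 : 0 ≤ L := by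
    obtain ⟨x0⟩ : Nonempty S := by
      by_contra hne
      rw [not_nonempty_iff] at hne
      have : pr univ = 0 := by
        rw [Set.univ_eq_empty_iff.2 hne]; simp
      simp at this
    exact (abs_nonneg _).trans (hL x0)
  -- boundedness of the product with `a`
  have hlogκ : ∀ x, a x * |log (κ x)| ≤ 1 + L := by
    intro x
    rcases (hab x).1.eq_or_lt with h0 | h0
    · rw [← h0]; simp; linarith
    · have h1 : log (κ x) = log (a x) + log (R x) := by
        simp only [hκdef]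
        rw [log_mul h0.ne' (hRp x).ne']
      rw [h1]
      have h2 : |log (a x) * a x| < 1 := Real.abs_log_mul_self_lt _ h0 (hab x).2
      rw [abs_mul, abs_of_pos h0] at h2
      have h3 : |log (a x) + log (R x)| ≤ |log (a x)| + |log (R x)| := abs_add_le _ _
      calc a x * |log (a x) + log (R x)| ≤ a x * (|log (a x)| + |log (R x)|) :=
            mul_le_mul_of_nonneg_left h3 h0.le
        _ = |log (a x)| * a x + a x * |log (R x)| := by ring
        _ ≤ 1 + 1 * L := by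
            refine add_le_add h2.le (mul_le_mul (hab x).2 (hL x) (abs_nonneg _) zero_le_one)
        _ = 1 + L := by ring
  have hlκm : Measurable fun x => log (κ x) := hκm.log
  have hmarg := fun j : Fin (u + 1) =>
    marginal_real γ pr c hc ϑ hϑm hϑ0 hϑ1 hτ₀ hϑτ j hlκm hlogκ
  -- the test function
  set Φ : (Fin (u + 1) → S) → ℝ := fun s => Gt s * ∏ k, κ (s k) with hΦdef
  have hΦ0 : ∀ s, 0 ≤ Φ s := fun s =>
    mul_nonneg (hGp s).le (Finset.prod_nonneg fun k _ => hκ0 _)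
  have hΦB : BM Φ := hGB.mul (BM.prod_coord hκB)
  have hΦi : Integrable Φ PR := hΦB.integrable PR
  have hZ0 : 0 < ∫ s, Gt s ∂PR := by
    calc 0 < g₀ := hg₀
      _ = ∫ _, g₀ ∂PR := by simp
      _ ≤ ∫ s, Gt s ∂PR := integral_mono (integrable_const _) (hGB.integrable PR)
          fun s => (hGb s).1
  have hΦZ : ∫ s, Φ s ∂PR ≤ b ^ (u + 1) * ∫ s, Gt s ∂PR := by
    have h1 := pi_tower pr Gt hGm hκm hκ Finset.univ
    have e1 : ∀ s : Fin (u + 1) → S, ENNReal.ofReal (Gt s) * ∏ k, ENNReal.ofReal (κ (s k)) =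
        ENNReal.ofReal (Φ s) := by
      intro s
      simp only [hΦdef]
      rw [ENNReal.ofReal_mul (hGp s).le, ENNReal.ofReal_prod_of_nonneg fun k _ => hκ0 _]
    simp_rw [e1] at h1
    rw [← ofReal_integral_eq_lintegral_ofReal hΦi (ae_of_all _ hΦ0),
      ← ofReal_integral_eq_lintegral_ofReal (hGB.integrable PR) (ae_of_all _ fun s => (hGp s).le),
      Finset.card_univ, Fintype.card_fin, ← ENNReal.ofReal_pow hb.le,
      ← ENNReal.ofReal_mul (by positivity)] at h1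
    exact (ENNReal.ofReal_le_ofReal_iff (by positivity)).1 h1
  -- a.e. nonvanishing
  have hnz : ∀ j : Fin (u + 1), ∀ᵐ s ∂PR, 0 < H s → a (s j) ≠ 0 := by
    intro j
    have hset : MeasurableSet {x | a x = 0} := ham (measurableSet_singleton 0)
    have hind : Measurable (({x | a x = 0} : Set S).indicator (fun _ => (1 : ℝ≥0∞))) :=
      measurable_const.indicator hset
    have h1 := marginal_lintegral γ pr c hc ϑ hϑm hϑ0 hϑ1 hτ₀ hϑτ j hind
    have h2 : ∫⁻ x, ENNReal.ofReal (a x) *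
        ({x | a x = 0} : Set S).indicator (fun _ => (1 : ℝ≥0∞)) x ∂pr = 0 := by
      refine (lintegral_congr fun x => ?_).trans lintegral_zero
      by_cases hx : a x = 0
      · simp [hx]
      · rw [Set.indicator_of_notMem (by simpa using hx)]; simp
    rw [h2] at h1
    have hm1 : Measurable fun s : Fin (u + 1) → S => ENNReal.ofReal (H s) *
        ({x | a x = 0} : Set S).indicator (fun _ => (1 : ℝ≥0∞)) (s j) :=
      hFm.ennreal_ofReal.mul (hind.comp (measurable_pi_apply j))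
    have h3 := (lintegral_eq_zero_iff hm1).1 h1
    filter_upwards [h3] with s hs hpos hzero
    have h4 : ENNReal.ofReal (H s) *
        ({x | a x = 0} : Set S).indicator (fun _ => (1 : ℝ≥0∞)) (s j) = 0 := hs
    rw [Set.indicator_of_mem (by simpa using hzero), mul_one] at h4
    have h5 : H s ≤ 0 := ENNReal.ofReal_eq_zero.1 h4
    linarith
  have hnzall : ∀ᵐ s ∂PR, ∀ j : Fin (u + 1), 0 < H s → a (s j) ≠ 0 := ae_all_iff.2 hnz
  -- the logarithm
  set Lg : (Fin (u + 1) → S) → ℝ := fun s => log (Gt s) + ∑ k, log (κ (s k)) with hLgdef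
  have hae : ∀ᵐ s ∂PR, 0 < H s → 0 < Φ s ∧ log (Φ s) = Lg s := by
    filter_upwards [hnzall] with s hs hpos
    have hκp : ∀ k, 0 < κ (s k) := fun k =>
      mul_pos (lt_of_le_of_ne (hab _).1 (Ne.symm (hs k hpos))) (hRp _)
    have hprod : 0 < ∏ k, κ (s k) := Finset.prod_pos fun k _ => hκp k
    refine ⟨mul_pos (hGp s) hprod, ?_⟩
    simp only [hΦdef, hLgdef]
    rw [log_mul (hGp s).ne' hprod.ne', Real.log_prod fun k _ => (hκp k).ne']
  have hi1 : Integrable (fun s => H s * log (Gt s)) PR := (hHB.mul hlogG).integrable PR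
  have hi2 : ∀ k : Fin (u + 1), Integrable (fun s => H s * log (κ (s k))) PR := fun k =>
    (hmarg k).1
  have hexp : (fun s => H s * Lg s) = fun s => H s * log (Gt s) + ∑ k, H s * log (κ (s k)) := by
    funext s
    simp only [hLgdef]
    rw [mul_add, Finset.mul_sum]
  have hi3 : Integrable (fun s => ∑ k, H s * log (κ (s k))) PR :=
    integrable_finsetSum _ fun k _ => hi2 k
  have hLgi : Integrable (fun s => H s * Lg s) PR := by
    rw [hexp]; exact hi1.add hi3
  have htvH : tv = ∫ s, H s ∂PR :=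
    (integral_Frep γ pr c ϑ hc hϑm hϑ0 hϑ1 hτ₀ hϑτ).symm
  have hZb : 0 < b ^ (u + 1) * ∫ s, Gt s ∂PR := by positivity
  have hmain := gibbs_abstract PR hHB hH0 hΦi hΦ0 hLgi htvH htv hΦZ hZb hae
  have hval : ∫ s, H s * Lg s ∂PR = ∫ s, H s * log (Gt s) ∂PR +
      ((u : ℝ) + 1) * ∫ x, a x * log (κ x) ∂pr := by
    rw [hexp, integral_add hi1 hi3, integral_finsetSum _ fun k _ => hi2 k]
    congr 1
    have : ∀ k : Fin (u + 1), ∫ s, H s * log (κ (s k)) ∂PR = ∫ x, a x * log (κ x) ∂pr :=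
      fun k => (hmarg k).2
    simp_rw [this]
    simp
  rw [hval] at hmain
  linarith


section Assembly

variable (G : MeasurableSpace S) {mS : MeasurableSpace S} {σ : Measure S} [IsProbabilityMeasure σ]

lemma integral_withDensity_real {f : S → ℝ} (hf : BddNN f) (g : S → ℝ) :
    ∫ x, g x ∂(σ.withDensity fun s => ENNReal.ofReal (f s)) = ∫ x, f x * g x ∂σ := by
  rw [integral_withDensity_eq_integral_toReal_smul hf.meas.ennreal_ofReal
    (ae_of_all _ fun _ => ENNReal.ofReal_lt_top)]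
  refine integral_congr_ae (ae_of_all _ fun x => ?_)
  simp [ENNReal.toReal_ofReal (hf.nonneg x)]

/-- The functional in terms of a version of the conditional expectation. -/
lemma psi_eval (hG : G ≤ mS) {u m : S → ℝ} (_hu : BddNN u)
    (hm : m =ᵐ[σ] condExp G σ u) :
    Psi G σ u = ∫ s, u s * log (u s) ∂σ - ∫ s, m s * log (m s) ∂σ := by
  unfold Psi
  rw [← Hent_congr_ae hm]
  unfold Hent
  have h1 : ∫ s, m s ∂σ = ∫ s, u s ∂σ := by
    rw [integral_congr_ae hm]
    exact integral_condExp hG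
  rw [h1]
  ring

/-- Tower in the form used below. -/
lemma tower_version (hG : G ≤ mS) {U m ψ : S → ℝ} (hU : Integrable U σ)
    (hm : m =ᵐ[σ] condExp G σ U) (hψ : Measurable[G] ψ) {K : ℝ} (hK : ∀ x, |ψ x| ≤ K) :
    ∫ x, U x * ψ x ∂σ = ∫ x, m x * ψ x ∂σ := by
  have h1 := tower_mul hG hψ hK hU
  calc ∫ x, U x * ψ x ∂σ = ∫ x, ψ x * U x ∂σ := by simp_rw [mul_comm]
    _ = ∫ x, ψ x * condExp G σ U x ∂σ := h1
    _ = ∫ x, m x * ψ x ∂σ := by
      refine integral_congr_ae ?_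
      filter_upwards [hm] with x hx
      rw [hx, mul_comm]

/-- Boundedness of the logarithm of a shifted bounded function, as a `G` measurable function. -/
lemma log_shift_bound {m : S → ℝ} (hmG : Measurable[G] m)
    (hm0 : ∀ x, 0 ≤ m x) {Mb : ℝ} (hmb : ∀ x, m x ≤ Mb) {ε : ℝ} (hε : 0 < ε) :
    Measurable[G] (fun x => log (m x + ε)) ∧ ∃ K, ∀ x, |log (m x + ε)| ≤ K := by
  refine ⟨(hmG.add measurable_const).log, ?_⟩
  refine ⟨max |log ε| |log (Mb + ε)|, fun x => ?_⟩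
  have hlo : ε ≤ m x + ε := by linarith [hm0 x]
  have hhi : m x + ε ≤ Mb + ε := by linarith [hmb x]
  have h1 : log ε ≤ log (m x + ε) := log_le_log hε hlo
  have h2 : log (m x + ε) ≤ log (Mb + ε) := log_le_log (by linarith) hhi
  exact abs_le_max_abs_abs h1 h2

/-- The pointwise bound that sums the rules. -/
lemma pointwise_F {H : V → ℝ} (hH : ∀ v, 0 ≤ H v) {Gv : ℝ} (hG : 0 < Gv) :
    ∑ v, (H v * log (H v) - H v * log Gv) ≤ (∑ v, H v) * log ((∑ v, H v) / Gv) := by
  set F := ∑ v, H v with hF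
  have hF0 : 0 ≤ F := Finset.sum_nonneg fun v _ => hH v
  rcases hF0.eq_or_lt with h0 | h0
  · have : ∀ v, H v = 0 := fun v =>
      (Finset.sum_eq_zero_iff_of_nonneg fun v _ => hH v).1 h0.symm v (Finset.mem_univ v)
    simp [this, ← h0]
  · rw [log_div h0.ne' hG.ne', mul_sub, hF, Finset.sum_mul, Finset.sum_mul,
      ← Finset.sum_sub_distrib, ← hF]
    refine Finset.sum_le_sum fun v _ => ?_
    have hle : H v ≤ F := Finset.single_le_sum (fun w _ => hH w) (Finset.mem_univ v)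
    rcases (hH v).eq_or_lt with h1 | h1
    · rw [← h1]; simp
    · have := mul_le_mul_of_nonneg_left (log_le_log h1 hle) h1.le
      linarith

/-- Entropy of a finite family of masses. -/
lemma entropy_sum {t : V → ℝ} (ht : ∀ v, 0 ≤ t v) {τ : ℝ} (hτ : τ = ∑ v, t v) (hτ0 : 0 < τ) :
    - ∑ v, t v * log (t v) ≤ τ * log (Fintype.card V) - τ * log τ := by
  classical
  have hne : Nonempty V := by
    by_contra hne
    rw [not_nonempty_iff] at hne
    simp [Finset.univ_eq_empty] at hτ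
    linarith
  have hn : (0 : ℝ) < Fintype.card V := by exact_mod_cast Fintype.card_pos
  set n : ℝ := (Fintype.card V : ℝ) with hndef
  have h1 : ∀ v, t v * log τ - t v * log n - t v * log (t v) ≤ τ / n - t v := by
    intro v
    rcases (ht v).eq_or_lt with h0 | h0
    · rw [← h0]; simp; positivity
    · have hy : 0 < τ / (n * t v) := by positivity
      have h2 := Real.log_le_sub_one_of_pos hy
      rw [log_div hτ0.ne' (by positivity), log_mul hn.ne' h0.ne'] at h2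
      have h3 := mul_le_mul_of_nonneg_left h2 h0.le
      have h4 : t v * (τ / (n * t v) - 1) = τ / n - t v := by field_simp
      rw [h4] at h3
      linarith
  have h2 := Finset.sum_le_sum fun v (_ : v ∈ Finset.univ) => h1 v
  simp only [Finset.sum_sub_distrib, ← Finset.sum_mul, ← hτ] at h2
  have h3 : ∑ _v : V, τ / n = τ := by
    simp only [Finset.sum_const, Finset.card_univ, nsmul_eq_mul]
    rw [← hndef]
    field_simp
  rw [h3] at h2
  linarith


/-- The test inequality for the factor `κ`. -/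
lemma test_bound (hG : G ≤ mS) {f a UT m M : S → ℝ} (hf : BddNN f)
    (ham : Measurable a) (hab : ∀ x, 0 ≤ a x ∧ a x ≤ 1)
    (hmG : Measurable[G] m) (hm0 : ∀ x, 0 ≤ m x) {Fb : ℝ} (hmb : ∀ x, m x ≤ Fb)
    (hm : m =ᵐ[σ] condExp G σ (fun x => f x * a x))
    (hMG : Measurable[G] M) (hmM : ∀ x, m x ≤ M x) {Mb : ℝ} (hMb : ∀ x, M x ≤ Mb)
    (hUT : BM UT) (hUTf : ∀ x, UT x ≤ f x) (hM : M =ᵐ[σ] condExp G σ UT)
    {ε τ : ℝ} (hε : 0 < ε) (hτ : 0 < τ)
    {ψ : S → ℝ} (hψ : Measurable[G] ψ) (hψ0 : ∀ x, 0 ≤ ψ x) {g₁ : ℝ} (hψ1 : ∀ x, ψ x ≤ g₁) :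
    ∫ x, ψ x * (a x * ((M x + ε) / (τ * (m x + ε))))
        ∂(σ.withDensity fun s => ENNReal.ofReal (f s)) ≤
      τ⁻¹ * ∫ x, ψ x ∂(σ.withDensity fun s => ENNReal.ofReal (f s)) := by
  rw [integral_withDensity_real hf, integral_withDensity_real hf]
  have hfB : BM f := BM.of_bddNN hf
  have hM0 : ∀ x, 0 ≤ M x := fun x => (hm0 x).trans (hmM x)
  set Q : S → ℝ := fun x => (M x + ε) / (τ * (m x + ε)) with hQ
  have hQG : Measurable[G] Q :=
    (hMG.add measurable_const).div (measurable_const.mul (hmG.add measurable_const))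
  have hQ0 : ∀ x, 0 ≤ Q x := fun x => by
    have := hM0 x; have := hm0 x
    simp only [hQ]; positivity
  have hMb0 : ∀ x, 0 ≤ Mb := fun x => (hM0 x).trans (hMb x)
  have hQb : ∀ x, Q x ≤ (Mb + ε) / (τ * ε) := fun x => by
    have h1 := hMb x
    have h2 := hm0 x
    have h3 := hMb0 x
    simp only [hQ]
    refine div_le_div₀ (by positivity) (by linarith) (by positivity) ?_
    exact mul_le_mul_of_nonneg_left (by linarith) hτ.le
  have hg₀ : ∀ x, 0 ≤ g₁ := fun x => (hψ0 x).trans (hψ1 x)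
  have hψQG : Measurable[G] (fun x => ψ x * Q x) := hψ.mul hQG
  have hψQK : ∀ x, |ψ x * Q x| ≤ g₁ * ((Mb + ε) / (τ * ε)) := fun x => by
    rw [abs_of_nonneg (mul_nonneg (hψ0 x) (hQ0 x))]
    exact mul_le_mul (hψ1 x) (hQb x) (hQ0 x) (hg₀ x)
  have hψB : BM ψ := ⟨hψ.mono hG le_rfl, g₁, fun x => by
    rw [abs_of_nonneg (hψ0 x)]; exact hψ1 x⟩
  have hmB : BM m := ⟨hmG.mono hG le_rfl, Fb, fun x => by
    rw [abs_of_nonneg (hm0 x)]; exact hmb x⟩
  have hMB : BM M := ⟨hMG.mono hG le_rfl, Mb, fun x => by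
    rw [abs_of_nonneg (hM0 x)]; exact hMb x⟩
  have hQB : BM Q := ⟨hQG.mono hG le_rfl, (Mb + ε) / (τ * ε), fun x => by
    rw [abs_of_nonneg (hQ0 x)]; exact hQb x⟩
  have haB : BM a := ⟨ham, 1, fun x => by
    rw [abs_of_nonneg (hab x).1]; exact (hab x).2⟩
  have hUi : Integrable (fun x => f x * a x) σ := (hfB.mul haB).integrable σ
  have e1 : ∫ x, f x * (ψ x * (a x * Q x)) ∂σ = ∫ x, (f x * a x) * (ψ x * Q x) ∂σ := by
    refine integral_congr_ae (ae_of_all _ fun x => ?_)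
    show f x * (ψ x * (a x * Q x)) = (f x * a x) * (ψ x * Q x)
    ring
  have e2 := tower_version G hG hUi hm hψQG hψQK
  have h3 : ∫ x, m x * (ψ x * Q x) ∂σ ≤ ∫ x, τ⁻¹ * (M x * ψ x) ∂σ := by
    refine integral_mono ((hmB.mul (hψB.mul hQB)).integrable σ)
      ((((BM.const τ⁻¹).mul (hMB.mul hψB))).integrable σ) fun x => ?_
    show m x * (ψ x * Q x) ≤ τ⁻¹ * (M x * ψ x)
    have h4 : m x * Q x ≤ τ⁻¹ * M x := by
      simp only [hQ]
      have h5 : 0 < m x + ε := by linarith [hm0 x]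
      rw [mul_div_assoc', div_le_iff₀ (by positivity)]
      have h6 : τ⁻¹ * M x * (τ * (m x + ε)) = M x * (m x + ε) := by field_simp
      rw [h6]
      nlinarith [hmM x]
    have := mul_le_mul_of_nonneg_left h4 (hψ0 x)
    nlinarith
  have hMψK : ∀ x, |ψ x| ≤ g₁ := fun x => by
    rw [abs_of_nonneg (hψ0 x)]; exact hψ1 x
  have e3 := tower_version G hG (hUT.integrable σ) hM hψ hMψK
  have h7 : ∫ x, UT x * ψ x ∂σ ≤ ∫ x, f x * ψ x ∂σ :=
    integral_mono ((hUT.mul hψB).integrable σ) ((hfB.mul hψB).integrable σ) fun x =>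
      mul_le_mul_of_nonneg_right (hUTf x) (hψ0 x)
  calc ∫ x, f x * (ψ x * (a x * Q x)) ∂σ = ∫ x, m x * (ψ x * Q x) ∂σ := by rw [e1, e2]
    _ ≤ ∫ x, τ⁻¹ * (M x * ψ x) ∂σ := h3
    _ = τ⁻¹ * ∫ x, M x * ψ x ∂σ := integral_const_mul _ _
    _ = τ⁻¹ * ∫ x, UT x * ψ x ∂σ := by rw [e3]
    _ ≤ τ⁻¹ * ∫ x, f x * ψ x ∂σ := mul_le_mul_of_nonneg_left h7 (by positivity)

/-- Evaluation of the integral of `a log κ`. -/
lemma L_eval (hG : G ≤ mS) {f a m M : S → ℝ} (hf : BddNN f)
    (ham : Measurable a) (hab : ∀ x, 0 ≤ a x ∧ a x ≤ 1)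
    (hmG : Measurable[G] m) (hm0 : ∀ x, 0 ≤ m x) {Fb : ℝ} (hmb : ∀ x, m x ≤ Fb)
    (hm : m =ᵐ[σ] condExp G σ (fun x => f x * a x))
    (hMG : Measurable[G] M) (hM0 : ∀ x, 0 ≤ M x) {Mb : ℝ} (hMb : ∀ x, M x ≤ Mb)
    {ε τ : ℝ} (hε : 0 < ε) (hτ : 0 < τ) :
    ∫ x, a x * log (a x * ((M x + ε) / (τ * (m x + ε))))
        ∂(σ.withDensity fun s => ENNReal.ofReal (f s)) =
      ∫ x, f x * (a x * log (a x)) ∂σ + ∫ x, m x * log (M x + ε) ∂σ -
        (∫ x, f x * a x ∂σ) * log τ - ∫ x, m x * log (m x + ε) ∂σ := by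
  rw [integral_withDensity_real hf]
  have hfB : BM f := BM.of_bddNN hf
  have haB : BM a := ⟨ham, 1, fun x => by
    rw [abs_of_nonneg (hab x).1]; exact (hab x).2⟩
  have hUB : BM (fun x => f x * a x) := hfB.mul haB
  have hUi := hUB.integrable σ
  have hmB : BM m := ⟨hmG.mono hG le_rfl, Fb, fun x => by
    rw [abs_of_nonneg (hm0 x)]; exact hmb x⟩
  obtain ⟨h1m, K1, h1K⟩ := log_shift_bound G hMG hM0 hMb hε
  obtain ⟨h2m, K2, h2K⟩ := log_shift_bound G hmG hm0 hmb hε
  have hl1 : BM (fun x => log (M x + ε)) := ⟨h1m.mono hG le_rfl, K1, h1K⟩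
  have hl2 : BM (fun x => log (m x + ε)) := ⟨h2m.mono hG le_rfl, K2, h2K⟩
  have halog : BM (fun x => a x * log (a x)) := haB.mul_log fun x => (hab x).1
  have hpt : ∀ x, f x * (a x * log (a x * ((M x + ε) / (τ * (m x + ε))))) =
      f x * (a x * log (a x)) + (f x * a x) * log (M x + ε) -
        (f x * a x) * log τ - (f x * a x) * log (m x + ε) := by
    intro x
    rcases (hab x).1.eq_or_lt with h0 | h0
    · rw [← h0]; simp
    · have hm1 : 0 < m x + ε := by linarith [hm0 x]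
      have hM1 : 0 < M x + ε := by linarith [hM0 x]
      rw [log_mul h0.ne' (by positivity), log_div hM1.ne' (by positivity), log_mul hτ.ne' hm1.ne']
      ring
  simp_rw [hpt]
  have i1 : Integrable (fun x => f x * (a x * log (a x))) σ := (hfB.mul halog).integrable σ
  have i2 : Integrable (fun x => (f x * a x) * log (M x + ε)) σ := (hUB.mul hl1).integrable σ
  have i3 : Integrable (fun x => (f x * a x) * log τ) σ := hUi.mul_const _
  have i4 : Integrable (fun x => (f x * a x) * log (m x + ε)) σ := (hUB.mul hl2).integrable σ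
  have i12 : Integrable (fun x => f x * (a x * log (a x)) + (f x * a x) * log (M x + ε)) σ :=
    i1.add i2
  have i123 : Integrable (fun x => f x * (a x * log (a x)) + (f x * a x) * log (M x + ε) -
      (f x * a x) * log τ) σ := i12.sub i3
  rw [integral_sub i123 i4, integral_sub i12 i3, integral_add i1 i2, integral_mul_const,
    tower_version G hG hUi hm h1m h1K, tower_version G hG hUi hm h2m h2K]

/-- Entropy bound for the functional of the version. -/
lemma shift_bound_one {m ε : ℝ} (hm : 0 ≤ m) (hε : 0 < ε) :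
    m * log (m + ε) - ε ≤ m * log m := by
  rcases hm.eq_or_lt with h0 | h0
  · rw [← h0]; simp; linarith
  · have h1 : log ((m + ε) / m) ≤ (m + ε) / m - 1 := Real.log_le_sub_one_of_pos (by positivity)
    rw [log_div (by positivity) h0.ne'] at h1
    have h2 := mul_le_mul_of_nonneg_left h1 h0.le
    have h3 : m * ((m + ε) / m - 1) = ε := by field_simp; ring
    rw [h3] at h2
    linarith

lemma shift_bound_two {M ε : ℝ} (hM : 0 ≤ M) (hε : 0 < ε) :
    M * log M ≤ M * log (M + ε) := by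
  rcases hM.eq_or_lt with h0 | h0
  · rw [← h0]; simp
  · exact mul_le_mul_of_nonneg_left (log_le_log h0 (by linarith)) h0.le

lemma neg_mul_log_le {x : ℝ} (hx : 0 ≤ x) : - (x * log x) ≤ 1 - x := by
  rcases hx.eq_or_lt with h0 | h0
  · rw [← h0]; simp
  · have h1 : log x⁻¹ ≤ x⁻¹ - 1 := Real.log_le_sub_one_of_pos (by positivity)
    rw [log_inv] at h1
    have h2 := mul_le_mul_of_nonneg_left h1 h0.le
    have h3 : x * (x⁻¹ - 1) = 1 - x := by field_simp
    rw [h3] at h2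
    linarith


/-- Splitting the entropy of a product. -/
lemma ent_split {f a : S → ℝ} (hf : BddNN f) (ham : Measurable a)
    (hab : ∀ x, 0 ≤ a x ∧ a x ≤ 1) :
    ∫ x, (f x * a x) * log (f x * a x) ∂σ =
      ∫ x, f x * (a x * log (a x)) ∂σ + ∫ x, a x * (f x * log (f x)) ∂σ := by
  have hfB : BM f := BM.of_bddNN hf
  have haB : BM a := ⟨ham, 1, fun x => by
    rw [abs_of_nonneg (hab x).1]; exact (hab x).2⟩
  have halog : BM (fun x => a x * log (a x)) := haB.mul_log fun x => (hab x).1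
  have hflog : BM (fun x => f x * log (f x)) := hfB.mul_log hf.nonneg
  have i1 : Integrable (fun x => f x * (a x * log (a x))) σ := (hfB.mul halog).integrable σ
  have i2 : Integrable (fun x => a x * (f x * log (f x))) σ := (haB.mul hflog).integrable σ
  rw [← integral_add i1 i2]
  refine integral_congr_ae (ae_of_all _ fun x => ?_)
  rcases (hf.nonneg x).eq_or_lt with h0 | h0
  · simp [← h0]
  · rcases (hab x).1.eq_or_lt with h1 | h1
    · simp [← h1]
    · show (f x * a x) * log (f x * a x) = f x * (a x * log (a x)) + a x * (f x * log (f x))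
      rw [log_mul h0.ne' h1.ne']
      ring

end Assembly

/-- The Gibbs inequality for one rule, also when the rule has mass zero. -/
lemma per_rule' {mS : MeasurableSpace S} (γ : Measure Ω) [IsProbabilityMeasure γ]
    (pr : Measure S) [IsProbabilityMeasure pr] (c : Ω → S → ι)
    (hc : Measurable (Function.uncurry c))
    (ϑ : Ω → ι → ℝ) (hϑm : Measurable (Function.uncurry ϑ))
    (hϑ0 : ∀ A i, 0 ≤ ϑ A i) (hϑ1 : ∀ A i, ϑ A i ≤ 1) {τ₀ : ℝ} (hτ₀ : 0 < τ₀)
    (hϑτ : ∀ A i, 0 < ϑ A i → τ₀ ≤ pr.real (c A ⁻¹' {i})) {u : ℕ}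
    (Gt : (Fin (u + 1) → S) → ℝ) (hGm : Measurable Gt) {g₀ g₁ : ℝ} (hg₀ : 0 < g₀)
    (hGb : ∀ s, g₀ ≤ Gt s ∧ Gt s ≤ g₁)
    {R : S → ℝ} (hR : BM R) {r₀ : ℝ} (hr₀ : 0 < r₀) (hRlo : ∀ x, r₀ ≤ R x)
    {b : ℝ} (hb : 0 < b)
    (hκ : ∀ (j : Fin (u + 1)) (s : Fin (u + 1) → S),
      ∫⁻ x, ENNReal.ofReal (Gt (Function.update s j x)) *
          ENNReal.ofReal ((∫ A, ϑ A (c A x) ∂γ) * R x) ∂pr ≤
        ENNReal.ofReal b * ∫⁻ x, ENNReal.ofReal (Gt (Function.update s j x)) ∂pr) :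
    ((u : ℝ) + 1) * ∫ x, (∫ A, ϑ A (c A x) ∂γ) * log ((∫ A, ϑ A (c A x) ∂γ) * R x) ∂pr ≤
      ∫ s, Frep γ pr c ϑ s * log (Frep γ pr c ϑ s) ∂(Measure.pi fun _ : Fin (u + 1) => pr) -
      ∫ s, Frep γ pr c ϑ s * log (Gt s) ∂(Measure.pi fun _ : Fin (u + 1) => pr) +
      (∫ x, ∫ A, ϑ A (c A x) ∂γ ∂pr) *
        log (b ^ (u + 1) * ∫ s, Gt s ∂(Measure.pi fun _ : Fin (u + 1) => pr)) -
      (∫ x, ∫ A, ϑ A (c A x) ∂γ ∂pr) * log (∫ x, ∫ A, ϑ A (c A x) ∂γ ∂pr) := by
  have hab := aver_bounds γ pr c hc ϑ hϑm hϑ0 hϑ1 hτ₀ hϑτ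
  have ham := measurable_aver γ pr c hc ϑ hϑm hϑ0 hϑ1 hτ₀ hϑτ
  have ht0 : 0 ≤ ∫ x, ∫ A, ϑ A (c A x) ∂γ ∂pr := integral_nonneg fun x => (hab x).1
  rcases ht0.eq_or_lt with h0 | h0
  · -- a rule of mass zero
    have haB : BM fun x => ∫ A, ϑ A (c A x) ∂γ := ⟨ham, 1, fun x => by
      rw [abs_of_nonneg (hab x).1]; exact (hab x).2⟩
    have hFb := fun s : Fin (u + 1) → S => Frep_bounds γ pr c ϑ hc hϑm hϑ0 hϑ1 hτ₀ hϑτ s
    have hHB : BM (Frep (u := u) γ pr c ϑ) := ⟨measurable_Frep γ pr c hc ϑ hϑm u, (τ₀⁻¹) ^ u,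
      fun s => by rw [abs_of_nonneg (hFb s).1]; exact (hFb s).2⟩
    have : IsProbabilityMeasure (Measure.pi fun _ : Fin (u + 1) => pr) := inferInstance
    have hae1 : (fun x => ∫ A, ϑ A (c A x) ∂γ) =ᵐ[pr] 0 :=
      (integral_eq_zero_iff_of_nonneg (fun x => (hab x).1) (haB.integrable pr)).1 h0.symm
    have hae2 : Frep (u := u) γ pr c ϑ =ᵐ[Measure.pi fun _ : Fin (u + 1) => pr] 0 :=
      (integral_eq_zero_iff_of_nonneg (fun s => (hFb s).1) (hHB.integrable _)).1 (by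
        rw [integral_Frep γ pr c ϑ hc hϑm hϑ0 hϑ1 hτ₀ hϑτ]; exact h0.symm)
    have e1 : ∫ x, (∫ A, ϑ A (c A x) ∂γ) * log ((∫ A, ϑ A (c A x) ∂γ) * R x) ∂pr = 0 := by
      refine integral_eq_zero_of_ae ?_
      filter_upwards [hae1] with x hx
      have hx' : ∫ A, ϑ A (c A x) ∂γ = 0 := hx
      simp [hx']
    have e2 : ∫ s, Frep γ pr c ϑ s * log (Frep γ pr c ϑ s)
        ∂(Measure.pi fun _ : Fin (u + 1) => pr) = 0 := by
      refine integral_eq_zero_of_ae ?_
      filter_upwards [hae2] with s hs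
      have hs' : Frep γ pr c ϑ s = 0 := hs
      simp [hs']
    have e3 : ∫ s, Frep γ pr c ϑ s * log (Gt s)
        ∂(Measure.pi fun _ : Fin (u + 1) => pr) = 0 := by
      refine integral_eq_zero_of_ae ?_
      filter_upwards [hae2] with s hs
      have hs' : Frep γ pr c ϑ s = 0 := hs
      simp [hs']
    rw [e1, e2, e3, ← h0]
    simp
  · exact per_rule γ pr c hc ϑ hϑm hϑ0 hϑ1 hτ₀ hϑτ Gt hGm hg₀ hGb hR hr₀ hRlo hb hκ h0

/-- The replica density is additive in the rule. -/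
lemma Frep_sum {mS : MeasurableSpace S} (γ : Measure Ω) [IsProbabilityMeasure γ]
    (pr : Measure S) [IsFiniteMeasure pr] (c : Ω → S → ι) (hc : Measurable (Function.uncurry c))
    (θ : V → Ω → ι → ℝ) (hθm : ∀ v, Measurable (Function.uncurry (θ v)))
    (hθ0 : ∀ v A i, 0 ≤ θ v A i) (hθ1 : ∀ v A i, θ v A i ≤ 1) {τ₀ : ℝ} (hτ₀ : 0 < τ₀)
    (hθτ : ∀ v A i, 0 < θ v A i → τ₀ ≤ pr.real (c A ⁻¹' {i})) {u : ℕ} (s : Fin (u + 1) → S) :
    Frep γ pr c (fun A i => ∑ v, θ v A i) s = ∑ v, Frep γ pr c (θ v) s := by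
  classical
  simp_rw [Frep_eq]
  rw [← integral_finsetSum _ fun v _ => integrable_Wrep γ pr c hc (θ v) (hθm v) (hθ0 v) (hθ1 v)
    hτ₀ (hθτ v) s]
  refine integral_congr_ae (ae_of_all _ fun A => ?_)
  show Wrep pr c (fun A i => ∑ v, θ v A i) A s = ∑ v, Wrep pr c (θ v) A s
  unfold Wrep
  rw [Finset.sum_mul]

/-- From the real test inequality to the Lebesgue integrals. -/
lemma test_lintegral {mS : MeasurableSpace S} {pr : Measure S} [IsProbabilityMeasure pr]
    {ψ h : S → ℝ} (hψ : BM ψ) (hψ0 : ∀ x, 0 ≤ ψ x) (hh : BM h) (hh0 : ∀ x, 0 ≤ h x)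
    {b : ℝ} (hb : 0 < b) (hI : ∫ x, ψ x * h x ∂pr ≤ b * ∫ x, ψ x ∂pr) :
    ∫⁻ x, ENNReal.ofReal (ψ x) * ENNReal.ofReal (h x) ∂pr ≤
      ENNReal.ofReal b * ∫⁻ x, ENNReal.ofReal (ψ x) ∂pr := by
  have e1 : ∀ x, ENNReal.ofReal (ψ x) * ENNReal.ofReal (h x) = ENNReal.ofReal (ψ x * h x) :=
    fun x => (ENNReal.ofReal_mul (hψ0 x)).symm
  simp_rw [e1]
  rw [← ofReal_integral_eq_lintegral_ofReal ((hψ.mul hh).integrable pr)
      (ae_of_all _ fun x => mul_nonneg (hψ0 x) (hh0 x)),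
    ← ofReal_integral_eq_lintegral_ofReal (hψ.integrable pr) (ae_of_all _ hψ0),
    ← ENNReal.ofReal_mul hb.le]
  exact ENNReal.ofReal_le_ofReal hI

/-- The replica bound at a fixed shift `ε`. -/
lemma replica_key (G : MeasurableSpace S) {mS : MeasurableSpace S} (γ : Measure Ω)
    [IsProbabilityMeasure γ]
    (σ : Measure S) [IsProbabilityMeasure σ] (c : Ω → S → ι) (hc : Measurable (Function.uncurry c))
    (θ : V → Ω → ι → ℝ) (hθm : ∀ v, Measurable (Function.uncurry (θ v)))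
    (hθ0 : ∀ v A i, 0 ≤ θ v A i) (hθ1 : ∀ A i, ∑ v, θ v A i ≤ 1)
    (f : S → ℝ) (hf : BddNN f) (hf1 : ∫ s, f s ∂σ = 1)
    (pr : Measure S) (hpr : pr = σ.withDensity fun s => ENNReal.ofReal (f s))
    {τ₀ : ℝ} (hτ₀ : 0 < τ₀) (hθτ : ∀ v A i, 0 < θ v A i → τ₀ ≤ pr.real (c A ⁻¹' {i}))
    (hG : G ≤ mS) (u : ℕ)
    (Gt : (Fin (u + 1) → S) → ℝ) (hGm : Measurable Gt) {g₀ g₁ : ℝ} (hg₀ : 0 < g₀)
    (hGb : ∀ s, g₀ ≤ Gt s ∧ Gt s ≤ g₁)
    (hGfib : ∀ (j : Fin (u + 1)) (s : Fin (u + 1) → S),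
      Measurable[G] fun x => Gt (Function.update s j x))
    {τ : ℝ} (hτ : τ = ∫ s, f s * ∑ v, ∫ A, θ v A (c A s) ∂γ ∂σ) (hτ0 : 0 < τ)
    {ε : ℝ} (hε : 0 < ε) :
    ∑ v, Psi G σ (fun s => f s * ∫ A, θ v A (c A s) ∂γ) ≤
      Psi G σ (fun s => f s * ∑ v, ∫ A, θ v A (c A s) ∂γ) + 2 * (1 - τ) +
        (1 / ((u : ℝ) + 1)) * (τ * log (∫ s, Gt s ∂(Measure.pi fun _ : Fin (u + 1) => pr)) +
          τ * log (Fintype.card V) + (1 - τ) +
          ∫ s, Frep γ pr c (fun A i => ∑ v, θ v A i) s *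
            log (Frep γ pr c (fun A i => ∑ v, θ v A i) s / Gt s)
            ∂(Measure.pi fun _ : Fin (u + 1) => pr)) + (Fintype.card V : ℝ) * ε := by
  classical
  have hprob : IsProbabilityMeasure pr := by
    constructor
    rw [hpr, withDensity_apply _ MeasurableSet.univ, Measure.restrict_univ,
      ← ofReal_integral_eq_lintegral_ofReal hf.integrable (ae_of_all _ hf.nonneg), hf1]
    simp
  have hprI : ∀ g : S → ℝ, ∫ x, g x ∂pr = ∫ x, f x * g x ∂σ := fun g => by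
    rw [hpr]; exact integral_withDensity_real hf g
  have hθ1v : ∀ v A i, θ v A i ≤ 1 := fun v A i =>
    (Finset.single_le_sum (f := fun w => θ w A i) (fun w _ => hθ0 w A i)
      (Finset.mem_univ v)).trans (hθ1 A i)
  -- the total rule
  set ϑT : Ω → ι → ℝ := fun A i => ∑ v, θ v A i with hϑT
  have hϑTm : Measurable (Function.uncurry ϑT) :=
    Finset.measurable_fun_sum (s := Finset.univ) (f := fun v => Function.uncurry (θ v))
      fun v _ => hθm v
  have hϑT0 : ∀ A i, 0 ≤ ϑT A i := fun A i => Finset.sum_nonneg fun v _ => hθ0 v A i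
  have hϑTτ : ∀ A i, 0 < ϑT A i → τ₀ ≤ pr.real (c A ⁻¹' {i}) := by
    intro A i h
    by_contra hcon
    have h0 : ∀ v, θ v A i = 0 := fun v => by
      by_contra hne
      exact hcon (hθτ v A i (lt_of_le_of_ne (hθ0 v A i) (Ne.symm hne)))
    simp [ϑT, h0] at h
  -- the averages
  set a : V → S → ℝ := fun v s => ∫ A, θ v A (c A s) ∂γ with ha
  have ham : ∀ v, Measurable (a v) := fun v =>
    measurable_aver γ pr c hc (θ v) (hθm v) (hθ0 v) (hθ1v v) hτ₀ (hθτ v)
  have hab : ∀ v x, 0 ≤ a v x ∧ a v x ≤ 1 := fun v =>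
    aver_bounds γ pr c hc (θ v) (hθm v) (hθ0 v) (hθ1v v) hτ₀ (hθτ v)
  have haT : ∀ x, ∑ v, a v x = ∫ A, ϑT A (c A x) ∂γ := by
    intro x
    have hint : ∀ v, Integrable (fun A => θ v A (c A x)) γ := by
      intro v
      have hAm : Measurable fun A => θ v A (c A x) :=
        (hθm v).comp (measurable_id.prodMk (hc.comp (measurable_id.prodMk measurable_const)))
      refine Integrable.of_bound hAm.aestronglyMeasurable 1 (ae_of_all _ fun A => ?_)
      rw [Real.norm_eq_abs, abs_of_nonneg (hθ0 _ _ _)]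
      exact hθ1v _ _ _
    simp only [ha, hϑT]
    rw [integral_finsetSum _ fun v _ => hint v]
  set aT : S → ℝ := fun x => ∑ v, a v x with haTdef
  have haTm : Measurable aT := Finset.measurable_fun_sum _ fun v _ => ham v
  have haTb : ∀ x, 0 ≤ aT x ∧ aT x ≤ 1 := by
    intro x
    have := aver_bounds γ pr c hc ϑT hϑTm hϑT0 hθ1 hτ₀ hϑTτ x
    rw [← haT x] at this
    exact this
  -- the densities
  obtain ⟨F0, hF0⟩ := hf.bdd
  set Fb : ℝ := max F0 0 with hFbdef
  have hFb0 : 0 ≤ Fb := le_max_right _ _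
  have hfFb : ∀ s, f s ≤ Fb := fun s => (hF0 s).trans (le_max_left _ _)
  have hfB : BM f := BM.of_bddNN hf
  have hUle : ∀ v s, f s * a v s ≤ Fb := fun v s => by
    calc f s * a v s ≤ f s * 1 := mul_le_mul_of_nonneg_left (hab v s).2 (hf.nonneg s)
      _ ≤ Fb := by rw [mul_one]; exact hfFb s
  have hUB : ∀ v, BddNN (fun s => f s * a v s) := fun v =>
    ⟨hf.meas.mul (ham v), fun s => mul_nonneg (hf.nonneg s) (hab v s).1, Fb, hUle v⟩
  choose m hmG hm0 hmb hmae using fun v =>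
    exists_version (σ := σ) hG (hUB v) hFb0 (hUle v)
  set M : S → ℝ := fun s => ∑ v, m v s with hM
  have hMG : Measurable[G] M := Finset.measurable_fun_sum _ fun v _ => hmG v
  have hmM : ∀ v x, m v x ≤ M x := fun v x =>
    Finset.single_le_sum (f := fun w => m w x) (fun w _ => hm0 w x) (Finset.mem_univ v)
  have hM0 : ∀ x, 0 ≤ M x := fun x => Finset.sum_nonneg fun v _ => hm0 v x
  have hMb : ∀ x, M x ≤ (Fintype.card V : ℝ) * Fb := fun x => by
    calc M x ≤ ∑ _v : V, Fb := Finset.sum_le_sum fun v _ => hmb v x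
      _ = _ := by simp
  set UT : S → ℝ := fun s => f s * aT s with hUTdef
  have hUTsum : UT = ∑ v, fun s => f s * a v s := by
    funext s
    simp only [hUTdef, haTdef, Finset.sum_apply, Finset.mul_sum]
  have hMae : M =ᵐ[σ] condExp G σ UT := by
    have h1 := condExp_finsetSum (μ := σ) (s := Finset.univ)
      (f := fun v => fun s => f s * a v s) (fun v _ => (hUB v).integrable) G
    rw [← hUTsum] at h1
    filter_upwards [h1, ae_all_iff.2 hmae] with x hx1 hx2
    rw [hx1, Finset.sum_apply]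
    exact Finset.sum_congr rfl fun v _ => hx2 v
  have hUTB : BM UT := hfB.mul ⟨haTm, 1, fun x => by
    rw [abs_of_nonneg (haTb x).1]; exact (haTb x).2⟩
  have hUTdd : BddNN UT := ⟨hf.meas.mul haTm, fun s => mul_nonneg (hf.nonneg s) (haTb s).1,
    Fb, fun s => by
      calc f s * aT s ≤ f s * 1 := mul_le_mul_of_nonneg_left (haTb s).2 (hf.nonneg s)
        _ ≤ Fb := by rw [mul_one]; exact hfFb s⟩
  have hUTf : ∀ x, UT x ≤ f x := fun x => by
    calc f x * aT x ≤ f x * 1 := mul_le_mul_of_nonneg_left (haTb x).2 (hf.nonneg x)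
      _ = f x := mul_one _
  -- the masses
  set t : V → ℝ := fun v => ∫ x, a v x ∂pr with ht
  have ht' : ∀ v, t v = ∫ x, f x * a v x ∂σ := fun v => hprI (a v)
  have ht0 : ∀ v, 0 ≤ t v := fun v => integral_nonneg fun x => (hab v x).1
  have hτsum : τ = ∑ v, t v := by
    rw [hτ]
    simp_rw [ht']
    rw [← integral_finsetSum _ fun v _ => (hUB v).integrable]
    refine integral_congr_ae (ae_of_all _ fun x => ?_)
    show f x * aT x = ∑ v, f x * a v x
    simp only [haTdef, Finset.mul_sum]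
  have hτ1 : τ ≤ 1 := by
    rw [hτ, ← hf1]
    refine integral_mono hUTdd.integrable hf.integrable fun x => hUTf x
  -- the shifted quotient
  set R : V → S → ℝ := fun v x => (M x + ε) / (τ * (m v x + ε)) with hR
  have hRB : ∀ v, BM (R v) := fun v => by
    refine ⟨(((hMG.add measurable_const).div (measurable_const.mul
      ((hmG v).add measurable_const)))).mono hG le_rfl, ((Fintype.card V : ℝ) * Fb + ε) / (τ * ε),
      fun x => ?_⟩
    have h1 := hMb x
    have h2 := hm0 v x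
    have h3 := hM0 x
    simp only [hR]
    rw [abs_of_nonneg (by positivity)]
    refine div_le_div₀ (by linarith) (by linarith) (by positivity) ?_
    exact mul_le_mul_of_nonneg_left (by linarith) hτ0.le
  have hRlo : ∀ v x, τ⁻¹ ≤ R v x := fun v x => by
    have h2 := hm0 v x
    simp only [hR]
    rw [le_div_iff₀ (by positivity)]
    have h4 : τ⁻¹ * (τ * (m v x + ε)) = m v x + ε := by field_simp
    rw [h4]
    linarith [hmM v x]
  have hRp : ∀ v x, 0 ≤ R v x := fun v x =>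
    (inv_pos.2 hτ0).le.trans (hRlo v x)
  -- the test inequality
  have hκ : ∀ v (j : Fin (u + 1)) (s : Fin (u + 1) → S),
      ∫⁻ x, ENNReal.ofReal (Gt (Function.update s j x)) *
          ENNReal.ofReal ((∫ A, θ v A (c A x) ∂γ) * R v x) ∂pr ≤
        ENNReal.ofReal τ⁻¹ * ∫⁻ x, ENNReal.ofReal (Gt (Function.update s j x)) ∂pr := by
    intro v j s
    have hψG := hGfib j s
    have hψ0 : ∀ x, 0 ≤ Gt (Function.update s j x) := fun x =>
      hg₀.le.trans (hGb _).1
    have hψ1 : ∀ x, Gt (Function.update s j x) ≤ g₁ := fun x => (hGb _).2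
    have hψB : BM fun x => Gt (Function.update s j x) := ⟨hψG.mono hG le_rfl, g₁, fun x => by
      rw [abs_of_nonneg (hψ0 x)]; exact hψ1 x⟩
    have hI := test_bound G hG hf (ham v) (hab v) (hmG v) (hm0 v) (hmb v) (hmae v) hMG (hmM v) hMb
      hUTB hUTf hMae hε hτ0 hψG hψ0 hψ1
    rw [← hpr] at hI
    have haB : BM (a v) := ⟨ham v, 1, fun x => by
      rw [abs_of_nonneg (hab v x).1]; exact (hab v x).2⟩
    exact test_lintegral hψB hψ0 (haB.mul (hRB v))
      (fun x => mul_nonneg (hab v x).1 (hRp v x)) (inv_pos.2 hτ0) hI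
  -- the Gibbs inequality, rule by rule
  set Z₀ : ℝ := ∫ s, Gt s ∂(Measure.pi fun _ : Fin (u + 1) => pr) with hZ₀
  have hper := fun v => per_rule' γ pr c hc (θ v) (hθm v) (hθ0 v) (hθ1v v) hτ₀ (hθτ v) Gt hGm
    hg₀ hGb (hRB v) (inv_pos.2 hτ0) (hRlo v) (inv_pos.2 hτ0) (hκ v)
  -- the replica densities
  set PR : Measure (Fin (u + 1) → S) := Measure.pi fun _ : Fin (u + 1) => pr with hPR
  have hPRp : IsProbabilityMeasure PR := by rw [hPR]; infer_instance
  set H : V → (Fin (u + 1) → S) → ℝ := fun v => Frep γ pr c (θ v) with hH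
  set F : (Fin (u + 1) → S) → ℝ := Frep γ pr c ϑT with hF
  have hFsum : ∀ s, F s = ∑ v, H v s := fun s =>
    Frep_sum γ pr c hc θ hθm hθ0 hθ1v hτ₀ hθτ s
  have hHb := fun v s => Frep_bounds γ pr c (θ v) hc (hθm v) (hθ0 v) (hθ1v v) hτ₀ (hθτ v) (u := u) s
  have hFb := fun s => Frep_bounds γ pr c ϑT hc hϑTm hϑT0 hθ1 hτ₀ hϑTτ (u := u) s
  have hHB : ∀ v, BM (H v) := fun v => ⟨measurable_Frep γ pr c hc (θ v) (hθm v) u, (τ₀⁻¹) ^ u,
    fun s => by rw [abs_of_nonneg (hHb v s).1]; exact (hHb v s).2⟩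
  have hFB : BM F := ⟨measurable_Frep γ pr c hc ϑT hϑTm u, (τ₀⁻¹) ^ u,
    fun s => by rw [abs_of_nonneg (hFb s).1]; exact (hFb s).2⟩
  have hGB : BM Gt := ⟨hGm, g₁, fun s => by
    rw [abs_of_pos (lt_of_lt_of_le hg₀ (hGb s).1)]; exact (hGb s).2⟩
  have hGp : ∀ s, 0 < Gt s := fun s => lt_of_lt_of_le hg₀ (hGb s).1
  have hlogG : BM fun s => log (Gt s) := BM_log_of_pos hGB hg₀ fun s => (hGb s).1
  have hFlog : ∀ s, F s * log (F s / Gt s) = F s * log (F s) - F s * log (Gt s) := by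
    intro s
    rcases (hFb s).1.eq_or_lt with h0 | h0
    · have h0' : F s = 0 := h0.symm
      simp [h0']
    · rw [log_div h0.ne' (hGp s).ne']; ring
  have hFterm : ∑ v, (∫ s, H v s * log (H v s) ∂PR - ∫ s, H v s * log (Gt s) ∂PR) ≤
      ∫ s, F s * log (F s / Gt s) ∂PR := by
    have i1 : ∀ v, Integrable (fun s => H v s * log (H v s)) PR := fun v =>
      ((hHB v).mul_log fun s => (hHb v s).1).integrable PR
    have i2 : ∀ v, Integrable (fun s => H v s * log (Gt s)) PR := fun v =>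
      ((hHB v).mul hlogG).integrable PR
    have i3 : ∀ v, Integrable (fun s => H v s * log (H v s) - H v s * log (Gt s)) PR := fun v =>
      (i1 v).sub (i2 v)
    have i4 : Integrable (fun s => F s * log (F s / Gt s)) PR := by
      simp_rw [hFlog]
      exact ((hFB.mul_log fun s => (hFb s).1).sub (hFB.mul hlogG)).integrable PR
    simp_rw [← integral_sub (i1 _) (i2 _)]
    rw [← integral_finsetSum _ fun v _ => i3 v]
    refine integral_mono (integrable_finsetSum _ fun v _ => i3 v) i4 fun s => ?_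
    show ∑ v, (H v s * log (H v s) - H v s * log (Gt s)) ≤ F s * log (F s / Gt s)
    rw [hFsum s]
    exact pointwise_F (fun v => (hHb v s).1) (hGp s)
  have hZ₀p : 0 < Z₀ := by
    calc 0 < g₀ := hg₀
      _ = ∫ _, g₀ ∂PR := by simp
      _ ≤ Z₀ := integral_mono (integrable_const _) (hGB.integrable PR) fun s => (hGb s).1
  have hlogZ : log ((τ⁻¹) ^ (u + 1) * Z₀) = ((u : ℝ) + 1) * log τ⁻¹ + log Z₀ := by
    rw [log_mul (by positivity) hZ₀p.ne', log_pow]
    push_cast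
    ring
  -- the sum of the Gibbs inequalities
  set L : V → ℝ := fun v => ∫ x, a v x * log (a v x * R v x) ∂pr with hL
  have hper' : ∀ v, ((u : ℝ) + 1) * L v ≤
      (∫ s, H v s * log (H v s) ∂PR - ∫ s, H v s * log (Gt s) ∂PR) +
        t v * log ((τ⁻¹) ^ (u + 1) * Z₀) - t v * log (t v) := hper
  have hsum : ((u : ℝ) + 1) * ∑ v, L v ≤ ∫ s, F s * log (F s / Gt s) ∂PR +
      τ * log ((τ⁻¹) ^ (u + 1) * Z₀) - ∑ v, t v * log (t v) := by
    have h1 := Finset.sum_le_sum fun v (_ : v ∈ Finset.univ) => hper' v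
    rw [← Finset.mul_sum, Finset.sum_sub_distrib, Finset.sum_add_distrib, ← Finset.sum_mul,
      ← hτsum] at h1
    linarith
  have hent := entropy_sum ht0 hτsum hτ0
  have hτinv : τ * log τ⁻¹ ≤ 1 - τ := by
    have h1 : log τ⁻¹ ≤ τ⁻¹ - 1 := Real.log_le_sub_one_of_pos (by positivity)
    have h2 := mul_le_mul_of_nonneg_left h1 hτ0.le
    have h3 : τ * (τ⁻¹ - 1) = 1 - τ := by field_simp
    rw [h3] at h2
    exact h2
  have hlogτ : log τ⁻¹ = - log τ := log_inv τ
  have hu1 : (0 : ℝ) < (u : ℝ) + 1 := by positivity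
  set X : ℝ := τ * log Z₀ + τ * log (Fintype.card V) + (1 - τ) +
    ∫ s, F s * log (F s / Gt s) ∂PR with hX
  have hLsum : ∑ v, L v ≤ (1 - τ) + (1 / ((u : ℝ) + 1)) * X := by
    have h1 : ((u : ℝ) + 1) * ∑ v, L v ≤ ((u : ℝ) + 1) * (1 - τ) + X := by
      rw [hlogZ] at hsum
      have h2 : ((u : ℝ) + 1) * (τ * log τ⁻¹) ≤ ((u : ℝ) + 1) * (1 - τ) :=
        mul_le_mul_of_nonneg_left hτinv hu1.le
      have h3 : τ * (((u : ℝ) + 1) * log τ⁻¹ + log Z₀) =
          ((u : ℝ) + 1) * (τ * log τ⁻¹) + τ * log Z₀ := by ring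
      rw [h3] at hsum
      rw [hlogτ] at hτinv
      simp only [hX]
      have h4 : τ * - log τ ≤ 1 - τ := hτinv
      nlinarith
    have h5 : (1 / ((u : ℝ) + 1)) * (((u : ℝ) + 1) * ∑ v, L v) = ∑ v, L v := by
      field_simp
    have h6 : (1 / ((u : ℝ) + 1)) * (((u : ℝ) + 1) * (1 - τ) + X) =
        (1 - τ) + (1 / ((u : ℝ) + 1)) * X := by
      field_simp
    rw [← h5, ← h6]
    exact mul_le_mul_of_nonneg_left h1 (by positivity)
  -- evaluation of the terms
  have hLe : ∀ v, L v = ∫ x, f x * (a v x * log (a v x)) ∂σ + ∫ x, m v x * log (M x + ε) ∂σ -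
      t v * log τ - ∫ x, m v x * log (m v x + ε) ∂σ := by
    intro v
    have h1 := L_eval G hG hf (ham v) (hab v) (hmG v) (hm0 v) (hmb v) (hmae v) hMG hM0 hMb hε hτ0
    rw [← hpr, ← ht' v] at h1
    exact h1
  have hmB : ∀ v, BM (m v) := fun v => ⟨(hmG v).mono hG le_rfl, Fb, fun x => by
    rw [abs_of_nonneg (hm0 v x)]; exact hmb v x⟩
  have hMB : BM M := ⟨hMG.mono hG le_rfl, (Fintype.card V : ℝ) * Fb, fun x => by
    rw [abs_of_nonneg (hM0 x)]; exact hMb x⟩
  obtain ⟨hl1m, K1, hl1K⟩ := log_shift_bound G hMG hM0 hMb hε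
  have hl1 : BM (fun x => log (M x + ε)) := ⟨hl1m.mono hG le_rfl, K1, hl1K⟩
  have hl2 : ∀ v, BM (fun x => log (m v x + ε)) := fun v => by
    obtain ⟨hm', K2, hK2⟩ := log_shift_bound G (hmG v) (hm0 v) (hmb v) hε
    exact ⟨hm'.mono hG le_rfl, K2, hK2⟩
  have hBs : ∑ v, ∫ x, m v x * log (M x + ε) ∂σ = ∫ x, M x * log (M x + ε) ∂σ := by
    rw [← integral_finsetSum _ fun v _ => ((hmB v).mul hl1).integrable σ]
    refine integral_congr_ae (ae_of_all _ fun x => ?_)
    show ∑ v, m v x * log (M x + ε) = M x * log (M x + ε)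
    rw [← Finset.sum_mul]
  have hnle : ∀ v, ∫ x, m v x * log (m v x + ε) ∂σ - ε ≤ ∫ x, m v x * log (m v x) ∂σ := by
    intro v
    have i1 : Integrable (fun x => m v x * log (m v x + ε)) σ :=
      ((hmB v).mul (hl2 v)).integrable σ
    have h1 : ∫ x, m v x * log (m v x + ε) ∂σ - ε = ∫ x, (m v x * log (m v x + ε) - ε) ∂σ := by
      rw [integral_sub i1 (integrable_const _)]
      simp
    rw [h1]
    exact integral_mono (i1.sub (integrable_const _))
      (((hmB v).mul_log (hm0 v)).integrable σ) fun x => shift_bound_one (hm0 v x) hε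
  have hNle : ∫ x, M x * log (M x) ∂σ ≤ ∫ x, M x * log (M x + ε) ∂σ :=
    integral_mono ((hMB.mul_log hM0).integrable σ) ((hMB.mul hl1).integrable σ)
      fun x => shift_bound_two (hM0 x) hε
  have hCs : ∑ v, ∫ x, a v x * (f x * log (f x)) ∂σ = ∫ x, aT x * (f x * log (f x)) ∂σ := by
    have hflog : BM (fun x => f x * log (f x)) := hfB.mul_log hf.nonneg
    have haB : ∀ v, BM (a v) := fun v => ⟨ham v, 1, fun x => by
      rw [abs_of_nonneg (hab v x).1]; exact (hab v x).2⟩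
    rw [← integral_finsetSum _ fun v _ => ((haB v).mul hflog).integrable σ]
    refine integral_congr_ae (ae_of_all _ fun x => ?_)
    show ∑ v, a v x * (f x * log (f x)) = aT x * (f x * log (f x))
    rw [← Finset.sum_mul]
  have hCrep : - ∫ x, f x * (aT x * log (aT x)) ∂σ ≤ 1 - τ := by
    have haTB : BM aT := ⟨haTm, 1, fun x => by
      rw [abs_of_nonneg (haTb x).1]; exact (haTb x).2⟩
    have i1 : Integrable (fun x => f x * (aT x * log (aT x))) σ :=
      (hfB.mul (haTB.mul_log fun x => (haTb x).1)).integrable σ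
    have i2 : Integrable (fun x => f x - UT x) σ := hf.integrable.sub hUTdd.integrable
    have h1 : ∫ x, (f x - UT x) ∂σ = 1 - τ := by
      rw [integral_sub hf.integrable hUTdd.integrable, hf1, hτ]
    rw [← h1, ← integral_neg]
    refine integral_mono i1.neg i2 fun x => ?_
    show - (f x * (aT x * log (aT x))) ≤ f x - f x * aT x
    have h2 := mul_le_mul_of_nonneg_left (neg_mul_log_le (haTb x).1) (hf.nonneg x)
    nlinarith
  have hτlog : τ * log τ ≤ 0 := mul_nonpos_of_nonneg_of_nonpos hτ0.le (log_nonpos hτ0.le hτ1)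
  -- the functionals
  have hPsi : ∀ v, Psi G σ (fun s => f s * a v s) =
      ∫ x, f x * (a v x * log (a v x)) ∂σ + ∫ x, a v x * (f x * log (f x)) ∂σ -
        ∫ x, m v x * log (m v x) ∂σ := by
    intro v
    rw [psi_eval G hG (hUB v) (hmae v), ent_split hf (ham v) (hab v)]
  have hPsiT : Psi G σ UT = ∫ x, f x * (aT x * log (aT x)) ∂σ + ∫ x, aT x * (f x * log (f x)) ∂σ -
      ∫ x, M x * log (M x) ∂σ := by
    rw [psi_eval G hG hUTdd hMae, ent_split hf haTm haTb]
  -- conclusion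
  have hLs : ∑ v, L v = ∑ v, ∫ x, f x * (a v x * log (a v x)) ∂σ + ∫ x, M x * log (M x + ε) ∂σ -
      τ * log τ - ∑ v, ∫ x, m v x * log (m v x + ε) ∂σ := by
    simp_rw [hLe]
    rw [Finset.sum_sub_distrib, Finset.sum_sub_distrib, Finset.sum_add_distrib, hBs,
      ← Finset.sum_mul, ← hτsum]
  have hns : ∑ v, ∫ x, m v x * log (m v x + ε) ∂σ - (Fintype.card V : ℝ) * ε ≤
      ∑ v, ∫ x, m v x * log (m v x) ∂σ := by
    have h1 := Finset.sum_le_sum fun v (_ : v ∈ Finset.univ) => hnle v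
    rw [Finset.sum_sub_distrib] at h1
    simpa using h1
  have hPsiSum : ∑ v, Psi G σ (fun s => f s * a v s) =
      ∑ v, ∫ x, f x * (a v x * log (a v x)) ∂σ + ∫ x, aT x * (f x * log (f x)) ∂σ -
      ∑ v, ∫ x, m v x * log (m v x) ∂σ := by
    simp_rw [hPsi]
    rw [Finset.sum_sub_distrib, Finset.sum_add_distrib, hCs]
  show ∑ v, Psi G σ (fun s => f s * a v s) ≤ Psi G σ UT + 2 * (1 - τ) +
    (1 / ((u : ℝ) + 1)) * X + (Fintype.card V : ℝ) * ε
  rw [hPsiSum, hPsiT]
  linarith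

/-- MODULE GIBBS. Replica inequality with a test function `Gt` that depends on each replica only
through `G`. Write `a v s = ∫ θ v A (c A s) dγ`, `aT = ∑ a v`, `pr = f σ`, `u v = f * a v`, `τ v = ∫ u v`,
`τ = ∫ f aT`, `m v = σ[u v|G]`, `M = ∑ m v`, `κ v = a v * M / (τ * m v)`,
`F v s = (1/τ v) ∫ θ v A (c A (s 0)) 1(collide) mass^(-u) dγ`: a probability density for
`PR = pr^(u+1)` whose marginals are `(a v / τ v) pr` (integrate the other replicas: the cell masses
cancel). Tower in each coordinate with `hGfib`: `∫ Gt ∏ κ v (s j) dPR = ∫ Gt ∏ (aT (s j) / τ) dPR =: Z ≤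
τ^(-(u+1)) ∫ Gt dPR` (`hGfib`, `∫ ψ κ v dpr = ∫ ψ (aT/τ) dpr` for `G` measurable bounded `ψ`). Jensen:
`∫ F v log (∏ κ v (s j) * Gt / (Z * F v)) dPR ≤ 0`, so
`(u+1) ∫ u v log (κ v) dσ / τ v ≤ log Z + ∫ F v log (F v / Gt) dPR`. Multiply by `τ v`, sum, use
`τ v F v ≤ F := Frep (∑ θ)`, `∑ τ v log (1/τ v) ≤ τ log card V + τ log (1/τ)`, `x log (1/x) ≤ 1 - x`.
Left side: `∑ ∫ u v log (κ v) = ∑ Psi (u v) - Psi (f aT) - τ log τ - ∫ f (-aT log aT)`, `-x log x ≤ 1 - x`.
`F` is bounded since `θ > 0` forces mass `≥ τ₀`; `Gt` is bounded above and below. -/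
theorem replica_gibbs (G : MeasurableSpace S) {mS : MeasurableSpace S} (γ : Measure Ω) [IsProbabilityMeasure γ]
    (σ : Measure S) [IsProbabilityMeasure σ] (c : Ω → S → ι) (hc : Measurable (Function.uncurry c))
    (θ : V → Ω → ι → ℝ) (hθm : ∀ v, Measurable (Function.uncurry (θ v)))
    (hθ0 : ∀ v A i, 0 ≤ θ v A i) (hθ1 : ∀ A i, ∑ v, θ v A i ≤ 1)
    (f : S → ℝ) (hf : BddNN f) (hf1 : ∫ s, f s ∂σ = 1)
    (pr : Measure S) (hpr : pr = σ.withDensity fun s => ENNReal.ofReal (f s))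
    {τ₀ : ℝ} (hτ₀ : 0 < τ₀) (hθτ : ∀ v A i, 0 < θ v A i → τ₀ ≤ pr.real (c A ⁻¹' {i}))
    (hG : G ≤ mS) (u : ℕ)
    (Gt : (Fin (u + 1) → S) → ℝ) (hGm : Measurable Gt) {g₀ g₁ : ℝ} (hg₀ : 0 < g₀)
    (hGb : ∀ s, g₀ ≤ Gt s ∧ Gt s ≤ g₁)
    (hGfib : ∀ (j : Fin (u + 1)) (s : Fin (u + 1) → S),
      Measurable[G] fun x => Gt (Function.update s j x))
    {τ : ℝ} (hτ : τ = ∫ s, f s * ∑ v, ∫ A, θ v A (c A s) ∂γ ∂σ) (hτ0 : 0 < τ) :
    ∑ v, Psi G σ (fun s => f s * ∫ A, θ v A (c A s) ∂γ) ≤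
      Psi G σ (fun s => f s * ∑ v, ∫ A, θ v A (c A s) ∂γ) + 2 * (1 - τ) +
        (1 / ((u : ℝ) + 1)) * (τ * log (∫ s, Gt s ∂(Measure.pi fun _ : Fin (u + 1) => pr)) +
          τ * log (Fintype.card V) + (1 - τ) +
          ∫ s, Frep γ pr c (fun A i => ∑ v, θ v A i) s *
            log (Frep γ pr c (fun A i => ∑ v, θ v A i) s / Gt s)
            ∂(Measure.pi fun _ : Fin (u + 1) => pr)) := by
  refine le_of_forall_pos_le_add fun δ hδ => ?_
  have hn : (0 : ℝ) < (Fintype.card V : ℝ) + 1 := by positivity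
  have hε : 0 < δ / ((Fintype.card V : ℝ) + 1) := by positivity
  have hkey := replica_key G γ σ c hc θ hθm hθ0 hθ1 f hf hf1 pr hpr hτ₀ hθτ hG u Gt hGm hg₀ hGb
    hGfib hτ hτ0 hε
  have hle : (Fintype.card V : ℝ) * (δ / ((Fintype.card V : ℝ) + 1)) ≤ δ := by
    rw [mul_div_assoc', div_le_iff₀ hn]
    nlinarith
  linarith

end Vale.Agent.P309F
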