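import Vale.Agent.P309F.Window

open MeasureTheory ProbabilityTheory Real Set Filter Topology
open scoped RealInnerProductSpace ENNReal

namespace Vale.Agent.P309F
open Vale.Agent.P309

variable {d : ℕ} {V : Type} [Fintype V] [Nonempty V]

/-- The bound per window and per coordinate set. -/
noncomputable def Atot (V : Type) [Fintype V] (a : ℕ) : ℝ :=
  (2 / (2 * (a : ℝ) + 1)) * log (Fintype.card V) + 20 * a + 8 +
    3 * log (4 + log (Fintype.card V) / (4 * a))

/-! ### Auxiliary lemmas -/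

/-- `Psi` of an almost everywhere vanishing function is zero. -/
lemma Psi_eq_zero_of_ae {S : Type*} (G : MeasurableSpace S) {mS : MeasurableSpace S}
    {σ : Measure S} {u : S → ℝ} (h : u =ᵐ[σ] 0) : Psi G σ u = 0 := by
  unfold Psi
  rw [Hent_zero_of_ae h]
  have h1 : condExp G σ u =ᵐ[σ] 0 := by
    have h2 := condExp_congr_ae (m := G) h
    have h3 : condExp G σ (0 : S → ℝ) = 0 := condExp_zero
    rw [h3] at h2
    exact h2
  rw [Hent_zero_of_ae h1]
  simp

/-- The real number `log (1 / t) / (6 a log 2)`. -/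
noncomputable def xval (a : ℕ) (t : ℝ) : ℝ := log (1 / t) / (6 * a * log 2)

/-- The level assigned to a mass `t`. -/
noncomputable def Lval (a : ℕ) (t : ℝ) : ℕ := 1 + ⌈xval a t⌉₊

lemma xval_den_pos {a : ℕ} (ha : 1 ≤ a) : 0 < 6 * (a : ℝ) * log 2 := by
  have h1 : (1 : ℝ) ≤ a := by exact_mod_cast ha
  have h2 : 0 < log 2 := Real.log_pos (by norm_num)
  positivity

lemma xval_nonneg {a : ℕ} (ha : 1 ≤ a) {t : ℝ} (h0 : 0 ≤ t) (h1 : t ≤ 1) : 0 ≤ xval a t := by
  unfold xval
  refine div_nonneg ?_ (xval_den_pos ha).le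
  rcases h0.eq_or_lt with h | h
  · rw [← h]; simp
  · apply Real.log_nonneg
    rw [le_div_iff₀ h]
    linarith

lemma Lval_sub_one (a : ℕ) (t : ℝ) : Lval a t - 1 = ⌈xval a t⌉₊ := by
  unfold Lval
  omega

lemma one_le_Lval (a : ℕ) (t : ℝ) : 1 ≤ Lval a t := by
  unfold Lval
  omega

lemma Lval_add_two_le {a : ℕ} (ha : 1 ≤ a) {t : ℝ} (h0 : 0 ≤ t) (h1 : t ≤ 1) :
    (Lval a t : ℝ) + 2 ≤ 4 + xval a t := by
  have hx := xval_nonneg ha h0 h1
  have hc := Nat.ceil_lt_add_one hx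
  unfold Lval
  push_cast
  linarith

lemma inv_le_pow_Lval {a : ℕ} (ha : 1 ≤ a) {t : ℝ} (h0 : 0 < t) :
    t⁻¹ ≤ (2 : ℝ) ^ (3 * (2 * a) * (Lval a t - 1)) := by
  rw [Lval_sub_one]
  have hinv : 0 < t⁻¹ := inv_pos.2 h0
  have hpow : (0 : ℝ) < (2 : ℝ) ^ (3 * (2 * a) * ⌈xval a t⌉₊) := by positivity
  rw [← Real.log_le_log_iff hinv hpow, Real.log_pow]
  have hx := Nat.le_ceil (xval a t)
  have hden := xval_den_pos ha
  have hl2 : 0 < log 2 := Real.log_pos (by norm_num)
  have hxeq : log (t⁻¹) = xval a t * (6 * a * log 2) := by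
    unfold xval
    rw [one_div]
    field_simp
  rw [hxeq]
  push_cast
  calc xval a t * (6 * a * log 2) ≤ (⌈xval a t⌉₊ : ℝ) * (6 * a * log 2) :=
        mul_le_mul_of_nonneg_right hx hden.le
    _ = _ := by ring

lemma sum_bound {a : ℕ} (ha : 1 ≤ a) {τ : V → ℝ} (h0 : ∀ v, 0 ≤ τ v) (h1 : ∑ v, τ v = 1) :
    ∑ v, τ v * (20 * (a : ℝ) + 3 * log ((Lval a (τ v) : ℝ) + 2) + 8) ≤
      20 * a + 8 + 3 * log (4 + log (Fintype.card V) / (4 * a)) := by
  have hle : ∀ v, τ v ≤ 1 := fun v => by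
    rw [← h1]; exact Finset.single_le_sum (fun i _ => h0 i) (Finset.mem_univ v)
  have hapos : (0 : ℝ) < a := by exact_mod_cast ha
  have hlogc : 0 ≤ log (Fintype.card V) := Real.log_natCast_nonneg _
  -- Jensen
  have hJ : ∑ v, τ v • log ((Lval a (τ v) : ℝ) + 2) ≤
      log (∑ v, τ v • ((Lval a (τ v) : ℝ) + 2)) := by
    refine strictConcaveOn_log_Ioi.concaveOn.le_map_sum (fun v _ => h0 v) h1 fun v _ => ?_
    have : (0 : ℝ) ≤ Lval a (τ v) := Nat.cast_nonneg _
    simp only [Set.mem_Ioi]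
    linarith
  simp only [smul_eq_mul] at hJ
  -- the entropy bound
  have hent : ∑ v, τ v * log (1 / τ v) ≤ log (Fintype.card V) := by
    have := sum_mul_log_le (V := V) h0
    rw [h1, one_mul] at this
    exact this
  have hden := xval_den_pos ha
  have hsumx : ∑ v, τ v * xval a (τ v) ≤ log (Fintype.card V) / (6 * a * log 2) := by
    have : ∑ v, τ v * xval a (τ v) = (∑ v, τ v * log (1 / τ v)) / (6 * a * log 2) := by
      rw [Finset.sum_div]
      refine Finset.sum_congr rfl fun v _ => ?_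
      unfold xval
      ring
    rw [this]
    exact div_le_div_of_nonneg_right hent hden.le
  have hl2 : (0.6931471803 : ℝ) < log 2 := Real.log_two_gt_d9
  have hden2 : log (Fintype.card V) / (6 * a * log 2) ≤ log (Fintype.card V) / (4 * a) := by
    apply div_le_div_of_nonneg_left hlogc (by positivity)
    have : (4 : ℝ) ≤ 6 * log 2 := by linarith
    nlinarith
  have hsumL : ∑ v, τ v * ((Lval a (τ v) : ℝ) + 2) ≤ 4 + log (Fintype.card V) / (4 * a) := by
    calc ∑ v, τ v * ((Lval a (τ v) : ℝ) + 2) ≤ ∑ v, τ v * (4 + xval a (τ v)) :=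
          Finset.sum_le_sum fun v _ =>
            mul_le_mul_of_nonneg_left (Lval_add_two_le ha (h0 v) (hle v)) (h0 v)
      _ = 4 * ∑ v, τ v + ∑ v, τ v * xval a (τ v) := by
          rw [Finset.mul_sum, ← Finset.sum_add_distrib]
          exact Finset.sum_congr rfl fun v _ => by ring
      _ ≤ _ := by
          rw [h1]
          linarith
  have hsumpos : 0 < ∑ v, τ v * ((Lval a (τ v) : ℝ) + 2) := by
    have h2 : ∑ v, τ v * (1 : ℝ) ≤ ∑ v, τ v * ((Lval a (τ v) : ℝ) + 2) :=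
      Finset.sum_le_sum fun v _ => mul_le_mul_of_nonneg_left (by
        have : (0 : ℝ) ≤ Lval a (τ v) := Nat.cast_nonneg _
        linarith) (h0 v)
    simp only [mul_one, h1] at h2
    linarith
  have hlog : log (∑ v, τ v * ((Lval a (τ v) : ℝ) + 2)) ≤
      log (4 + log (Fintype.card V) / (4 * a)) := Real.log_le_log hsumpos hsumL
  have hexp : ∑ v, τ v * (20 * (a : ℝ) + 3 * log ((Lval a (τ v) : ℝ) + 2) + 8) =
      (20 * (a : ℝ) + 8) * ∑ v, τ v + 3 * ∑ v, τ v * log ((Lval a (τ v) : ℝ) + 2) := by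
    rw [Finset.mul_sum, Finset.mul_sum, ← Finset.sum_add_distrib]
    exact Finset.sum_congr rfl fun v _ => by ring
  rw [hexp, h1]
  linarith

lemma ofReal_sum_le' {ι : Type*} (t : Finset ι) (f : ι → ℝ) :
    ENNReal.ofReal (∑ i ∈ t, f i) ≤ ∑ i ∈ t, ENNReal.ofReal (f i) := by
  classical
  induction t using Finset.induction_on with
  | empty => simp
  | insert a t ha ih =>
    rw [Finset.sum_insert ha, Finset.sum_insert ha]
    exact ENNReal.ofReal_add_le.trans (add_le_add_right ih _)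

/-- The inequality for one starting state. -/
lemma one_state_pot (L : Learner d V) (𝓡 : RotModel d) {a : ℕ} (ha : 1 ≤ a) (had : 64 * a ≤ d)
    (hda : d ≤ 128 * a) (J : Finset (Fin d)) (hJ : d ≤ J.card + 2 * a + 2) (t0 : ℕ) (v : V)
    (τ : ℝ) (hτ : τ = ∫ s, L.law t0 s v ∂(sphereM d)) :
    ∃ I : 𝓡.Ω → ℝ≥0∞, Measurable I ∧
      ∫⁻ R, I R ∂𝓡.ϖ ≤ ENNReal.ofReal (20 * a + 3 * log ((Lval a τ : ℝ) + 2) + 8) ∧ ∀ R,
      ENNReal.ofReal (∑ v', Psi (fibO J (𝓡.act R)) (sphereM d)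
            (fun s => L.law t0 s v * L.gker t0 (2 * a) v v' s) -
          Psi (fibO J (𝓡.act R)) (sphereM d) (fun s => L.law t0 s v) -
          τ * ((2 / (2 * (a : ℝ) + 1)) * log (Fintype.card V))) ≤ ENNReal.ofReal τ * I R := by
  have hτ0 : 0 ≤ τ := by
    rw [hτ]; exact integral_nonneg fun s => L.law_nonneg t0 s v
  rcases hτ0.eq_or_lt with h0 | hpos
  · -- the state has no mass
    refine ⟨fun _ => 0, measurable_const, by simp, fun R => ?_⟩
    have hae : (fun s => L.law t0 s v) =ᵐ[sphereM d] 0 :=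
      (integral_eq_zero_iff_of_nonneg (fun s => L.law_nonneg t0 s v)
        (L.bddNN_law t0 v).integrable).1 (by rw [← hτ, ← h0])
    have h1 : Psi (fibO J (𝓡.act R)) (sphereM d) (fun s => L.law t0 s v) = 0 :=
      Psi_eq_zero_of_ae _ hae
    have h2 : ∀ v', Psi (fibO J (𝓡.act R)) (sphereM d)
        (fun s => L.law t0 s v * L.gker t0 (2 * a) v v' s) = 0 := fun v' => by
      refine Psi_eq_zero_of_ae _ ?_
      filter_upwards [hae] with s hs
      simp only [Pi.zero_apply] at hs ⊢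
      rw [hs, zero_mul]
    simp [h1, h2, ← h0]
  · set f : E d → ℝ := fun s => τ⁻¹ * L.law t0 s v with hf_def
    have hf : BddNN f :=
      ⟨(L.bddNN_law t0 v).meas.const_mul _,
        fun s => mul_nonneg (inv_nonneg.2 hpos.le) (L.law_nonneg t0 s v),
        τ⁻¹ * 1, fun s => mul_le_mul_of_nonneg_left (L.law_le_one t0 s v) (inv_nonneg.2 hpos.le)⟩
    have hf1 : ∫ s, f s ∂(sphereM d) = 1 := by
      rw [hf_def, integral_const_mul, ← hτ, inv_mul_cancel₀ hpos.ne']
    have hfle : ∀ s, f s ≤ (2 : ℝ) ^ (3 * (2 * a) * (Lval a τ - 1)) := fun s => by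
      calc f s ≤ τ⁻¹ * 1 :=
            mul_le_mul_of_nonneg_left (L.law_le_one t0 s v) (inv_nonneg.2 hpos.le)
        _ = τ⁻¹ := mul_one _
        _ ≤ _ := inv_le_pow_Lval ha hpos
    obtain ⟨I, hIm, hIint, hIb⟩ :=
      window_exact 𝓡 ha had hda J hJ (one_le_Lval a τ) f hf hf1 hfle (V := V)
    refine ⟨I, hIm, hIint, fun R => ?_⟩
    have hG : fibO J (𝓡.act R) ≤ (inferInstance : MeasurableSpace (E d)) := fibO_le _ _
    have hb := hIb (fun v' A y => L.win t0 (2 * a) A y v v')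
      (fun v' => L.measurable_win t0 (2 * a) v v')
      (fun v' A y => L.win_nonneg _ _ _ _ _ _) (fun A y => L.win_sum _ _ _ _ _) R
    have hlaw : (fun s => L.law t0 s v) = fun s => τ * f s := by
      funext s
      rw [hf_def]
      field_simp
    have hfg : ∀ v', BddNN fun s => f s * L.gker t0 (2 * a) v v' s := fun v' =>
      hf.mul_unit (L.measurable_gker _ _ _ _) (L.gker_nonneg _ _ _ _) (L.gker_le_one _ _ _ _)
    have hterm : ∀ v', Psi (fibO J (𝓡.act R)) (sphereM d)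
        (fun s => L.law t0 s v * L.gker t0 (2 * a) v v' s) =
        τ * Psi (fibO J (𝓡.act R)) (sphereM d)
          (fun s => f s * L.gker t0 (2 * a) v v' s) := fun v' => by
      rw [← Psi_const_mul _ hG (hfg v') hpos.le]
      congr 1
      funext s
      rw [hf_def]
      field_simp
    have hbase : Psi (fibO J (𝓡.act R)) (sphereM d) (fun s => L.law t0 s v) =
        τ * Psi (fibO J (𝓡.act R)) (sphereM d) f := by
      rw [hlaw, Psi_const_mul _ hG hf hpos.le]
    have hgk : ∀ v' s, L.gker t0 (2 * a) v v' s =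
        ∫ A, L.win t0 (2 * a) A (obs A s) v v' ∂(rowsM d (2 * a)) := fun _ _ => rfl
    rw [hbase]
    simp_rw [hterm]
    rw [← Finset.mul_sum, ← mul_sub, ← mul_sub, ENNReal.ofReal_mul hpos.le]
    exact mul_le_mul_right hb _

/-- MODULE POTSTEP. `law_add`, `Psi_sum_le`; for `τ v = ∫ law t0 s v > 0`: `f v = law / τ v`, bounded by `1/τ v ≤ 2^(6a (L v - 1))`,
`L v = 1 + ⌈log₂ (1/τ v) / (6a)⌉`, `window_exact` with `Φ v' A y = L.win t0 (2a) A y v v'`, `Psi_const_mul`. `τ v = 0`: all vanish a.e.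
`I = ∑ v, ofReal (τ v) * (I v + ...)`; `∑ τ v log (L v + 2) ≤ log (∑ τ v (L v + 2)) ≤ log (4 + log card / (4a))`. -/
theorem pot_step (L : Learner d V) (𝓡 : RotModel d) {a : ℕ} (ha : 1 ≤ a) (had : 64 * a ≤ d)
    (hda : d ≤ 128 * a) (J : Finset (Fin d)) (hJ : d ≤ J.card + 2 * a + 2) (t0 : ℕ) :
    ∃ I : 𝓡.Ω → ℝ≥0∞, Measurable I ∧ ∫⁻ R, I R ∂𝓡.ϖ ≤ ENNReal.ofReal (Atot V a) ∧ ∀ R,
      ENNReal.ofReal (∑ v', Psi (fibO J (𝓡.act R)) (sphereM d) (fun s => L.law (t0 + 2 * a) s v') -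
        ∑ v, Psi (fibO J (𝓡.act R)) (sphereM d) (fun s => L.law t0 s v)) ≤ I R := by
  classical
  set τ : V → ℝ := fun v => ∫ s, L.law t0 s v ∂(sphereM d) with hτ
  have hτ0 : ∀ v, 0 ≤ τ v := fun v => integral_nonneg fun s => L.law_nonneg t0 s v
  have hτ1 : ∑ v, τ v = 1 := by
    simp only [hτ]
    rw [← integral_finsetSum _ (fun v _ => (L.bddNN_law t0 v).integrable)]
    simp [L.law_sum]
  have hτle : ∀ v, τ v ≤ 1 := fun v => by
    rw [← hτ1]; exact Finset.single_le_sum (fun i _ => hτ0 i) (Finset.mem_univ v)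
  set C : ℝ := (2 / (2 * (a : ℝ) + 1)) * log (Fintype.card V) with hC
  have hapos : (0 : ℝ) < a := by exact_mod_cast ha
  have hlogc : 0 ≤ log (Fintype.card V) := Real.log_natCast_nonneg _
  have hC0 : 0 ≤ C := by positivity
  choose I hIm hIint hIb using fun v =>
    one_state_pot L 𝓡 ha had hda J hJ t0 v (τ v) rfl
  have hBnn : ∀ v, 0 ≤ 20 * (a : ℝ) + 3 * log ((Lval a (τ v) : ℝ) + 2) + 8 := fun v => by
    have h1 : (1 : ℝ) ≤ (Lval a (τ v) : ℝ) + 2 := by
      have : (0 : ℝ) ≤ Lval a (τ v) := Nat.cast_nonneg _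
      linarith
    have h2 := Real.log_nonneg h1
    positivity
  refine ⟨fun R => ∑ v, ENNReal.ofReal (τ v) * I v R + ENNReal.ofReal C,
    (Finset.measurable_sum _ fun v _ => (hIm v).const_mul _).add measurable_const, ?_, fun R => ?_⟩
  · -- the integral
    have hmeas : ∀ v ∈ (Finset.univ : Finset V), Measurable fun R => ENNReal.ofReal (τ v) * I v R :=
      fun v _ => (hIm v).const_mul _
    rw [lintegral_add_right _ measurable_const, lintegral_finsetSum _ hmeas, lintegral_const]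
    simp only [measure_univ, mul_one]
    calc ∑ v, ∫⁻ R, ENNReal.ofReal (τ v) * I v R ∂𝓡.ϖ + ENNReal.ofReal C
        ≤ ∑ v, ENNReal.ofReal (τ v * (20 * (a : ℝ) + 3 * log ((Lval a (τ v) : ℝ) + 2) + 8)) +
            ENNReal.ofReal C := by
          gcongr with v _
          rw [lintegral_const_mul _ (hIm v), ENNReal.ofReal_mul (hτ0 v)]
          gcongr
          exact hIint v
      _ = ENNReal.ofReal (∑ v, τ v * (20 * (a : ℝ) + 3 * log ((Lval a (τ v) : ℝ) + 2) + 8) + C) := by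
          rw [ENNReal.ofReal_add (Finset.sum_nonneg fun v _ => mul_nonneg (hτ0 v) (hBnn v)) hC0,
            ENNReal.ofReal_sum_of_nonneg fun v _ => mul_nonneg (hτ0 v) (hBnn v)]
      _ ≤ _ := by
          apply ENNReal.ofReal_le_ofReal
          have := sum_bound (V := V) ha hτ0 hτ1
          unfold Atot
          linarith
  · -- the pointwise bound
    have hG : fibO J (𝓡.act R) ≤ (inferInstance : MeasurableSpace (E d)) := fibO_le _ _
    have h1 : ∀ v', Psi (fibO J (𝓡.act R)) (sphereM d) (fun s => L.law (t0 + 2 * a) s v') ≤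
        ∑ v, Psi (fibO J (𝓡.act R)) (sphereM d) (fun s => L.law t0 s v * L.gker t0 (2 * a) v v' s) := by
      intro v'
      have : (fun s => L.law (t0 + 2 * a) s v') =
          fun s => ∑ v ∈ Finset.univ, L.law t0 s v * L.gker t0 (2 * a) v v' s := by
        funext s
        exact L.law_add t0 (2 * a) s v'
      rw [this]
      exact Psi_sum_le _ hG Finset.univ fun v =>
        (L.bddNN_law t0 v).mul_unit (L.measurable_gker _ _ _ _)
          (L.gker_nonneg _ _ _ _) (L.gker_le_one _ _ _ _)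
    set Z : V → ℝ := fun v => ∑ v', Psi (fibO J (𝓡.act R)) (sphereM d)
        (fun s => L.law t0 s v * L.gker t0 (2 * a) v v' s) -
      Psi (fibO J (𝓡.act R)) (sphereM d) (fun s => L.law t0 s v) - τ v * C with hZ
    have h2 : ∑ v', Psi (fibO J (𝓡.act R)) (sphereM d) (fun s => L.law (t0 + 2 * a) s v') -
        ∑ v, Psi (fibO J (𝓡.act R)) (sphereM d) (fun s => L.law t0 s v) ≤ ∑ v, Z v + C := by
      have hsumZ : ∑ v, Z v = ∑ v, ∑ v', Psi (fibO J (𝓡.act R)) (sphereM d)
          (fun s => L.law t0 s v * L.gker t0 (2 * a) v v' s) -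
          ∑ v, Psi (fibO J (𝓡.act R)) (sphereM d) (fun s => L.law t0 s v) - C := by
        simp only [hZ]
        rw [Finset.sum_sub_distrib, Finset.sum_sub_distrib, ← Finset.sum_mul, hτ1, one_mul]
      have hsw : ∑ v', ∑ v, Psi (fibO J (𝓡.act R)) (sphereM d)
          (fun s => L.law t0 s v * L.gker t0 (2 * a) v v' s) =
          ∑ v, ∑ v', Psi (fibO J (𝓡.act R)) (sphereM d)
          (fun s => L.law t0 s v * L.gker t0 (2 * a) v v' s) := Finset.sum_comm
      have h3 := Finset.sum_le_sum fun v' (_ : v' ∈ (Finset.univ : Finset V)) => h1 v'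
      rw [hsw] at h3
      rw [hsumZ]
      linarith
    calc ENNReal.ofReal (∑ v', Psi (fibO J (𝓡.act R)) (sphereM d) (fun s => L.law (t0 + 2 * a) s v') -
          ∑ v, Psi (fibO J (𝓡.act R)) (sphereM d) (fun s => L.law t0 s v))
        ≤ ENNReal.ofReal (∑ v, Z v + C) := ENNReal.ofReal_le_ofReal h2
      _ ≤ ENNReal.ofReal (∑ v, Z v) + ENNReal.ofReal C := ENNReal.ofReal_add_le
      _ ≤ ∑ v, ENNReal.ofReal (Z v) + ENNReal.ofReal C := by
          gcongr
          exact ofReal_sum_le' _ _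
      _ ≤ ∑ v, ENNReal.ofReal (τ v) * I v R + ENNReal.ofReal C := by
          gcongr with v _
          exact hIb v R

end Vale.Agent.P309F
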