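import Vale.Agent.P309F.Defs

open MeasureTheory ProbabilityTheory Real Set Filter Topology
open scoped RealInnerProductSpace ENNReal

namespace Vale.Agent.P309F
open Vale.Agent.P309

variable {d : ℕ}

lemma pm_hdist_le_of_mem (W : Submodule ℝ (E d)) (y : E d) {w : E d} (hw : w ∈ W) :
    hdist W y ≤ ‖y - w‖ := by
  unfold hdist
  rw [Submodule.starProjection_minimal]
  have hbdd : BddBelow (Set.range fun z : W => ‖y - (z : E d)‖) :=
    ⟨0, by rintro _ ⟨z, rfl⟩; exact norm_nonneg _⟩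
  exact ciInf_le hbdd (⟨w, hw⟩ : W)

/-- The distance to the span of a finite subfamily, as a countable infimum. -/
lemma hdist_span_eq_iInf {k : ℕ} (f : Fin k → E d) (I : Finset (Fin k)) (y : E d) :
    hdist (Submodule.span ℝ (f '' (I : Set (Fin k)))) y =
      ⨅ c : Fin k → ℚ, ‖y - ∑ i ∈ I, ((c i : ℚ) : ℝ) • f i‖ := by
  set W := Submodule.span ℝ (f '' (I : Set (Fin k))) with hW
  have hmem : ∀ c : Fin k → ℝ, ∑ i ∈ I, c i • f i ∈ W := fun c =>
    Submodule.sum_mem _ fun i hi => Submodule.smul_mem _ _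
      (Submodule.subset_span ⟨i, hi, rfl⟩)
  have hbdd : BddBelow (Set.range fun c : Fin k → ℚ => ‖y - ∑ i ∈ I, ((c i : ℚ) : ℝ) • f i‖) :=
    ⟨0, by rintro _ ⟨z, rfl⟩; exact norm_nonneg _⟩
  apply le_antisymm
  · exact le_ciInf fun c => pm_hdist_le_of_mem W y (hmem _)
  · -- approximate the projection by rational combinations
    have hp : W.starProjection y ∈ W := Submodule.starProjection_apply_mem W y
    obtain ⟨a, ha⟩ := (Submodule.mem_span_image_finset_iff_exists_fun' (R := ℝ)).1 hp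
    apply le_of_forall_pos_le_add
    intro ε hε
    let Φ : (Fin k → ℝ) → ℝ := fun c => ‖y - ∑ i ∈ I, c i • f i‖
    have hΦ : Continuous Φ := by
      unfold Φ
      fun_prop
    have hopen : IsOpen {c | Φ c < Φ a + ε} := isOpen_lt hΦ continuous_const
    have hane : (a : Fin k → ℝ) ∈ {c | Φ c < Φ a + ε} := by
      simp only [Set.mem_ofPred_eq]
      linarith
    have hdense : DenseRange (Pi.map fun _ : Fin k => ((↑) : ℚ → ℝ)) :=
      DenseRange.piMap fun _ => Rat.denseRange_cast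
    obtain ⟨c, hc⟩ := hdense.exists_mem_open hopen ⟨a, hane⟩
    have h1 : (⨅ c : Fin k → ℚ, ‖y - ∑ i ∈ I, ((c i : ℚ) : ℝ) • f i‖) ≤
        ‖y - ∑ i ∈ I, ((c i : ℚ) : ℝ) • f i‖ := ciInf_le hbdd c
    have h2 : Φ (Pi.map (fun _ : Fin k => ((↑) : ℚ → ℝ)) c) < Φ a + ε := hc
    have h3 : Φ a = hdist W y := by
      unfold Φ hdist
      rw [ha]
    have h4 : Φ (Pi.map (fun _ : Fin k => ((↑) : ℚ → ℝ)) c) =
        ‖y - ∑ i ∈ I, ((c i : ℚ) : ℝ) • f i‖ := rfl
    linarith

lemma measurable_hdist_span {X : Type*} [MeasurableSpace X] {k : ℕ} (I : Finset (Fin k))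
    {f : X → Fin k → E d} {y : X → E d} (hf : Measurable f) (hy : Measurable y) :
    Measurable fun x => hdist (Submodule.span ℝ (f x '' (I : Set (Fin k)))) (y x) := by
  simp_rw [hdist_span_eq_iInf]
  apply Measurable.iInf
  intro c
  have h1 : ∀ i, Measurable fun x => f x i := fun i => (measurable_pi_apply i).comp hf
  have h2 : Measurable fun x => ∑ i ∈ I, ((c i : ℚ) : ℝ) • f x i :=
    Finset.measurable_sum _ fun i _ => (measurable_const (a := ((c i : ℚ) : ℝ))).smul (h1 i)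
  exact (hy.sub h2).norm

lemma measurable_hdist_range {X : Type*} [MeasurableSpace X] {k : ℕ}
    {f : X → Fin k → E d} {y : X → E d} (hf : Measurable f) (hy : Measurable y) :
    Measurable fun x => hdist (Submodule.span ℝ (Set.range (f x))) (y x) := by
  have h := measurable_hdist_span (Finset.univ : Finset (Fin k)) hf hy
  simpa [Set.image_univ] using h

/-- The distance to a span of a finite family is jointly measurable (rational coefficients). -/
theorem measurable_dAff {u : ℕ} :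
    Measurable fun p : (Fin (u + 1) → E d) × E d => dAff p.1 p.2 := by
  unfold dAff
  apply measurable_hdist_range (f := fun p : (Fin (u + 1) → E d) × E d => hseq p.1)
  · unfold hseq
    apply measurable_pi_lambda
    intro i
    exact ((measurable_pi_apply i).comp measurable_fst).sub
      ((measurable_pi_apply 0).comp measurable_fst)
  · exact measurable_snd.sub ((measurable_pi_apply 0).comp measurable_fst)

theorem measurable_dSeq {u : ℕ} (j : Fin u) :
    Measurable fun q : Fin (u + 1) → E d => dSeq q j := by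
  classical
  let I : Finset (Fin (u + 1)) := Finset.univ.filter fun i : Fin (u + 1) => (i : ℕ) < (j : ℕ) + 1
  have hI : {i : Fin (u + 1) | (i : ℕ) < (j : ℕ) + 1} = (I : Set (Fin (u + 1))) := by
    ext i
    simp [I]
  have hf : Measurable fun q : Fin (u + 1) → E d => hseq q := by
    apply measurable_pi_lambda
    intro i
    exact (measurable_pi_apply i).sub (measurable_pi_apply 0)
  have hy : Measurable fun q : Fin (u + 1) → E d => hseq q j.succ :=
    (measurable_pi_apply _).sub (measurable_pi_apply 0)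
  have h := measurable_hdist_span I hf hy
  have e : (fun q : Fin (u + 1) → E d => dSeq q j) =
      fun q => hdist (Submodule.span ℝ (hseq q '' (I : Set (Fin (u + 1))))) (hseq q j.succ) := by
    funext q
    unfold dSeq spanBelow
    rw [hI]
  rw [e]
  exact h

/-! ### Coordinate projections -/

lemma coordP_symm (J : Finset (Fin d)) (x y : E d) : ⟪coordP J x, y⟫ = ⟪x, coordP J y⟫ := by
  simp only [PiLp.inner_apply, coordP_apply]
  apply Finset.sum_congr rfl
  intro i _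
  by_cases h : i ∈ J <;> simp [h]

lemma coordP_idem (J : Finset (Fin d)) (x : E d) : coordP J (coordP J x) = coordP J x := by
  ext i
  simp only [coordP_apply]
  by_cases h : i ∈ J <;> simp [h]

/-- The coordinate subspace. -/
noncomputable def coordZ (J : Finset (Fin d)) : Submodule ℝ (E d) := LinearMap.range (coordL J)

lemma coordP_mem (J : Finset (Fin d)) (x : E d) : coordP J x ∈ coordZ J := ⟨x, rfl⟩

lemma coordP_fix {J : Finset (Fin d)} {t : E d} (ht : t ∈ coordZ J) : coordP J t = t := by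
  obtain ⟨x, rfl⟩ := ht
  exact coordP_idem J x

lemma finrank_coordZ_ge (J : Finset (Fin d)) : J.card ≤ Module.finrank ℝ (coordZ J) := by
  classical
  let b : J → coordZ J := fun j => ⟨EuclideanSpace.single (j : Fin d) (1 : ℝ), ⟨EuclideanSpace.single (j : Fin d) (1 : ℝ), by
    ext i
    show (coordP J (EuclideanSpace.single (j : Fin d) (1 : ℝ))) i = _
    rw [coordP_apply]
    by_cases h : i ∈ J
    · simp [h]
    · have hne : i ≠ (j : Fin d) := fun e => h (e ▸ j.2)
      simp [h, hne]⟩⟩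
  have hli : LinearIndependent ℝ b := by
    apply LinearIndependent.of_comp (coordZ J).subtype
    have h1 := (EuclideanSpace.basisFun (Fin d) ℝ).orthonormal.linearIndependent
    have h2 := h1.comp (fun j : J => (j : Fin d)) Subtype.val_injective
    have h3 : ((coordZ J).subtype : _ →ₗ[ℝ] E d) ∘ b =
        (⇑(EuclideanSpace.basisFun (Fin d) ℝ)) ∘ (fun j : J => (j : Fin d)) := by
      funext j
      simp [b]
    rw [h3]
    exact h2
  have := hli.fintype_card_le_finrank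
  simpa using this

/-- For a fixed rotation the projected distance is the norm of the orthogonal projection on a large
subspace of `Hᗮ`. -/
lemma exists_T (J : Finset (Fin d)) (O : E d ≃ₗᵢ[ℝ] E d) (H : Submodule ℝ (E d)) :
    ∃ T : Submodule ℝ (E d), T ≤ Hᗮ ∧ J.card ≤ Module.finrank ℝ T + Module.finrank ℝ H ∧
      ∀ v : E d, hdist (H.map (PO J O : E d →ₗ[ℝ] E d)) (PO J O v) = ‖T.starProjection v‖ := by
  set Q : E d →ₗ[ℝ] E d := (PO J O : E d →ₗ[ℝ] E d) with hQ
  have hQa : ∀ y, Q y = coordP J (O.symm y) := fun y => rfl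
  set Y := H.map Q with hY
  have hYZ : Y ≤ coordZ J := by
    rintro _ ⟨h, _, rfl⟩
    rw [hQa]
    exact coordP_mem J _
  set T₀ : Submodule ℝ (E d) := Yᗮ ⊓ coordZ J with hT₀
  set T : Submodule ℝ (E d) := T₀.map (O.toLinearEquiv : E d →ₗ[ℝ] E d) with hT
  have hinner : ∀ (y t₀ : E d), t₀ ∈ coordZ J → ⟪O.symm y, t₀⟫ = ⟪Q y, t₀⟫ := by
    intro y t₀ ht₀
    rw [hQa, coordP_symm, coordP_fix ht₀]
  refine ⟨T, ?_, ?_, ?_⟩
  · rintro _ ⟨t₀, ht₀, rfl⟩
    rw [Submodule.mem_orthogonal]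
    intro h hh
    have h1 : ⟪h, O t₀⟫ = ⟪O.symm h, t₀⟫ := by
      rw [← O.inner_map_map (O.symm h) t₀, O.apply_symm_apply]
    have h2 : Q h ∈ Y := ⟨h, hh, rfl⟩
    show ⟪h, O t₀⟫ = 0
    rw [h1, hinner h t₀ ht₀.2]
    exact Submodule.inner_right_of_mem_orthogonal h2 ht₀.1
  · have h1 : Module.finrank ℝ Y + Module.finrank ℝ T₀ = Module.finrank ℝ (coordZ J) :=
      Submodule.finrank_add_inf_finrank_orthogonal hYZ
    have h2 : Module.finrank ℝ Y ≤ Module.finrank ℝ H := Submodule.finrank_map_le _ _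
    have h3 : Module.finrank ℝ T = Module.finrank ℝ T₀ := LinearEquiv.finrank_map_eq _ _
    have h4 := finrank_coordZ_ge J
    omega
  · intro v
    set e' := Q v - Y.starProjection (Q v) with he'
    have he'Y : e' ∈ Yᗮ := Submodule.sub_starProjection_mem_orthogonal _
    have he'Z : e' ∈ coordZ J :=
      Submodule.sub_mem _ (by rw [hQa]; exact coordP_mem J _)
        (hYZ (Submodule.starProjection_apply_mem Y _))
    have hproj : T.starProjection v = O e' := by
      apply Submodule.eq_starProjection_of_mem_of_inner_eq_zero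
      · exact ⟨e', ⟨he'Y, he'Z⟩, rfl⟩
      · rintro _ ⟨t₀, ht₀, rfl⟩
        have h0 : ⟪v, O t₀⟫ = ⟪O.symm v, t₀⟫ := by
          rw [← O.inner_map_map (O.symm v) t₀, O.apply_symm_apply]
        have h1 : ⟪O e', O t₀⟫ = ⟪e', t₀⟫ := O.inner_map_map _ _
        show ⟪v - O e', O t₀⟫ = 0
        rw [inner_sub_left, h0, h1, hinner v t₀ ht₀.2, he', inner_sub_left]
        have h2 : ⟪Y.starProjection (Q v), t₀⟫ = 0 :=
          Submodule.inner_right_of_mem_orthogonal (Submodule.starProjection_apply_mem Y _) ht₀.1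
        rw [h2]
        ring
    rw [hproj, O.norm_map]
    rfl

/-- The moment bound inside `Hᗮ`. -/
lemma moment_in_orth {D : ℕ} (H T : Submodule ℝ (E d)) (hT : T ≤ Hᗮ) (ι : E D →ₗᵢ[ℝ] E d)
    (hι : ∀ t ∈ Hᗮ, ∃ y, ι y = t) {a : ℕ} (h1 : 2 * a < Module.finrank ℝ T)
    (h2 : D + 2 * a ≤ 2 * Module.finrank ℝ T) :
    ∫⁻ v', (ENNReal.ofReal ‖T.starProjection (ι v')‖)⁻¹ ^ (2 * a) ∂(sphereM D) ≤ 2 ^ a := by
  set T' : Submodule ℝ (E D) := T.comap (ι.toLinearMap) with hT'
  have hmap : T'.map (ι.toLinearMap) = T := by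
    apply le_antisymm
    · exact Submodule.map_comap_le _ _
    · intro t ht
      obtain ⟨y, rfl⟩ := hι t (hT ht)
      exact ⟨y, ht, rfl⟩
  have hft : Module.finrank ℝ T' = Module.finrank ℝ T := by
    rw [← hmap]
    exact (LinearEquiv.finrank_eq (Submodule.equivMapOfInjective (ι.toLinearMap) ι.injective T'))
  have hsum := Submodule.finrank_add_finrank_orthogonal T'
  have hfr : Module.finrank ℝ (E D) = D := by simp
  rw [hfr] at hsum
  have hdist_eq : ∀ y : E D, hdist T'ᗮ y = ‖T.starProjection (ι y)‖ := by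
    intro y
    have h3 : T.starProjection (ι y) = ι (T'.starProjection y) := by
      apply Submodule.eq_starProjection_of_mem_of_inner_eq_zero
      · exact Submodule.starProjection_apply_mem T' y
      · intro w hw
        obtain ⟨w', rfl⟩ := hι w (hT hw)
        have hw' : w' ∈ T' := hw
        rw [← map_sub, ι.inner_map_map]
        exact Submodule.starProjection_inner_eq_zero y w' hw'
    unfold hdist
    rw [Submodule.starProjection_orthogonal_val, h3, ι.norm_map]
    congr 1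
    abel
  simp_rw [← hdist_eq]
  have hle : 2 * a + Module.finrank ℝ ↥T'ᗮ < D := by omega
  refine (moment_hdist T'ᗮ hle).trans ?_
  have hrw : ((D : ℝ) - (Module.finrank ℝ ↥T'ᗮ : ℝ) - 2 * a) = (Module.finrank ℝ T : ℝ) - 2 * a := by
    have : (D : ℝ) = (Module.finrank ℝ T' : ℝ) + (Module.finrank ℝ ↥T'ᗮ : ℝ) := by
      exact_mod_cast hsum.symm
    rw [this, hft]
    ring
  rw [hrw]
  have hpos : (0 : ℝ) < (Module.finrank ℝ T : ℝ) - 2 * a := by
    have : ((2 * a : ℕ) : ℝ) < (Module.finrank ℝ T : ℝ) := by exact_mod_cast h1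
    push_cast at this
    linarith
  have hD0 : (2 * (a : ℝ)) ≤ (D : ℝ) := by
    have : 2 * a ≤ D := by omega
    exact_mod_cast this
  have hle2 : ((D : ℝ) - 2 * a) / ((Module.finrank ℝ T : ℝ) - 2 * a) ≤ 2 := by
    rw [div_le_iff₀ hpos]
    have : ((D + 2 * a : ℕ) : ℝ) ≤ ((2 * Module.finrank ℝ T : ℕ) : ℝ) := by exact_mod_cast h2
    push_cast at this
    linarith
  have hnn : 0 ≤ ((D : ℝ) - 2 * a) / ((Module.finrank ℝ T : ℝ) - 2 * a) :=
    div_nonneg (by linarith) hpos.le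
  calc ENNReal.ofReal ((((D : ℝ) - 2 * a) / ((Module.finrank ℝ T : ℝ) - 2 * a)) ^ a)
      ≤ ENNReal.ofReal ((2 : ℝ) ^ a) := ENNReal.ofReal_le_ofReal (pow_le_pow_left₀ hnn hle2 a)
    _ = 2 ^ a := by
      rw [ENNReal.ofReal_pow (by norm_num)]
      simp

lemma finrank_span_hseq_le {u : ℕ} (s : Fin (u + 1) → E d) :
    Module.finrank ℝ (Submodule.span ℝ (Set.range (hseq s))) ≤ u := by
  have h : Submodule.span ℝ (Set.range (hseq s)) =
      Submodule.span ℝ (Set.range fun j : Fin u => hseq s j.succ) := by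
    apply le_antisymm
    · rw [Submodule.span_le]
      rintro _ ⟨i, rfl⟩
      refine Fin.cases ?_ (fun j => ?_) i
      · have : hseq s 0 = 0 := by simp [hseq]
        rw [this]
        exact Submodule.zero_mem _
      · exact Submodule.subset_span ⟨j, rfl⟩
    · apply Submodule.span_mono
      rintro _ ⟨j, rfl⟩
      exact ⟨j.succ, rfl⟩
  rw [h]
  have := finrank_range_le_card (R := ℝ) (fun j : Fin u => hseq s j.succ)
  simpa [Set.finrank] using this

lemma hdist_add_mem (W : Submodule ℝ (E d)) (a : E d) {w : E d} (hw : w ∈ W) :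
    hdist W (a + w) = hdist W a := by
  unfold hdist
  rw [map_add, Submodule.starProjection_eq_self_iff.2 hw]
  congr 1
  abel


lemma PO_apply (J : Finset (Fin d)) (O : E d ≃ₗᵢ[ℝ] E d) (y : E d) :
    PO J O y = coordP J (O.symm y) := rfl

lemma measurable_PO (𝓡 : RotModel d) (J : Finset (Fin d)) :
    Measurable fun p : 𝓡.Ω × E d => PO J (𝓡.act p.1) p.2 := by
  simp only [PO_apply]
  exact (coordP J).continuous.measurable.comp 𝓡.meas_symm

lemma measurable_PO_comp {X : Type*} [MeasurableSpace X] (𝓡 : RotModel d) (J : Finset (Fin d))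
    {r : X → 𝓡.Ω} {y : X → E d} (hr : Measurable r) (hy : Measurable y) :
    Measurable fun t => PO J (𝓡.act (r t)) (y t) := by
  simp only [PO_apply]
  have h1 : Measurable fun t => (r t, y t) := hr.prodMk hy
  exact (coordP J).continuous.measurable.comp (𝓡.meas_symm.comp h1)

lemma measurable_PO_left (𝓡 : RotModel d) (J : Finset (Fin d)) (y : E d) :
    Measurable fun R : 𝓡.Ω => PO J (𝓡.act R) y :=
  measurable_PO_comp 𝓡 J measurable_id measurable_const


lemma measurable_F (𝓡 : RotModel d) (J : Finset (Fin d)) (a : ℕ) {u : ℕ}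
    (s : Fin (u + 1) → E d) (x : E d) : Measurable fun R =>
      (ENNReal.ofReal (dAff (fun j => PO J (𝓡.act R) (s j)) (PO J (𝓡.act R) x)))⁻¹ ^ (2 * a) := by
  have hg : Measurable fun R => ((fun j => PO J (𝓡.act R) (s j) : Fin (u + 1) → E d),
      PO J (𝓡.act R) x) :=
    (measurable_pi_lambda _ fun j => measurable_PO_left 𝓡 J (s j)).prodMk
        (measurable_PO_left 𝓡 J x)
  have h1 := (measurable_dAff (u := u) (d := d)).comp hg
  exact (h1.ennreal_ofReal.inv).pow_const _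

/-- The reflection step of `proj_moment`. -/
lemma refl_step (𝓡 : RotModel d) (J : Finset (Fin d)) (a : ℕ) {u : ℕ}
    (s : Fin (u + 1) → E d) (x : E d) (H : Submodule ℝ (E d))
    (hH : H = Submodule.span ℝ (Set.range (hseq s))) {e y : E d} (hyH : y ∈ H) (heH : e ∈ Hᗮ)
    (he0 : e ≠ 0) (hdec : x - s 0 = e + y) {v : E d} (hvH : v ∈ Hᗮ) (hv1 : ‖v‖ = 1) :
    ∫⁻ R, (ENNReal.ofReal (dAff (fun j => PO J (𝓡.act R) (s j)) (PO J (𝓡.act R) x)))⁻¹ ^ (2 * a)
        ∂𝓡.ϖ =
      (ENNReal.ofReal ‖e‖)⁻¹ ^ (2 * a) * ∫⁻ R, (ENNReal.ofReal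
        (hdist (Submodule.span ℝ (Set.range fun i => PO J (𝓡.act R) (hseq s i)))
          (PO J (𝓡.act R) v)))⁻¹ ^ (2 * a) ∂𝓡.ϖ := by
  have hepos : 0 < ‖e‖ := norm_pos_iff.2 he0
  have hctop : (ENNReal.ofReal ‖e‖)⁻¹ ^ (2 * a) ≠ ⊤ := by
    apply ENNReal.pow_ne_top
    simpa using hepos
  have hFm := measurable_F 𝓡 J a s x
  have hê1 : ‖(‖e‖⁻¹ • e : E d)‖ = 1 := by
    rw [norm_smul, norm_inv, norm_norm, inv_mul_cancel₀ hepos.ne']
  have hêH : (‖e‖⁻¹ • e : E d) ∈ Hᗮ := Submodule.smul_mem _ _ heH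
  obtain ⟨O, hOê, hOH⟩ : ∃ O : E d ≃ₗᵢ[ℝ] E d, O (‖e‖⁻¹ • e) = v ∧ ∀ h ∈ H, O h = h := by
    refine ⟨(ℝ ∙ ((‖e‖⁻¹ • e : E d) - v))ᗮ.reflection,
      Submodule.reflection_sub (hê1.trans hv1.symm), ?_⟩
    intro h hh
    apply Submodule.reflection_mem_subspace_eq_self
    rw [Submodule.mem_orthogonal_singleton_iff_inner_right, inner_sub_left,
      Submodule.inner_left_of_mem_orthogonal hh hêH,
      Submodule.inner_left_of_mem_orthogonal hh hvH, sub_zero]
  obtain ⟨τ, hτ, hact⟩ := 𝓡.inv O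
  have hP : ∀ R z, PO J (𝓡.act (τ R)) z = PO J (𝓡.act R) (O z) := by
    intro R z
    show coordP J ((𝓡.act (τ R)).symm z) = coordP J ((𝓡.act R).symm (O z))
    rw [hact]
  rw [← hτ.lintegral_comp hFm, ← lintegral_const_mul' _ _ hctop]
  apply lintegral_congr
  intro R
  have hOe : O e = ‖e‖ • v := by
    have h0 : e = ‖e‖ • (‖e‖⁻¹ • e : E d) := by
      rw [smul_smul, mul_inv_cancel₀ hepos.ne', one_smul]
    conv_lhs => rw [h0]
    rw [map_smul, hOê]
  have h1 : hseq (fun j => PO J (𝓡.act (τ R)) (s j)) = fun i => PO J (𝓡.act R) (hseq s i) := by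
    funext i
    have h2 : O (hseq s i) = hseq s i := hOH _ (by rw [hH]; exact Submodule.subset_span ⟨i, rfl⟩)
    show PO J (𝓡.act (τ R)) (s i) - PO J (𝓡.act (τ R)) (s 0) = PO J (𝓡.act R) (hseq s i)
    rw [hP, hP, ← map_sub, ← map_sub]
    show PO J (𝓡.act R) (O (hseq s i)) = _
    rw [h2]
  have h2 : PO J (𝓡.act (τ R)) x - PO J (𝓡.act (τ R)) (s 0) =
      ‖e‖ • PO J (𝓡.act R) v + PO J (𝓡.act R) y := by
    rw [hP, hP, ← map_sub, ← map_sub, hdec, map_add, hOe, hOH y hyH, map_add, map_smul]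
  have hmap : Submodule.span ℝ (Set.range fun i => PO J (𝓡.act R) (hseq s i)) =
      H.map (PO J (𝓡.act R) : E d →ₗ[ℝ] E d) := by
    rw [hH, Submodule.map_span, ← Set.range_comp]
    rfl
  have hmem : PO J (𝓡.act R) y ∈ Submodule.span ℝ (Set.range fun i => PO J (𝓡.act R) (hseq s i)) := by
    rw [hmap]
    exact ⟨y, hyH, rfl⟩
  have h5 : dAff (fun j => PO J (𝓡.act (τ R)) (s j)) (PO J (𝓡.act (τ R)) x) =
      ‖e‖ * hdist (Submodule.span ℝ (Set.range fun i => PO J (𝓡.act R) (hseq s i)))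
        (PO J (𝓡.act R) v) := by
    show hdist (Submodule.span ℝ (Set.range (hseq fun j => PO J (𝓡.act (τ R)) (s j))))
      (PO J (𝓡.act (τ R)) x - PO J (𝓡.act (τ R)) (s 0)) = _
    rw [h1, h2, hdist_add_mem _ _ hmem, hdist_smul, abs_of_pos hepos]
  rw [h5, ENNReal.ofReal_mul hepos.le, ENNReal.mul_inv (Or.inr ENNReal.ofReal_ne_top)
    (Or.inl ENNReal.ofReal_ne_top), mul_pow]

/-- The average over the sphere of `Hᗮ`. -/
lemma avg_step (𝓡 : RotModel d) (J : Finset (Fin d)) {a u : ℕ}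
    (hdim : d + 2 * u + 2 * a ≤ 2 * J.card) (hd : 2 * a + u < J.card)
    (s : Fin (u + 1) → E d) (H : Submodule ℝ (E d))
    (hH : H = Submodule.span ℝ (Set.range (hseq s))) (I : ℝ≥0∞) (c : ℝ≥0∞) (hctop : c ≠ ⊤)
    (hstep : ∀ v : E d, v ∈ Hᗮ → ‖v‖ = 1 → I = c * ∫⁻ R, (ENNReal.ofReal
        (hdist (Submodule.span ℝ (Set.range fun i => PO J (𝓡.act R) (hseq s i)))
          (PO J (𝓡.act R) v)))⁻¹ ^ (2 * a) ∂𝓡.ϖ) :
    I ≤ c * 2 ^ a := by
  have hfH : Module.finrank ℝ H ≤ u := by rw [hH]; exact finrank_span_hseq_le s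
  have hsum := Submodule.finrank_add_finrank_orthogonal H
  have hfr : Module.finrank ℝ (E d) = d := by simp
  rw [hfr] at hsum
  have hJ : J.card ≤ d := by
    have := Finset.card_le_univ J
    simpa using this
  obtain ⟨D, hDdef⟩ : ∃ D, D = Module.finrank ℝ ↥Hᗮ := ⟨_, rfl⟩
  have hDpos : 0 < D := by omega
  have hDle : D ≤ d := by omega
  obtain ⟨ι, hιmem, hιsurj⟩ : ∃ ι : E D →ₗᵢ[ℝ] E d, (∀ y, ι y ∈ Hᗮ) ∧ ∀ t ∈ Hᗮ, ∃ y, ι y = t := by
    subst hDdef
    let φ := (stdOrthonormalBasis ℝ ↥Hᗮ).repr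
    refine ⟨Hᗮ.subtypeₗᵢ.comp φ.symm.toLinearIsometry, fun y => (φ.symm y).2, ?_⟩
    intro t ht
    refine ⟨φ ⟨t, ht⟩, ?_⟩
    show ((φ.symm (φ ⟨t, ht⟩) : ↥Hᗮ) : E d) = t
    rw [φ.symm_apply_apply]
  have hae : ∀ᵐ v' ∂(sphereM D), I = c * ∫⁻ R, (ENNReal.ofReal
        (hdist (Submodule.span ℝ (Set.range fun i => PO J (𝓡.act R) (hseq s i)))
          (PO J (𝓡.act R) (ι v'))))⁻¹ ^ (2 * a) ∂𝓡.ϖ := by
    filter_upwards [sphereM_ae_unit hDpos] with v' hv'
    exact hstep _ (hιmem v') (by rw [ι.norm_map, hv'])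
  have hjoint : Measurable fun p : 𝓡.Ω × E D => (ENNReal.ofReal
        (hdist (Submodule.span ℝ (Set.range fun i => PO J (𝓡.act p.1) (hseq s i)))
          (PO J (𝓡.act p.1) (ι p.2))))⁻¹ ^ (2 * a) := by
    have h1 : Measurable fun p : 𝓡.Ω × E D =>
        hdist (Submodule.span ℝ (Set.range fun i => PO J (𝓡.act p.1) (hseq s i)))
          (PO J (𝓡.act p.1) (ι p.2)) := by
      apply measurable_hdist_range
        (f := fun (p : 𝓡.Ω × E D) (i : Fin (u + 1)) => PO J (𝓡.act p.1) (hseq s i))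
      · exact measurable_pi_lambda _ fun i => measurable_PO_comp 𝓡 J measurable_fst measurable_const
      · exact measurable_PO_comp 𝓡 J measurable_fst (ι.continuous.measurable.comp measurable_snd)
    exact (h1.ennreal_ofReal.inv).pow_const _
  have hfixed : ∀ R, ∫⁻ v', (ENNReal.ofReal
        (hdist (Submodule.span ℝ (Set.range fun i => PO J (𝓡.act R) (hseq s i)))
          (PO J (𝓡.act R) (ι v'))))⁻¹ ^ (2 * a) ∂(sphereM D) ≤ 2 ^ a := by
    intro R
    obtain ⟨T, hTH, hTdim, hTeq⟩ := exists_T J (𝓡.act R) H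
    have hmap : Submodule.span ℝ (Set.range fun i => PO J (𝓡.act R) (hseq s i)) =
        H.map (PO J (𝓡.act R) : E d →ₗ[ℝ] E d) := by
      rw [hH, Submodule.map_span, ← Set.range_comp]
      rfl
    rw [hmap]
    simp_rw [hTeq]
    apply moment_in_orth H T hTH ι hιsurj
    · omega
    · omega
  calc I = ∫⁻ _v' : E D, I ∂(sphereM D) := by
        rw [lintegral_const, measure_univ, mul_one]
    _ = ∫⁻ v', c * ∫⁻ R, (ENNReal.ofReal
        (hdist (Submodule.span ℝ (Set.range fun i => PO J (𝓡.act R) (hseq s i)))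
          (PO J (𝓡.act R) (ι v'))))⁻¹ ^ (2 * a) ∂𝓡.ϖ ∂(sphereM D) := lintegral_congr_ae hae
    _ = c * ∫⁻ v', ∫⁻ R, (ENNReal.ofReal
        (hdist (Submodule.span ℝ (Set.range fun i => PO J (𝓡.act R) (hseq s i)))
          (PO J (𝓡.act R) (ι v'))))⁻¹ ^ (2 * a) ∂𝓡.ϖ ∂(sphereM D) := lintegral_const_mul' _ _ hctop
    _ = c * ∫⁻ R, ∫⁻ v', (ENNReal.ofReal
        (hdist (Submodule.span ℝ (Set.range fun i => PO J (𝓡.act R) (hseq s i)))
          (PO J (𝓡.act R) (ι v'))))⁻¹ ^ (2 * a) ∂(sphereM D) ∂𝓡.ϖ := by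
        rw [lintegral_lintegral_swap]
        exact (hjoint.comp measurable_swap).aemeasurable
    _ ≤ c * ∫⁻ _R, 2 ^ a ∂𝓡.ϖ := by
        gcongr with R
        exact hfixed R
    _ = c * 2 ^ a := by
        rw [lintegral_const, measure_univ, mul_one]

/-- MODULE PROJ. Negative moment of the projected distance. Proof: write `x - s 0 = e + y`, `y` in
`H = span (hseq s)`, `e ⟂ H`, `‖e‖ = dAff s x`. For a unit `v ⟂ H` let `O` be the reflection with
`O (e/‖e‖) = v`, `O = id` on `H`. By `𝓡.inv` the integral is unchanged by `P_R ↦ P_R ∘ O`, hence equals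
`∫ (‖e‖ * hdist Y_R (P_R v))⁻¹^(2a)`, `Y_R = P_R H`, for each `v`. Average over `v = ι v'` with
`v' ∼ sphereM D`, `ι : E D → E d` an isometry onto `Hᗮ`, `D = d - dim H`, and swap. For fixed `R`:
`hdist Y_R (P_R v) = ‖proj_T v‖`, `T = (act R) (coordinate subspace J ∩ Y_Rᗮ) ⊂ Hᗮ`, `dim T ≥ J.card - u`,
so `moment_hdist` in `E D` for `W = (ι⁻¹ T)ᗮ`, with `h = a`, gives the factor
`((D - 2a)/(dim T - 2a))^a ≤ 2^a` by `hdim`. If `e = 0` the right side is infinite (`a ≥ 1`). -/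
theorem proj_moment (𝓡 : RotModel d) (J : Finset (Fin d)) {a u : ℕ} (ha : 1 ≤ a)
    (hdim : d + 2 * u + 2 * a ≤ 2 * J.card) (hd : 2 * a + u < J.card)
    (s : Fin (u + 1) → E d) (x : E d) :
    ∫⁻ R, (ENNReal.ofReal (dAff (fun j => PO J (𝓡.act R) (s j)) (PO J (𝓡.act R) x)))⁻¹ ^ (2 * a)
        ∂𝓡.ϖ ≤ 2 ^ a * (ENNReal.ofReal (dAff s x))⁻¹ ^ (2 * a) := by
  obtain ⟨H, hH⟩ : ∃ H, H = Submodule.span ℝ (Set.range (hseq s)) := ⟨_, rfl⟩
  obtain ⟨y, hy⟩ : ∃ y, y = H.starProjection (x - s 0) := ⟨_, rfl⟩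
  obtain ⟨e, he⟩ : ∃ e, e = (x - s 0) - y := ⟨_, rfl⟩
  have hdA : dAff s x = ‖e‖ := by
    rw [he, hy, hH]
    rfl
  rw [hdA]
  by_cases he0 : e = 0
  · rw [he0, norm_zero, ENNReal.ofReal_zero, ENNReal.inv_zero, ENNReal.top_pow (by omega),
      ENNReal.mul_top (by positivity)]
    exact le_top
  have hepos : 0 < ‖e‖ := norm_pos_iff.2 he0
  have hctop : (ENNReal.ofReal ‖e‖)⁻¹ ^ (2 * a) ≠ ⊤ := by
    apply ENNReal.pow_ne_top
    simpa using hepos
  have heH : e ∈ Hᗮ := by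
    rw [he, hy]
    exact Submodule.sub_starProjection_mem_orthogonal _
  have hyH : y ∈ H := by
    rw [hy]
    exact Submodule.starProjection_apply_mem H _
  have hdec : x - s 0 = e + y := by
    rw [he]
    abel
  rw [mul_comm ((2 : ℝ≥0∞) ^ a)]
  exact avg_step 𝓡 J hdim hd s H hH _ _ hctop fun v hvH hv1 =>
    refl_step 𝓡 J a s x H hH hyH heH he0 hdec hvH hv1

end Vale.Agent.P309F
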