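import Vale.Agent.P309F.Defs

open MeasureTheory ProbabilityTheory Real Set Filter Topology
open scoped RealInnerProductSpace ENNReal

namespace Vale.Agent.P309F
open Vale.Agent.P309

section
variable {S : Type*} (G : MeasurableSpace S) {mS : MeasurableSpace S} {σ : Measure S}
  [IsProbabilityMeasure σ]

/-- A bounded `G` measurable version of the conditional expectation. -/
lemma exists_ver (hG : G ≤ mS) {u : S → ℝ} (hu : BddNN u) {F : ℝ} (hF : ∀ s, u s ≤ F) :
    ∃ m : S → ℝ, BddNN m ∧ Measurable[G] m ∧ condExp G σ u =ᵐ[σ] m ∧ ∀ s, m s ≤ F := by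
  have hF0 : ∀ s : S, 0 ≤ F := fun s => (hu.nonneg s).trans (hF s)
  set c := condExp G σ u with hc
  have hcm : Measurable[G] c := stronglyMeasurable_condExp.measurable
  have hmG : Measurable[G] fun s => max 0 (min (c s) F) :=
    Measurable.max (@measurable_const _ _ _ G _) (Measurable.min hcm (@measurable_const _ _ _ G _))
  refine ⟨fun s => max 0 (min (c s) F), ⟨hmG.mono hG le_rfl, fun s => le_max_left _ _, F, ?_⟩, hmG,
    ?_, ?_⟩
  · intro s
    exact max_le (hF0 s) (min_le_right _ _)
  · have h0 : 0 ≤ᵐ[σ] c := condExp_nonneg (ae_of_all _ hu.nonneg)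
    have h1 : c ≤ᵐ[σ] fun _ => F := by
      have := condExp_mono (m := G) (μ := σ) hu.integrable (integrable_const F) (ae_of_all _ hF)
      rw [condExp_const hG F] at this
      exact this
    filter_upwards [h0, h1] with s h0s h1s
    simp only [Pi.zero_apply] at h0s
    rw [min_eq_left h1s, max_eq_right h0s]
  · intro s
    exact max_le (hF0 s) (min_le_right _ _)

/-- Tower property against nonnegative `G` measurable functions. -/
lemma lintegral_tower (hG : G ≤ mS) {u m : S → ℝ} (hu : BddNN u) (hm : BddNN m)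
    (hae : condExp G σ u =ᵐ[σ] m) {g : S → ℝ≥0∞} (hg : Measurable[G] g) :
    ∫⁻ s, g s * ENNReal.ofReal (u s) ∂σ = ∫⁻ s, g s * ENNReal.ofReal (m s) ∂σ := by
  have key : (σ.withDensity fun s => ENNReal.ofReal (u s)).trim hG =
      (σ.withDensity fun s => ENNReal.ofReal (m s)).trim hG := by
    refine @Measure.ext _ G _ _ (fun A hA => ?_)
    rw [trim_measurableSet_eq hG hA, trim_measurableSet_eq hG hA,
      withDensity_apply _ (hG _ hA), withDensity_apply _ (hG _ hA)]
    rw [← ofReal_integral_eq_lintegral_ofReal hu.integrable.integrableOn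
        (ae_of_all _ hu.nonneg),
      ← ofReal_integral_eq_lintegral_ofReal hm.integrable.integrableOn
        (ae_of_all _ hm.nonneg)]
    congr 1
    rw [← setIntegral_condExp hG hu.integrable hA]
    exact setIntegral_congr_ae (hG _ hA) (hae.mono fun s hs _ => hs)
  have hgm : Measurable g := hg.mono hG le_rfl
  have hum : Measurable fun s => ENNReal.ofReal (u s) := hu.meas.ennreal_ofReal
  have hmm : Measurable fun s => ENNReal.ofReal (m s) := hm.meas.ennreal_ofReal
  calc ∫⁻ s, g s * ENNReal.ofReal (u s) ∂σ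
      = ∫⁻ s, g s ∂(σ.withDensity fun s => ENNReal.ofReal (u s)) := by
        rw [lintegral_withDensity_eq_lintegral_mul _ hum hgm]
        exact lintegral_congr fun s => by simp [mul_comm]
    _ = ∫⁻ s, g s ∂((σ.withDensity fun s => ENNReal.ofReal (u s)).trim hG) :=
        (lintegral_trim hG hg).symm
    _ = ∫⁻ s, g s ∂((σ.withDensity fun s => ENNReal.ofReal (m s)).trim hG) := by rw [key]
    _ = ∫⁻ s, g s ∂(σ.withDensity fun s => ENNReal.ofReal (m s)) := lintegral_trim hG hg
    _ = ∫⁻ s, g s * ENNReal.ofReal (m s) ∂σ := by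
        rw [lintegral_withDensity_eq_lintegral_mul _ hmm hgm]
        exact lintegral_congr fun s => by simp [mul_comm]

/-- Pull out: integrability and integral of a `G` measurable function against `u` and its version. -/
lemma pull_out (hG : G ≤ mS) {u m ψ : S → ℝ} (hu : BddNN u) (hm : BddNN m)
    (hae : condExp G σ u =ᵐ[σ] m) (hψ : Measurable[G] ψ)
    (hi : Integrable (fun s => ψ s * m s) σ) :
    Integrable (fun s => ψ s * u s) σ ∧ ∫ s, ψ s * u s ∂σ = ∫ s, ψ s * m s ∂σ := by
  have hψm : Measurable ψ := hψ.mono hG le_rfl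
  have hint : Integrable (fun s => ψ s * u s) σ := by
    refine ⟨(hψm.mul hu.meas).aestronglyMeasurable, ?_⟩
    have h1 : ∫⁻ s, ‖ψ s * u s‖ₑ ∂σ = ∫⁻ s, ‖ψ s * m s‖ₑ ∂σ := by
      have h2 := lintegral_tower G hG hu hm hae (g := fun s => ‖ψ s‖ₑ) (measurable_enorm.comp hψ)
      calc ∫⁻ s, ‖ψ s * u s‖ₑ ∂σ = ∫⁻ s, ‖ψ s‖ₑ * ENNReal.ofReal (u s) ∂σ := by
            refine lintegral_congr fun s => ?_
            rw [enorm_mul, Real.enorm_eq_ofReal (hu.nonneg s)]
        _ = ∫⁻ s, ‖ψ s‖ₑ * ENNReal.ofReal (m s) ∂σ := h2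
        _ = _ := by
            refine lintegral_congr fun s => ?_
            rw [enorm_mul, Real.enorm_eq_ofReal (hm.nonneg s)]
    rw [HasFiniteIntegral, h1]
    exact hi.2
  refine ⟨hint, ?_⟩
  have h1 := condExp_mul_of_stronglyMeasurable_left (μ := σ) (m := G) (f := ψ) (g := u)
    hψ.stronglyMeasurable hint hu.integrable
  calc ∫ s, ψ s * u s ∂σ = ∫ s, (condExp G σ (ψ * u)) s ∂σ := (integral_condExp hG).symm
    _ = ∫ s, ψ s * m s ∂σ := by
        refine integral_congr_ae ?_
        filter_upwards [h1, hae] with s hs1 hs2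
        rw [hs1, Pi.mul_apply, hs2]

/-- Almost everywhere, `u` vanishes where its version vanishes. -/
lemma ae_zero_of_ver (hG : G ≤ mS) {u m : S → ℝ} (hu : BddNN u) (hm : BddNN m)
    (hae : condExp G σ u =ᵐ[σ] m) (hmG : Measurable[G] m) : ∀ᵐ s ∂σ, m s = 0 → u s = 0 := by
  have hA : MeasurableSet[G] {s | m s = 0} := hmG (measurableSet_singleton (0 : ℝ))
  have h1 : ∫ s in {s | m s = 0}, u s ∂σ = 0 := by
    rw [← setIntegral_condExp hG hu.integrable hA]
    have h2 : ∫ s in {s | m s = 0}, condExp G σ u s ∂σ = ∫ s in {s | m s = 0}, m s ∂σ :=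
      setIntegral_congr_ae (hG _ hA) (hae.mono fun s hs _ => hs)
    rw [h2]
    exact setIntegral_eq_zero_of_forall_eq_zero fun s hs => hs
  have h3 := (setIntegral_eq_zero_iff_of_nonneg_ae (ae_of_all _ hu.nonneg)
    hu.integrable.integrableOn).mp h1
  rw [Filter.EventuallyEq, ae_restrict_iff' (hG _ hA)] at h3
  filter_upwards [h3] with s hs hs0
  simpa using hs hs0

/-- The main identity for a version. -/
lemma Psi_of_ver (hG : G ≤ mS) {u m : S → ℝ} (hu : BddNN u) (hm : BddNN m)
    (hae : condExp G σ u =ᵐ[σ] m) (hmG : Measurable[G] m) :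
    Integrable (fun s => u s * log (u s / m s)) σ ∧
      Psi G σ u = ∫ s, u s * log (u s / m s) ∂σ := by
  have hlogG : Measurable[G] fun s => log (m s) := Real.measurable_log.comp hmG
  have hi0 : Integrable (fun s => log (m s) * m s) σ := by
    simpa [mul_comm] using hm.integrable_log (σ := σ)
  obtain ⟨hi1, he1⟩ := pull_out G hG hu hm hae hlogG hi0
  have hz := ae_zero_of_ver G hG hu hm hae hmG
  have hpt : (fun s => u s * log (u s / m s)) =ᵐ[σ] fun s => u s * log (u s) - log (m s) * u s := by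
    filter_upwards [hz] with s hs
    rcases (hu.nonneg s).eq_or_lt with h0 | hpos
    · simp [← h0]
    · have hm0 : m s ≠ 0 := fun h => hpos.ne' (hs h)
      rw [Real.log_div hpos.ne' hm0]
      ring
  have hint2 : Integrable (fun s => u s * log (u s) - log (m s) * u s) σ :=
    hu.integrable_log.sub hi1
  refine ⟨hint2.congr hpt.symm, ?_⟩
  have hmean : ∫ s, m s ∂σ = ∫ s, u s ∂σ := by
    rw [← integral_condExp hG (f := u)]
    exact (integral_congr_ae hae).symm
  unfold Psi
  rw [Hent_congr_ae hae, integral_congr_ae hpt, integral_sub hu.integrable_log hi1, he1]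
  unfold Hent
  rw [hmean]
  have : ∫ s, log (m s) * m s ∂σ = ∫ s, m s * log (m s) ∂σ :=
    integral_congr_ae (ae_of_all _ fun s => mul_comm _ _)
  rw [this]
  ring

/-- MODULE PSI. With `m = σ[u|G]`: `Psi = ∫ u log u - ∫ m log m = ∫ u log (u / m)` (tower, `∫ u = ∫ m`;
`u = 0` a.e. where `m = 0`). -/
theorem Psi_eq_integral (hG : G ≤ mS) {u : S → ℝ} (hu : BddNN u) :
    Psi G σ u = ∫ s, u s * log (u s / condExp G σ u s) ∂σ := by
  obtain ⟨F, hF⟩ := hu.bdd
  obtain ⟨m, hm, hmG, hae, -⟩ := exists_ver G hG hu hF (σ := σ)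
  rw [(Psi_of_ver G hG hu hm hae hmG).2]
  refine integral_congr_ae ?_
  filter_upwards [hae] with s hs
  rw [hs]

theorem Psi_nonneg (hG : G ≤ mS) {u : S → ℝ} (hu : BddNN u) : 0 ≤ Psi G σ u := by
  obtain ⟨F, hF⟩ := hu.bdd
  obtain ⟨m, hm, hmG, hae, -⟩ := exists_ver G hG hu hF (σ := σ)
  obtain ⟨hi, he⟩ := Psi_of_ver G hG hu hm hae hmG
  rw [he]
  have hz := ae_zero_of_ver G hG hu hm hae hmG
  have hmean : ∫ s, m s ∂σ = ∫ s, u s ∂σ := by
    rw [← integral_condExp hG (f := u)]
    exact (integral_congr_ae hae).symm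
  have h1 : ∫ s, (u s - m s) ∂σ ≤ ∫ s, u s * log (u s / m s) ∂σ := by
    refine integral_mono_ae (hu.integrable.sub hm.integrable) hi ?_
    filter_upwards [hz] with s hs
    rcases (hu.nonneg s).eq_or_lt with h0 | hpos
    · simp [← h0, hm.nonneg s]
    · have hm0 : 0 < m s := lt_of_le_of_ne (hm.nonneg s) (fun h => hpos.ne' (hs h.symm))
      have h2 := Real.one_sub_inv_le_log_of_pos (div_pos hpos hm0)
      have h3 : u s * (1 - (u s / m s)⁻¹) = u s - m s := by
        field_simp
      calc u s - m s = u s * (1 - (u s / m s)⁻¹) := h3.symm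
        _ ≤ _ := mul_le_mul_of_nonneg_left h2 hpos.le
  rw [integral_sub hu.integrable hm.integrable, hmean] at h1
  linarith

theorem Psi_const_mul (hG : G ≤ mS) {u : S → ℝ} (hu : BddNN u) {c : ℝ} (hc : 0 ≤ c) :
    Psi G σ (fun s => c * u s) = c * Psi G σ u := by
  obtain ⟨F, hF⟩ := hu.bdd
  obtain ⟨m, hm, hmG, hae, -⟩ := exists_ver G hG hu hF (σ := σ)
  have h1 : condExp G σ (fun s => c * u s) =ᵐ[σ] fun s => c * m s := by
    have h2 : (fun s => c * u s) = c • u := by
      ext s; simp
    rw [h2]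
    filter_upwards [condExp_smul (μ := σ) c u G, hae] with s hs1 hs2
    rw [hs1, Pi.smul_apply, hs2]
    simp
  unfold Psi
  rw [Hent_congr_ae h1, Hent_congr_ae hae, Hent_const_mul hu hc, Hent_const_mul hm hc]
  ring

/-- Joint convexity (log sum). -/
theorem Psi_add_le (hG : G ≤ mS) {u w : S → ℝ} (hu : BddNN u) (hw : BddNN w) :
    Psi G σ (fun s => u s + w s) ≤ Psi G σ u + Psi G σ w := by
  obtain ⟨F, hF⟩ := hu.bdd
  obtain ⟨F', hF'⟩ := hw.bdd
  obtain ⟨m, hm, hmG, hae, -⟩ := exists_ver G hG hu hF (σ := σ)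
  obtain ⟨n, hn, hnG, hae', -⟩ := exists_ver G hG hw hF' (σ := σ)
  obtain ⟨hi1, he1⟩ := Psi_of_ver G hG hu hm hae hmG
  obtain ⟨hi2, he2⟩ := Psi_of_ver G hG hw hn hae' hnG
  have hmnG : Measurable[G] fun s => m s + n s := Measurable.add hmG hnG
  have haeS : condExp G σ (fun s => u s + w s) =ᵐ[σ] fun s => m s + n s := by
    have h2 : (fun s => u s + w s) = u + w := rfl
    rw [h2]
    filter_upwards [condExp_add (μ := σ) hu.integrable hw.integrable G, hae, hae'] with s h1 h2 h3
    rw [h1, Pi.add_apply, h2, h3]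
  obtain ⟨hi3, he3⟩ := Psi_of_ver G hG (hu.add hw) (hm.add hn) haeS hmnG
  rw [he1, he2, he3, ← integral_add hi1 hi2]
  refine integral_mono_ae hi3 (hi1.add hi2) ?_
  filter_upwards [ae_zero_of_ver G hG hu hm hae hmG, ae_zero_of_ver G hG hw hn hae' hnG] with s h1 h2
  have hm0 := hm.nonneg s
  have hn0 := hn.nonneg s
  have hu0 := hu.nonneg s
  have hw0 := hw.nonneg s
  rcases hm0.eq_or_lt with hm1 | hm1
  · have hu1 := h1 hm1.symm
    simp [hu1, ← hm1]
  rcases hn0.eq_or_lt with hn1 | hn1
  · have hw1 := h2 hn1.symm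
    simp [hw1, ← hn1]
  · have := log_sum hu0 hw0 hm1 hn1
    show (u s + w s) * log ((u s + w s) / (m s + n s)) ≤
      u s * log (u s / m s) + w s * log (w s / n s)
    rw [mul_log_div (add_nonneg hu0 hw0) (add_pos hm1 hn1), mul_log_div hu0 hm1,
      mul_log_div hw0 hn1]
    exact this

lemma BddNN_sum {α : Type*} (t : Finset α) {u : α → S → ℝ} (hu : ∀ a, BddNN (u a)) :
    BddNN fun s => ∑ a ∈ t, u a s := by
  classical
  induction t using Finset.induction_on with
  | empty => exact ⟨by simp, by simp, 0, by simp⟩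
  | insert a t ha ih =>
    simp_rw [Finset.sum_insert ha]
    exact (hu a).add ih

theorem Psi_sum_le (hG : G ≤ mS) {α : Type*} (t : Finset α) {u : α → S → ℝ}
    (hu : ∀ a, BddNN (u a)) :
    Psi G σ (fun s => ∑ a ∈ t, u a s) ≤ ∑ a ∈ t, Psi G σ (u a) := by
  classical
  induction t using Finset.induction_on with
  | empty =>
    have h0 : (fun _ : S => (0 : ℝ)) = (0 : S → ℝ) := rfl
    simp only [Finset.sum_empty, Psi, Hent, h0, condExp_zero]
    simp
  | insert a t ha ih =>
    simp_rw [Finset.sum_insert ha]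
    exact (Psi_add_le G hG (hu a) (BddNN_sum t hu)).trans (add_le_add_right ih _)

/-- The elementary entropy inequality: `∑ x log (M / x) ≤ M log card`. -/
lemma sum_mul_log_le {V : Type*} [Fintype V] [Nonempty V] {x : V → ℝ} (hx : ∀ v, 0 ≤ x v) :
    ∑ v, x v * log ((∑ v', x v') / x v) ≤ (∑ v, x v) * log (Fintype.card V) := by
  set M := ∑ v', x v' with hM
  have hn : 0 < (Fintype.card V : ℝ) := by exact_mod_cast Fintype.card_pos
  have hM0 : 0 ≤ M := Finset.sum_nonneg fun v _ => hx v
  have hle : ∀ v, x v ≤ M := fun v =>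
    Finset.single_le_sum (fun v _ => hx v) (Finset.mem_univ v)
  have h1 : ∀ v, x v * log (M / x v) - x v * log (Fintype.card V) ≤
      M / (Fintype.card V) - x v := by
    intro v
    rcases (hx v).eq_or_lt with h0 | hpos
    · rw [← h0]
      simp only [zero_mul, sub_zero, sub_self]
      positivity
    · have hMp : 0 < M := hpos.trans_le (hle v)
      have h2 : log (M / x v) - log (Fintype.card V) =
          log (M / (Fintype.card V * x v)) := by
        rw [Real.log_div hMp.ne' hpos.ne', Real.log_div hMp.ne' (by positivity),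
          Real.log_mul hn.ne' hpos.ne']
        ring
      have h3 := Real.log_le_sub_one_of_pos (show 0 < M / (Fintype.card V * x v) by positivity)
      have h4 : x v * (M / (Fintype.card V * x v) - 1) = M / Fintype.card V - x v := by
        field_simp
      calc x v * log (M / x v) - x v * log (Fintype.card V)
          = x v * log (M / (Fintype.card V * x v)) := by rw [← h2]; ring
        _ ≤ x v * (M / (Fintype.card V * x v) - 1) := mul_le_mul_of_nonneg_left h3 hpos.le
        _ = _ := h4
  have h2 := Finset.sum_le_sum fun v (_ : v ∈ Finset.univ) => h1 v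
  rw [Finset.sum_sub_distrib, Finset.sum_sub_distrib, ← Finset.sum_mul, ← hM] at h2
  have h3 : ∑ _v : V, M / (Fintype.card V : ℝ) = M := by
    rw [Finset.sum_const, Finset.card_univ, nsmul_eq_mul]
    field_simp
  rw [h3] at h2
  linarith

/-- The information about a label is at most the log of the number of labels:
`I(v; s | G) ≤ H(v)`. With `U = ∑ u v`, `m v = σ[u v|G]`, `M = ∑ m v`: drop `log (u v / U) ≤ 0` and use
the tower for `log (M / m v)`, which is `G` measurable, then `∑ x log(1/x) ≤ log card` pointwise. -/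
theorem Psi_split (hG : G ≤ mS) {V : Type*} [Fintype V] [Nonempty V] {u : V → S → ℝ}
    (hu : ∀ v, BddNN (u v)) :
    ∑ v, Psi G σ (u v) ≤ Psi G σ (fun s => ∑ v, u v s) +
      (∫ s, ∑ v, u v s ∂σ) * log (Fintype.card V) := by
  classical
  have hver : ∀ v, ∃ m : S → ℝ, BddNN m ∧ Measurable[G] m ∧ condExp G σ (u v) =ᵐ[σ] m :=
    fun v => by
      obtain ⟨F, hF⟩ := (hu v).bdd
      obtain ⟨m, h1, h2, h3, -⟩ := exists_ver G hG (hu v) hF (σ := σ)
      exact ⟨m, h1, h2, h3⟩
  choose m hm hmG hae using hver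
  set U : S → ℝ := fun s => ∑ v, u v s with hU
  set M : S → ℝ := fun s => ∑ v, m v s with hM
  have hUb : BddNN U := BddNN_sum _ hu
  have hMb : BddNN M := BddNN_sum _ hm
  have hMG : Measurable[G] M := Finset.measurable_sum Finset.univ fun v _ => hmG v
  have haeS : condExp G σ U =ᵐ[σ] M := by
    have h1 : U = ∑ v, u v := by
      ext s; simp [hU]
    rw [h1]
    have h2 := condExp_finsetSum (μ := σ) (s := Finset.univ) (f := u)
      (fun v _ => (hu v).integrable) G
    have h3 : ∀ᵐ s ∂σ, ∀ v, condExp G σ (u v) s = m v s := ae_all_iff.mpr hae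
    filter_upwards [h2, h3] with s hs1 hs2
    rw [hs1, Finset.sum_apply, hM]
    exact Finset.sum_congr rfl fun v _ => hs2 v
  obtain ⟨hiU, heU⟩ := Psi_of_ver G hG hUb hMb haeS hMG
  have hP : ∀ v, Integrable (fun s => u v s * log (u v s / m v s)) σ ∧
      Psi G σ (u v) = ∫ s, u v s * log (u v s / m v s) ∂σ :=
    fun v => Psi_of_ver G hG (hu v) (hm v) (hae v) (hmG v)
  -- the pull out of `log (M / m v)`
  have hψG : ∀ v, Measurable[G] fun s => log (M s / m v s) := fun v =>
    Real.measurable_log.comp (Measurable.div hMG (hmG v))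
  have hle : ∀ v s, m v s ≤ M s := fun v s =>
    Finset.single_le_sum (f := fun v => m v s) (fun v _ => (hm v).nonneg s) (Finset.mem_univ v)
  have hψm : ∀ v, Integrable (fun s => log (M s / m v s) * m v s) σ := by
    intro v
    refine hMb.integrable.mono
      (((hψG v).mono hG le_rfl).mul (hm v).meas).aestronglyMeasurable (ae_of_all _ fun s => ?_)
    rw [Real.norm_eq_abs, Real.norm_eq_abs, abs_of_nonneg (hMb.nonneg s)]
    rcases ((hm v).nonneg s).eq_or_lt with h0 | hpos
    · simp [← h0, hMb.nonneg s]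
    · have hMp : 0 < M s := hpos.trans_le (hle v s)
      have h1 : 1 ≤ M s / m v s := (one_le_div hpos).mpr (hle v s)
      have h2 := Real.log_nonneg h1
      rw [abs_of_nonneg (mul_nonneg h2 hpos.le)]
      have h3 := Real.log_le_sub_one_of_pos (show 0 < M s / m v s by positivity)
      calc log (M s / m v s) * m v s ≤ (M s / m v s - 1) * m v s :=
            mul_le_mul_of_nonneg_right h3 hpos.le
        _ = M s - m v s := by field_simp
        _ ≤ M s := by linarith
  have hpull := fun v => pull_out G hG (hu v) (hm v) (hae v) (hψG v) (hψm v)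
  -- pointwise comparison
  have hpt : ∀ v, ∀ᵐ s ∂σ, u v s * log (u v s / m v s) ≤
      u v s * log (U s / M s) + log (M s / m v s) * u v s := by
    intro v
    filter_upwards [ae_zero_of_ver G hG (hu v) (hm v) (hae v) (hmG v)] with s hs
    rcases ((hu v).nonneg s).eq_or_lt with h0 | hpos
    · simp [← h0]
    · have hmp : 0 < m v s := lt_of_le_of_ne ((hm v).nonneg s) (fun h => hpos.ne' (hs h.symm))
      have hMp : 0 < M s := hmp.trans_le (hle v s)
      have hUle : u v s ≤ U s := Finset.single_le_sum (f := fun v => u v s)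
        (fun v _ => (hu v).nonneg s) (Finset.mem_univ v)
      have hUp : 0 < U s := hpos.trans_le hUle
      rw [Real.log_div hpos.ne' hmp.ne', Real.log_div hUp.ne' hMp.ne',
        Real.log_div hMp.ne' hmp.ne']
      have := Real.log_le_log hpos hUle
      nlinarith [mul_le_mul_of_nonneg_left this hpos.le]
  have hI1 : ∀ v, Integrable (fun s => u v s * log (U s / M s)) σ := by
    intro v
    refine hiU.mono ((hu v).meas.mul
      (Real.measurable_log.comp (hUb.meas.div hMb.meas))).aestronglyMeasurable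
      (ae_of_all _ fun s => ?_)
    rw [norm_mul, norm_mul]
    refine mul_le_mul_of_nonneg_right ?_ (norm_nonneg _)
    rw [Real.norm_eq_abs, Real.norm_eq_abs, abs_of_nonneg ((hu v).nonneg s),
      abs_of_nonneg (hUb.nonneg s)]
    exact Finset.single_le_sum (f := fun v => u v s)
      (fun v _ => (hu v).nonneg s) (Finset.mem_univ v)
  have step1 : ∀ v, Psi G σ (u v) ≤ ∫ s, u v s * log (U s / M s) ∂σ +
      ∫ s, log (M s / m v s) * m v s ∂σ := by
    intro v
    rw [(hP v).2, ← (hpull v).2, ← integral_add (hI1 v) (hpull v).1]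
    exact integral_mono_ae (hP v).1 ((hI1 v).add (hpull v).1) (hpt v)
  have step2 : ∑ v, ∫ s, u v s * log (U s / M s) ∂σ = Psi G σ U := by
    rw [heU, ← integral_finsetSum _ (fun v _ => hI1 v)]
    refine integral_congr_ae (ae_of_all _ fun s => ?_)
    show ∑ v, u v s * log (U s / M s) = U s * log (U s / M s)
    rw [← Finset.sum_mul]
  have hmeanM : ∫ s, M s ∂σ = ∫ s, U s ∂σ := by
    rw [← integral_condExp hG (f := U)]
    exact (integral_congr_ae haeS).symm
  have step3 : ∑ v, ∫ s, log (M s / m v s) * m v s ∂σ ≤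
      (∫ s, U s ∂σ) * log (Fintype.card V) := by
    rw [← integral_finsetSum _ (fun v _ => hψm v), ← hmeanM, ← integral_mul_const]
    refine integral_mono (integrable_finsetSum _ fun v _ => hψm v)
      (hMb.integrable.mul_const _) fun s => ?_
    have h1 := sum_mul_log_le (x := fun v => m v s) (fun v => (hm v).nonneg s)
    calc ∑ v, log (M s / m v s) * m v s = ∑ v, m v s * log (M s / m v s) :=
          Finset.sum_congr rfl fun v _ => mul_comm _ _
      _ ≤ _ := h1
  calc ∑ v, Psi G σ (u v) ≤ ∑ v, (∫ s, u v s * log (U s / M s) ∂σ +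
        ∫ s, log (M s / m v s) * m v s ∂σ) := Finset.sum_le_sum fun v _ => step1 v
    _ = ∑ v, ∫ s, u v s * log (U s / M s) ∂σ + ∑ v, ∫ s, log (M s / m v s) * m v s ∂σ :=
        Finset.sum_add_distrib
    _ ≤ _ := by
        rw [step2]
        exact add_le_add_right step3 _

/-- Continuity under bounded `L¹` convergence: `Hent_tendsto` twice, the conditional expectation is an
`L¹` contraction and preserves the bounds (take a bounded measurable version). -/
theorem Psi_tendsto (hG : G ≤ mS) {u : ℕ → S → ℝ} {w : S → ℝ} {F : ℝ} (hu : ∀ n, BddNN (u n))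
    (hw : BddNN w) (huF : ∀ n s, u n s ≤ F) (hwF : ∀ s, w s ≤ F)
    (hlim : Tendsto (fun n => ∫ s, |u n s - w s| ∂σ) atTop (𝓝 0)) :
    Tendsto (fun n => Psi G σ (u n)) atTop (𝓝 (Psi G σ w)) := by
  have hver : ∀ n, ∃ m : S → ℝ, BddNN m ∧ Measurable[G] m ∧ condExp G σ (u n) =ᵐ[σ] m ∧
      ∀ s, m s ≤ F := fun n => exists_ver G hG (hu n) (huF n)
  choose m hm hmG hae hmF using hver
  obtain ⟨n', hn', hnG', hae', hnF'⟩ := exists_ver G hG hw hwF (σ := σ)
  have h1 := Hent_tendsto (σ := σ) hu hw huF hwF hlim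
  have h2 : Tendsto (fun n => ∫ s, |m n s - n' s| ∂σ) atTop (𝓝 0) := by
    refine squeeze_zero (fun n => integral_nonneg fun s => abs_nonneg _) (fun n => ?_) hlim
    have h3 := integral_abs_condExp_le (μ := σ) (m := G) (fun s => u n s - w s)
    have h4 : condExp G σ (fun s => u n s - w s) =ᵐ[σ] fun s => m n s - n' s := by
      have h5 : (fun s => u n s - w s) = u n - w := rfl
      rw [h5]
      filter_upwards [condExp_sub (μ := σ) (hu n).integrable hw.integrable G, hae n, hae']
        with s h1 h2 h3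
      rw [h1, Pi.sub_apply, h2, h3]
    calc ∫ s, |m n s - n' s| ∂σ = ∫ s, |condExp G σ (fun s => u n s - w s) s| ∂σ := by
          refine integral_congr_ae ?_
          filter_upwards [h4] with s hs
          rw [hs]
      _ ≤ _ := h3
  have h3 := Hent_tendsto (σ := σ) hm hn' hmF hnF' h2
  have h4 : (fun n => Psi G σ (u n)) = fun n => Hent σ (u n) - Hent σ (m n) := by
    ext n
    unfold Psi
    rw [Hent_congr_ae (hae n)]
  rw [h4]
  unfold Psi
  rw [Hent_congr_ae hae']
  exact h1.sub h3

end

variable {d : ℕ}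

theorem fibJ_le (J : Finset (Fin d)) : fibJ J ≤ (inferInstance : MeasurableSpace (E d)) :=
  (coordP J).measurable.comap_le

theorem fibO_le (J : Finset (Fin d)) (O : E d ≃ₗᵢ[ℝ] E d) :
    fibO J O ≤ (inferInstance : MeasurableSpace (E d)) :=
  (PO J O).measurable.comap_le

/-- The rotation preserves the sphere measure. -/
lemma sphereM_mp (O : E d ≃ₗᵢ[ℝ] E d) : MeasurePreserving O (sphereM d) (sphereM d) :=
  ⟨O.continuous.measurable, sphereM_map_isometry O⟩

lemma O_emb (O : E d ≃ₗᵢ[ℝ] E d) : MeasurableEmbedding O :=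
  O.toHomeomorph.measurableEmbedding

theorem Hent_rot (O : E d ≃ₗᵢ[ℝ] E d) {h : E d → ℝ} :
    Hent (sphereM d) (fun s => h (O s)) = Hent (sphereM d) h := by
  unfold Hent
  have h1 := (sphereM_mp O).integral_comp (O_emb O) h
  have h2 := (sphereM_mp O).integral_comp (O_emb O) (fun s => h s * log (h s))
  rw [h1, h2]

/-- Rotation invariance of the uniform measure transports the functional. -/
theorem Psi_rot (J : Finset (Fin d)) (O : E d ≃ₗᵢ[ℝ] E d) {h : E d → ℝ} (hh : BddNN h) :
    Psi (fibO J O) (sphereM d) h = Psi (fibJ J) (sphereM d) (fun s => h (O s)) := by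
  have hmp := sphereM_mp O
  have hemb := O_emb O
  set c := condExp (fibO J O) (sphereM d) h with hc
  have hcm : Measurable[fibO J O] c := stronglyMeasurable_condExp.measurable
  have hh' : BddNN fun s => h (O s) := by
    obtain ⟨F, hF⟩ := hh.bdd
    exact ⟨hh.meas.comp O.continuous.measurable, fun s => hh.nonneg _, F, fun s => hF _⟩
  have key : (fun s => c (O s)) =ᵐ[sphereM d] condExp (fibJ J) (sphereM d) (fun s => h (O s)) := by
    refine ae_eq_condExp_of_forall_setIntegral_eq (fibJ_le J) hh'.integrable ?_ ?_ ?_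
    · intro A _ _
      exact ((hmp.integrable_comp_emb hemb).mpr integrable_condExp).integrableOn
    · intro A hA _
      obtain ⟨C, hC, rfl⟩ := hA
      have e : coordP J ⁻¹' C = O ⁻¹' (PO J O ⁻¹' C) := by
        ext x
        simp [PO]
      have hA' : MeasurableSet[fibO J O] (PO J O ⁻¹' C) := ⟨C, hC, rfl⟩
      rw [e, hmp.setIntegral_preimage_emb hemb c, hmp.setIntegral_preimage_emb hemb h]
      exact setIntegral_condExp (fibO_le J O) hh.integrable hA'
    · have hm : Measurable[fibJ J] (fun s => c (O s)) := by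
        intro B hB
        obtain ⟨C, hC, hCe⟩ := hcm hB
        refine ⟨C, hC, ?_⟩
        ext x
        have h1 : O x ∈ PO J O ⁻¹' C ↔ O x ∈ c ⁻¹' B := by rw [hCe]
        simpa [PO] using h1
      exact hm.stronglyMeasurable.aestronglyMeasurable
  unfold Psi
  rw [Hent_rot O, ← Hent_congr_ae key, Hent_rot O]

end Vale.Agent.P309F
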