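import Vale.Agent.P309F.ProjMoment

open MeasureTheory ProbabilityTheory Real Set Filter Topology
open scoped RealInnerProductSpace ENNReal

namespace Vale.Agent.P309F
open Vale.Agent.P309

variable {d : ℕ}

lemma rho_pos (l : ℕ) : 0 < rho l := by
  unfold rho
  positivity

lemma rho_zero : rho 0 = 2 := by simp [rho]

lemma rho_one : rho 1 = 1 := by simp [rho]

lemma rho_succ (l : ℕ) : rho (l + 1) = rho l / 2 := by
  unfold rho
  rw [pow_succ]
  ring

lemma rho_anti : Antitone rho := by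
  apply antitone_nat_of_succ_le
  intro n
  rw [rho_succ]
  have := rho_pos n
  linarith

lemma rho_le_one {l : ℕ} (hl : 1 ≤ l) : rho l ≤ 1 := by
  have := rho_anti hl
  rwa [rho_one] at this

lemma rho_le_two (l : ℕ) : rho l ≤ 2 := by
  have := rho_anti (Nat.zero_le l)
  rwa [rho_zero] at this

lemma hdist_nonneg' (W : Submodule ℝ (E d)) (s : E d) : 0 ≤ hdist W s := norm_nonneg _

/-- The distance to a subspace is at most the distance to any of its points. -/
lemma hdist_le_of_mem (W : Submodule ℝ (E d)) (s v : E d) (hv : v ∈ W) : hdist W s ≤ ‖s - v‖ := by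
  unfold hdist
  rw [Submodule.starProjection_minimal]
  exact ciInf_le ⟨0, by rintro _ ⟨x, rfl⟩; exact norm_nonneg _⟩ (⟨v, hv⟩ : W)

lemma hdist_mono {W W' : Submodule ℝ (E d)} (h : W ≤ W') (s : E d) : hdist W' s ≤ hdist W s :=
  hdist_le_of_mem W' s _ (h (Submodule.starProjection_apply_mem W s))

section levels

variable {u w L : ℕ} (pr : Measure (E d)) [IsFiniteMeasure pr] (P : E d → E d) (q : Fin (u + 1) → E d)

lemma aLev_ge_triv : ((rho 0)⁻¹) ^ w ≤ aLev pr P w L q := le_max_left _ _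

lemma aLev_pos : 0 < aLev pr P w L q :=
  lt_of_lt_of_le (pow_pos (inv_pos.2 (rho_pos 0)) w) (aLev_ge_triv pr P q)

lemma aLev_ge {l : ℕ} (hl : l ≤ L) :
    ((rho l)⁻¹) ^ w * pr.real {x | dAff q (P x) ≤ rho l} ≤ aLev pr P w L q := by
  refine le_trans ?_ (le_max_right _ _)
  exact Finset.le_sup' (fun l => ((rho l)⁻¹) ^ w * pr.real {x | dAff q (P x) ≤ rho l})
    (Finset.mem_range.2 (Nat.lt_succ_of_le hl))

end levels

/-- The bands of the distance, in extended reals. -/
lemma band_enn (w n : ℕ) {D : ℝ} (hD : rho (n + 1) < D) :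
    (ENNReal.ofReal D)⁻¹ ^ w ≤ 1 + ∑ l ∈ Finset.Icc 1 n,
      ENNReal.ofReal (((rho (l + 1))⁻¹) ^ w) * (if D ≤ rho l then 1 else 0) := by
  induction n with
  | zero =>
    have h1 : rho (0 + 1) = 1 := rho_one
    rw [h1] at hD
    have h2 : (ENNReal.ofReal D)⁻¹ ≤ 1 := by
      rw [ENNReal.inv_le_one]
      exact ENNReal.one_le_ofReal.2 hD.le
    calc (ENNReal.ofReal D)⁻¹ ^ w ≤ 1 := pow_le_one' h2 w
      _ ≤ _ := le_self_add
  | succ n ih =>
    rw [Finset.sum_Icc_succ_top (by omega)]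
    by_cases h : D ≤ rho (n + 1)
    · rw [if_pos h, mul_one]
      have hr := rho_pos (n + 1 + 1)
      have h2 : (ENNReal.ofReal D)⁻¹ ≤ ENNReal.ofReal ((rho (n + 1 + 1))⁻¹) := by
        rw [ENNReal.ofReal_inv_of_pos hr]
        exact ENNReal.inv_le_inv.2 (ENNReal.ofReal_le_ofReal hD.le)
      have h3 : (ENNReal.ofReal D)⁻¹ ^ w ≤ ENNReal.ofReal (((rho (n + 1 + 1))⁻¹) ^ w) := by
        calc (ENNReal.ofReal D)⁻¹ ^ w ≤ ENNReal.ofReal ((rho (n + 1 + 1))⁻¹) ^ w :=
              pow_le_pow_left' h2 w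
          _ = ENNReal.ofReal (((rho (n + 1 + 1))⁻¹) ^ w) := by
              rw [ENNReal.ofReal_pow (inv_pos.2 hr).le]
      refine h3.trans ?_
      rw [← add_assoc]
      exact le_add_self
    · push Not at h
      refine (ih h).trans ?_
      rw [← add_assoc]
      exact le_self_add

section main

variable {k w L : ℕ} (J : Finset (Fin d)) (O : E d ≃ₗᵢ[ℝ] E d) (q : Fin (k + 1) → E d)

/-- The coordinates outside `J`. -/
noncomputable def Ksub : Submodule ℝ (E d) :=
  Submodule.span ℝ (Set.range fun i : {i : Fin d // i ∉ J} => (EuclideanSpace.single i.1 (1 : ℝ) : E d))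

/-- The subspace controlling the projected distance. -/
noncomputable def Zsub : Submodule ℝ (E d) :=
  ((Submodule.span ℝ (Set.range q)) ⊔ Ksub J).map (O.toLinearEquiv : E d →ₗ[ℝ] E d)

lemma finrank_Zsub : Module.finrank ℝ (Zsub J O q) ≤ k + 1 + (d - J.card) := by
  unfold Zsub
  rw [LinearEquiv.finrank_map_eq]
  refine (Submodule.finrank_add_le_finrank_add_finrank _ _).trans ?_
  have h1 : Module.finrank ℝ (Submodule.span ℝ (Set.range q)) ≤ k + 1 := by
    have := finrank_range_le_card (R := ℝ) q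
    simpa [Set.finrank] using this
  have h2 : Module.finrank ℝ (Ksub J) ≤ d - J.card := by
    have := finrank_range_le_card (R := ℝ)
      (fun i : {i : Fin d // i ∉ J} => (EuclideanSpace.single i.1 (1 : ℝ) : E d))
    have hc : Fintype.card {i : Fin d // i ∉ J} = d - J.card := by
      rw [Fintype.card_subtype_compl]
      simp
    rw [hc] at this
    exact this
  omega

lemma sub_coordP_mem (y : E d) : y - coordP J y ∈ Ksub J := by
  have h1 : y - coordP J y = ∑ i, (y - coordP J y) i • (EuclideanSpace.single i (1 : ℝ) : E d) := by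
    have := (EuclideanSpace.basisFun (Fin d) ℝ).sum_repr (y - coordP J y)
    simpa using this.symm
  rw [h1]
  refine Submodule.sum_mem _ fun i _ => ?_
  by_cases hi : i ∈ J
  · have h0 : (y - coordP J y) i = 0 := by
      have := coordP_apply J y i
      rw [if_pos hi] at this
      simp [this]
    rw [h0, zero_smul]
    exact Submodule.zero_mem _
  · exact Submodule.smul_mem _ _ (Submodule.subset_span ⟨⟨i, hi⟩, rfl⟩)

lemma hseq_mem_span (q : Fin (k + 1) → E d) (i : Fin (k + 1)) :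
    hseq q i ∈ Submodule.span ℝ (Set.range q) := by
  unfold hseq
  exact Submodule.sub_mem _ (Submodule.subset_span ⟨i, rfl⟩) (Submodule.subset_span ⟨0, rfl⟩)

/-- The projected distance dominates the distance to a fixed subspace. -/
lemma hdist_Zsub_le (x : E d) : hdist (Zsub J O q) x ≤ dAff q (PO J O x) := by
  set W := Submodule.span ℝ (Set.range (hseq q)) with hW
  set uu := PO J O x - q 0 with huu
  set v := uu - W.starProjection uu with hv
  have hD : dAff q (PO J O x) = ‖v‖ := rfl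
  set y := O.symm x with hy
  have hPx : PO J O x = coordP J y := rfl
  have hxy : x = O y := by rw [hy]; simp
  have hmem : x - O v ∈ Zsub J O q := by
    unfold Zsub
    refine ⟨(y - coordP J y) + (q 0 + W.starProjection uu), ?_, ?_⟩
    · rw [add_comm (y - coordP J y)]
      refine Submodule.add_mem_sup ?_ (sub_coordP_mem J y)
      refine Submodule.add_mem _ (Submodule.subset_span ⟨0, rfl⟩) ?_
      have hle : W ≤ Submodule.span ℝ (Set.range q) := by
        rw [hW, Submodule.span_le]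
        rintro _ ⟨i, rfl⟩
        exact hseq_mem_span q i
      exact hle (Submodule.starProjection_apply_mem W uu)
    · have hval : (y - coordP J y) + (q 0 + W.starProjection uu) = y - v := by
        rw [hv, huu, hPx]
        abel
      change O ((y - coordP J y) + (q 0 + W.starProjection uu)) = x - O v
      rw [hval, map_sub, ← hxy]
  calc hdist (Zsub J O q) x ≤ ‖x - (x - O v)‖ := hdist_le_of_mem _ _ _ hmem
    _ = ‖v‖ := by
        rw [sub_sub_cancel]
        exact O.norm_map v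
    _ = dAff q (PO J O x) := hD.symm

lemma measurable_dAff_PO (J : Finset (Fin d)) (O : E d ≃ₗᵢ[ℝ] E d) (q : Fin (k + 1) → E d) :
    Measurable fun x : E d => dAff q (PO J O x) := by
  have h1 : Measurable fun x : E d => dAff q x := by
    have h0 := measurable_dAff (d := d) (u := k)
    exact h0.of_uncurry_left
  exact h1.comp (PO J O).continuous.measurable

/-- The tail moment under the uniform measure. -/
lemma moment_Zsub (hdim : 2 * (k + 1 + (d - J.card)) + 4 * w < d) :
    ∫⁻ x, (ENNReal.ofReal (hdist (Zsub J O q) x))⁻¹ ^ (4 * w) ∂(sphereM d) ≤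
      ENNReal.ofReal ((2 : ℝ) ^ (2 * w)) := by
  have hfr := finrank_Zsub J O q
  have hm := moment_hdist (Zsub J O q) (h := 2 * w) (by omega)
  have he : 2 * (2 * w) = 4 * w := by ring
  rw [he] at hm
  refine hm.trans (ENNReal.ofReal_le_ofReal ?_)
  set r := Module.finrank ℝ (Zsub J O q) with hr
  have h1 : ((r : ℝ)) ≤ (k : ℝ) + 1 + ((d - J.card : ℕ) : ℝ) := by exact_mod_cast hfr
  have h2 : 2 * ((k : ℝ) + 1 + ((d - J.card : ℕ) : ℝ)) + 4 * (w : ℝ) < d := by exact_mod_cast hdim
  have hcast : (((2 * w : ℕ) : ℝ)) = 2 * (w : ℝ) := by push_cast; ring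
  rw [hcast]
  have hpos : 0 < (d : ℝ) - r - 2 * (2 * (w : ℝ)) := by
    have : (0 : ℝ) ≤ (k : ℝ) + 1 + ((d - J.card : ℕ) : ℝ) := by positivity
    linarith
  have hnn : 0 ≤ (d : ℝ) - 2 * (2 * (w : ℝ)) := by
    have : (0 : ℝ) ≤ (k : ℝ) + 1 + ((d - J.card : ℕ) : ℝ) := by positivity
    linarith
  apply pow_le_pow_left₀ (div_nonneg hnn hpos.le)
  rw [div_le_iff₀ hpos]
  linarith

/-- **The truncated form of the sequential integral.** -/
theorem dAff_min_integral (hw : 1 ≤ w) (hL : 1 ≤ L)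
    (f : E d → ℝ) (hf : BddNN f) (hf1 : ∫ s, f s ∂(sphereM d) = 1) {F₀ : ℝ} (hF : ∀ s, f s ≤ F₀)
    (hFL : F₀ ≤ (2 : ℝ) ^ (3 * w * (L - 1)))
    (hdim : 2 * (k + 1 + (d - J.card)) + 4 * w < d) :
    ∫⁻ x, (ENNReal.ofReal (min (dAff q (PO J O x)) 2))⁻¹ ^ w ∂(priorM f) ≤
      ENNReal.ofReal ((2 ^ w * ((L : ℝ) + 1) + 1) * aLev (priorM f) (PO J O) w L q) := by
  have hprob := priorM_isProb hf hf1
  set pr := priorM f with hpr
  set a := aLev pr (PO J O) w L q with ha
  have ha0 : 0 < a := aLev_pos pr (PO J O) q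
  have ha1 : (1 / 2 : ℝ) ^ w ≤ a := by
    have := aLev_ge_triv (w := w) (L := L) pr (PO J O) q
    rw [rho_zero] at this
    simpa using this
  set D : E d → ℝ := fun x => dAff q (PO J O x) with hD
  have hDm : Measurable D := measurable_dAff_PO J O q
  have hD0 : ∀ x, 0 ≤ D x := fun x => norm_nonneg _
  set r := rho (L + 1) with hr
  have hr0 : 0 < r := rho_pos _
  have hr1 : r ≤ 1 := rho_le_one (by omega)
  set t' : E d → ℝ≥0∞ := fun x => (ENNReal.ofReal (hdist (Zsub J O q) x))⁻¹ ^ (4 * w) with ht'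
  have ht'm : Measurable t' := by
    have := measurable_moment (Zsub J O q) (2 * w)
    have he : 2 * (2 * w) = 4 * w := by ring
    rw [he] at this
    exact this
  set c : ℕ → ℝ≥0∞ := fun l => ENNReal.ofReal (((rho (l + 1))⁻¹) ^ w) with hc
  set h : E d → ℝ≥0∞ := fun x => 1 + ∑ l ∈ Finset.Icc 1 L, c l * (if D x ≤ rho l then 1 else 0) with hh
  set Kr : ℝ≥0∞ := ENNReal.ofReal r ^ (3 * w) with hKr
  -- pointwise
  have hpt : ∀ x, (ENNReal.ofReal (min (D x) 2))⁻¹ ^ w ≤ h x + Kr * t' x := by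
    intro x
    by_cases hT : D x ≤ r
    · have hmin : min (D x) 2 = D x := min_eq_left (by linarith)
      rw [hmin]
      refine le_trans ?_ le_add_self
      set t := (ENNReal.ofReal (D x))⁻¹ with ht
      have h1 : 1 ≤ ENNReal.ofReal r * t := by
        have hr' : ENNReal.ofReal r ≠ 0 := by simpa using hr0
        have h2 : (ENNReal.ofReal r)⁻¹ ≤ t := ENNReal.inv_le_inv.2 (ENNReal.ofReal_le_ofReal hT)
        calc (1 : ℝ≥0∞) = ENNReal.ofReal r * (ENNReal.ofReal r)⁻¹ :=
              (ENNReal.mul_inv_cancel hr' ENNReal.ofReal_ne_top).symm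
          _ ≤ _ := by gcongr
      have h3 : t ^ w ≤ Kr * t ^ (4 * w) := by
        calc t ^ w = 1 ^ (3 * w) * t ^ w := by simp
          _ ≤ (ENNReal.ofReal r * t) ^ (3 * w) * t ^ w := by gcongr
          _ = Kr * t ^ (4 * w) := by
              rw [hKr, mul_pow, mul_assoc, ← pow_add]
              congr 2
              ring
      refine h3.trans ?_
      have h4 : t ≤ (ENNReal.ofReal (hdist (Zsub J O q) x))⁻¹ :=
        ENNReal.inv_le_inv.2 (ENNReal.ofReal_le_ofReal (hdist_Zsub_le J O q x))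
      have h5 : t ^ (4 * w) ≤ t' x := pow_le_pow_left' h4 _
      exact mul_le_mul' le_rfl h5
    · push Not at hT
      refine le_trans ?_ le_self_add
      have h2lt : r < 2 := by linarith
      have h5 := band_enn w L (D := min (D x) 2) (lt_min hT h2lt)
      refine h5.trans ?_
      show _ ≤ 1 + ∑ l ∈ Finset.Icc 1 L, c l * (if D x ≤ rho l then 1 else 0)
      refine add_le_add le_rfl (Finset.sum_le_sum fun l hl => ?_)
      refine mul_le_mul' le_rfl ?_
      have hl1 : 1 ≤ l := (Finset.mem_Icc.1 hl).1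
      by_cases h6 : min (D x) 2 ≤ rho l
      · have h7 : D x ≤ rho l := by
          have hr1' := rho_le_one hl1
          rcases min_le_iff.1 h6 with h8 | h8
          · exact h8
          · linarith
        rw [if_pos h6, if_pos h7]
      · rw [if_neg h6]
        exact zero_le
  -- measurability of the band part
  have hSm : ∀ l, MeasurableSet {x | D x ≤ rho l} := fun l => measurableSet_le hDm measurable_const
  have hite : ∀ l, Measurable fun x => c l * (if D x ≤ rho l then (1 : ℝ≥0∞) else 0) := by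
    intro l
    exact (Measurable.ite (hSm l) measurable_const measurable_const).const_mul _
  have hhm : Measurable h := measurable_const.add (Finset.measurable_fun_sum _ fun l _ => hite l)
  -- the band integral
  have hband : ∀ l, l ≤ L → c l * pr {x | D x ≤ rho l} ≤ ENNReal.ofReal (2 ^ w * a) := by
    intro l hl
    have hrho : (rho (l + 1))⁻¹ = 2 * (rho l)⁻¹ := by
      rw [rho_succ]
      have := rho_pos l
      field_simp
    have hle := aLev_ge (w := w) pr (PO J O) q hl
    have hreal : pr {x | D x ≤ rho l} = ENNReal.ofReal (pr.real {x | D x ≤ rho l}) :=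
      (ofReal_measureReal).symm
    rw [hreal, ← ENNReal.ofReal_mul (pow_nonneg (inv_pos.2 (rho_pos _)).le w)]
    apply ENNReal.ofReal_le_ofReal
    rw [hrho, mul_pow, mul_assoc]
    exact mul_le_mul_of_nonneg_left hle (by positivity)
  have hint : ∫⁻ x, h x ∂pr = 1 + ∑ l ∈ Finset.Icc 1 L, c l * pr {x | D x ≤ rho l} := by
    rw [hh, lintegral_add_left measurable_const, lintegral_const, measure_univ, mul_one,
      lintegral_finsetSum _ fun l _ => hite l]
    congr 1
    apply Finset.sum_congr rfl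
    intro l _
    rw [lintegral_const_mul _ (Measurable.ite (hSm l) measurable_const measurable_const)]
    congr 1
    have : (fun x => if D x ≤ rho l then (1 : ℝ≥0∞) else 0) =
        Set.indicator {x | D x ≤ rho l} 1 := by
      ext x
      simp [Set.indicator_apply]
    rw [this, lintegral_indicator_one (hSm l)]
  have hbandsum : ∫⁻ x, h x ∂pr ≤ ENNReal.ofReal (2 ^ w * ((L : ℝ) + 1) * a) := by
    rw [hint]
    have h1 : (1 : ℝ) ≤ 2 ^ w * a := by
      calc (1 : ℝ) = 2 ^ w * (1 / 2) ^ w := by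
            rw [← mul_pow]
            simp
        _ ≤ 2 ^ w * a := by gcongr
    have h2 : ∑ l ∈ Finset.Icc 1 L, c l * pr {x | D x ≤ rho l} ≤
        ∑ _l ∈ Finset.Icc 1 L, ENNReal.ofReal (2 ^ w * a) :=
      Finset.sum_le_sum fun l hl => hband l (Finset.mem_Icc.1 hl).2
    rw [Finset.sum_const, Nat.card_Icc, Nat.add_sub_cancel, nsmul_eq_mul] at h2
    calc 1 + ∑ l ∈ Finset.Icc 1 L, c l * pr {x | D x ≤ rho l}
        ≤ ENNReal.ofReal (2 ^ w * a) + (L : ℝ≥0∞) * ENNReal.ofReal (2 ^ w * a) := by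
          gcongr
          exact ENNReal.one_le_ofReal.2 h1
      _ = ENNReal.ofReal (2 ^ w * ((L : ℝ) + 1) * a) := by
          rw [← ENNReal.ofReal_natCast, ← ENNReal.ofReal_mul (by positivity),
            ← ENNReal.ofReal_add (by positivity) (by positivity)]
          congr 1
          ring
  -- the tail
  have hFpos : 0 ≤ F₀ := (hf.nonneg 0).trans (hF 0)
  have hmeas_le : pr ≤ ENNReal.ofReal F₀ • sphereM d := by
    refine Measure.le_iff.2 fun A _ => ?_
    rw [Measure.smul_apply, smul_eq_mul]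
    exact priorM_le hF A
  have htail : Kr * ∫⁻ x, t' x ∂pr ≤ ENNReal.ofReal ((1 / 2 : ℝ) ^ w) := by
    have h1 : ∫⁻ x, t' x ∂pr ≤ ENNReal.ofReal F₀ * ENNReal.ofReal ((2 : ℝ) ^ (2 * w)) := by
      calc ∫⁻ x, t' x ∂pr ≤ ∫⁻ x, t' x ∂(ENNReal.ofReal F₀ • sphereM d) :=
            lintegral_mono' hmeas_le le_rfl
        _ = ENNReal.ofReal F₀ * ∫⁻ x, t' x ∂(sphereM d) := by
            rw [lintegral_smul_measure, smul_eq_mul]
        _ ≤ _ := by
            gcongr
            exact moment_Zsub J O q hdim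
    calc Kr * ∫⁻ x, t' x ∂pr ≤ Kr * (ENNReal.ofReal F₀ * ENNReal.ofReal ((2 : ℝ) ^ (2 * w))) := by
          gcongr
      _ = ENNReal.ofReal (r ^ (3 * w) * (F₀ * (2 : ℝ) ^ (2 * w))) := by
          rw [hKr, ← ENNReal.ofReal_pow hr0.le, ENNReal.ofReal_mul (by positivity),
            ENNReal.ofReal_mul hFpos]
      _ ≤ ENNReal.ofReal ((1 / 2 : ℝ) ^ w) := by
          apply ENNReal.ofReal_le_ofReal
          have hr2 : r = (1 / 2 : ℝ) ^ L := by
            rw [hr]
            unfold rho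
            rw [pow_succ]
            ring
          have h3 : r ^ (3 * w) * (2 : ℝ) ^ (3 * w * (L - 1)) = (1 / 2 : ℝ) ^ (3 * w) := by
            rw [hr2, ← pow_mul]
            have h4 : L * (3 * w) = 3 * w * (L - 1) + 3 * w := by
              obtain ⟨m, rfl⟩ : ∃ m, L = m + 1 := ⟨L - 1, by omega⟩
              simp
              ring
            rw [h4, pow_add, mul_right_comm, ← mul_pow]
            simp
          calc r ^ (3 * w) * (F₀ * (2 : ℝ) ^ (2 * w))
              ≤ r ^ (3 * w) * ((2 : ℝ) ^ (3 * w * (L - 1)) * (2 : ℝ) ^ (2 * w)) := by gcongr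
            _ = (1 / 2 : ℝ) ^ (3 * w) * (2 : ℝ) ^ (2 * w) := by
                rw [← mul_assoc, h3]
            _ = (1 / 2 : ℝ) ^ w := by
                have h5 : 3 * w = w + 2 * w := by ring
                rw [h5, pow_add, mul_assoc, ← mul_pow]
                simp
  -- conclusion
  calc ∫⁻ x, (ENNReal.ofReal (min (dAff q (PO J O x)) 2))⁻¹ ^ w ∂pr
      ≤ ∫⁻ x, (h x + Kr * t' x) ∂pr := lintegral_mono hpt
    _ = ∫⁻ x, h x ∂pr + Kr * ∫⁻ x, t' x ∂pr := by
        rw [lintegral_add_left hhm, lintegral_const_mul _ ht'm]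
    _ ≤ ENNReal.ofReal (2 ^ w * ((L : ℝ) + 1) * a) + ENNReal.ofReal ((1 / 2 : ℝ) ^ w) := by
        gcongr
    _ = ENNReal.ofReal (2 ^ w * ((L : ℝ) + 1) * a + (1 / 2 : ℝ) ^ w) := by
        rw [ENNReal.ofReal_add (by positivity) (by positivity)]
    _ ≤ ENNReal.ofReal ((2 ^ w * ((L : ℝ) + 1) + 1) * a) := by
        apply ENNReal.ofReal_le_ofReal
        nlinarith

end main

/-- MODULE SEQ. Bands `rho (l+1) < D ≤ rho l`, `l ≤ L`, each contributes `≤ 2^w aLev`. Tail `D ≤ 2^(-L)`:
`∫ D^(-w) dpr ≤ F₀ 2^(-3wL) ∫ D^(-4w) dσ ≤ 2^(3w(L-1)) 2^(-3wL) 2^(2w) = 2^(-w) ≤ aLev`, where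
`D x = dAff q (P x) ≥ hdist Z x`, `Z = O (span (hseq q, q 0) + coordinates outside J)`, `moment_hdist` with `h = 2w`. -/
theorem dAff_integral {k w L : ℕ} (J : Finset (Fin d)) (O : E d ≃ₗᵢ[ℝ] E d) (hw : 1 ≤ w) (hL : 1 ≤ L)
    (f : E d → ℝ) (hf : BddNN f) (hf1 : ∫ s, f s ∂(sphereM d) = 1) {F₀ : ℝ} (hF : ∀ s, f s ≤ F₀)
    (hFL : F₀ ≤ (2 : ℝ) ^ (3 * w * (L - 1))) (q : Fin (k + 1) → E d)
    (hdim : 2 * (k + 1 + (d - J.card)) + 4 * w < d) :
    ∫⁻ x, (ENNReal.ofReal (dAff q (PO J O x)))⁻¹ ^ w ∂(priorM f) ≤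
      ENNReal.ofReal ((2 ^ w * ((L : ℝ) + 1) + 1) * aLev (priorM f) (PO J O) w L q) := by
  refine le_trans (lintegral_mono fun x => ?_) (dAff_min_integral J O q hw hL f hf hf1 hF hFL hdim)
  apply pow_le_pow_left'
  exact ENNReal.inv_le_inv.2 (ENNReal.ofReal_le_ofReal (min_le_left _ _))

section snoc

variable {u : ℕ} (q' : Fin (u + 1) → E d) (y : E d)

lemma hseq_snoc_castSucc (i : Fin (u + 1)) :
    hseq (Fin.snoc (α := fun _ => E d) q' y : Fin (u + 1 + 1) → E d) i.castSucc = hseq q' i := by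
  unfold hseq
  rw [← Fin.castSucc_zero, Fin.snoc_castSucc, Fin.snoc_castSucc]

lemma hseq_snoc_comp :
    hseq (Fin.snoc (α := fun _ => E d) q' y : Fin (u + 1 + 1) → E d) ∘ Fin.castSucc = hseq q' := by
  ext1 i
  exact hseq_snoc_castSucc q' y i

lemma dSeq_snoc_castSucc (j : Fin u) :
    dSeq (Fin.snoc (α := fun _ => E d) q' y : Fin (u + 1 + 1) → E d) j.castSucc = dSeq q' j := by
  unfold dSeq
  have h1 : spanBelow (hseq (Fin.snoc (α := fun _ => E d) q' y : Fin (u + 1 + 1) → E d))
      (((j.castSucc : Fin (u + 1)) : ℕ) + 1) = spanBelow (hseq q') ((j : ℕ) + 1) := by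
    rw [Fin.val_castSucc, spanBelow_castSucc _ (by omega), hseq_snoc_comp]
  rw [h1]
  have h2 : (j.castSucc).succ = (j.succ).castSucc := by
    ext
    simp
  rw [h2, hseq_snoc_castSucc]

lemma dSeq_snoc_last :
    dSeq (Fin.snoc (α := fun _ => E d) q' y : Fin (u + 1 + 1) → E d) (Fin.last u) = dAff q' y := by
  unfold dSeq dAff
  have h1 : spanBelow (hseq (Fin.snoc (α := fun _ => E d) q' y : Fin (u + 1 + 1) → E d))
      (((Fin.last u : Fin (u + 1)) : ℕ) + 1) = Submodule.span ℝ (Set.range (hseq q')) := by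
    rw [Fin.val_last, spanBelow_castSucc _ (by omega), hseq_snoc_comp]
    unfold spanBelow
    congr 1
    ext v
    constructor
    · rintro ⟨i, _, rfl⟩
      exact ⟨i, rfl⟩
    · rintro ⟨i, rfl⟩
      exact ⟨i, by simpa using i.2, rfl⟩
  rw [h1]
  have h2 : hseq (Fin.snoc (α := fun _ => E d) q' y : Fin (u + 1 + 1) → E d) (Fin.last u).succ =
      y - q' 0 := by
    unfold hseq
    rw [Fin.succ_last, Fin.snoc_last, ← Fin.castSucc_zero, Fin.snoc_castSucc]
  rw [h2]

lemma dAff_snoc_le (z : E d) :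
    dAff (Fin.snoc (α := fun _ => E d) q' y : Fin (u + 1 + 1) → E d) z ≤ dAff q' z := by
  unfold dAff
  have h0 : (Fin.snoc (α := fun _ => E d) q' y : Fin (u + 1 + 1) → E d) 0 = q' 0 := by
    rw [← Fin.castSucc_zero, Fin.snoc_castSucc]
  rw [h0]
  apply hdist_mono
  rw [Submodule.span_le]
  rintro _ ⟨i, rfl⟩
  exact Submodule.subset_span ⟨i.castSucc, hseq_snoc_castSucc q' y i⟩

lemma aLev_snoc_ge {w L : ℕ} (pr : Measure (E d)) [IsFiniteMeasure pr] (P : E d → E d) :
    aLev pr P w L q' ≤ aLev pr P w L (Fin.snoc (α := fun _ => E d) q' y : Fin (u + 1 + 1) → E d) := by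
  unfold aLev
  refine max_le_max le_rfl (Finset.sup'_le _ _ fun l hl => ?_)
  refine le_trans ?_ (Finset.le_sup' _ hl)
  refine mul_le_mul_of_nonneg_left ?_ (pow_nonneg (inv_pos.2 (rho_pos l)).le w)
  refine measureReal_mono (fun x hx => ?_) (measure_ne_top _ _)
  exact (dAff_snoc_le q' y (P x)).trans hx

lemma Gtest_factor_pos {δ : ℝ} (hδ : 0 < δ) (t : ℝ) : 0 < max (min t 2) δ :=
  lt_of_lt_of_le hδ (le_max_right _ _)

lemma Gtest_nonneg {w L : ℕ} (pr : Measure (E d)) [IsFiniteMeasure pr] (P : E d → E d) {δ : ℝ}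
    (hδ : 0 < δ) (q : Fin (u + 1) → E d) : 0 ≤ Gtest pr P w L δ q := by
  unfold Gtest
  apply mul_nonneg
  · exact Finset.prod_nonneg fun j _ => pow_nonneg (inv_pos.2 (Gtest_factor_pos hδ _)).le w
  · exact pow_nonneg (inv_pos.2 (aLev_pos pr P q)).le u

lemma Gtest_snoc_le {w L : ℕ} (pr : Measure (E d)) [IsFiniteMeasure pr] (P : E d → E d) {δ : ℝ}
    (hδ : 0 < δ) :
    Gtest pr P w L δ (Fin.snoc (α := fun _ => E d) q' y : Fin (u + 1 + 1) → E d) ≤
      Gtest pr P w L δ q' * ((max (min (dAff q' y) 2) δ)⁻¹) ^ w * (aLev pr P w L q')⁻¹ := by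
  unfold Gtest
  rw [Fin.prod_univ_castSucc]
  simp_rw [dSeq_snoc_castSucc, dSeq_snoc_last]
  set A := ∏ j : Fin u, ((max (min (dSeq q' j) 2) δ)⁻¹) ^ w with hA
  set B := ((max (min (dAff q' y) 2) δ)⁻¹) ^ w with hB
  have hA0 : 0 ≤ A := Finset.prod_nonneg fun j _ => pow_nonneg (inv_pos.2 (Gtest_factor_pos hδ _)).le w
  have hB0 : 0 ≤ B := pow_nonneg (inv_pos.2 (Gtest_factor_pos hδ _)).le w
  have ha := aLev_pos (w := w) (L := L) pr P q'
  have h1 : (aLev pr P w L (Fin.snoc (α := fun _ => E d) q' y : Fin (u + 1 + 1) → E d))⁻¹ ^ (u + 1) ≤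
      (aLev pr P w L q')⁻¹ ^ (u + 1) := by
    apply pow_le_pow_left₀ (inv_pos.2 (aLev_pos pr P _)).le
    exact inv_anti₀ ha (aLev_snoc_ge q' y pr P)
  calc A * B * (aLev pr P w L (Fin.snoc (α := fun _ => E d) q' y : Fin (u + 1 + 1) → E d))⁻¹ ^ (u + 1)
      ≤ A * B * (aLev pr P w L q')⁻¹ ^ (u + 1) := by gcongr
    _ = A * (aLev pr P w L q')⁻¹ ^ u * B * (aLev pr P w L q')⁻¹ := by ring

lemma comp_snoc (P : E d → E d) (s' : Fin (u + 1) → E d) (x : E d) :
    (fun j => P ((Fin.snoc (α := fun _ => E d) s' x : Fin (u + 1 + 1) → E d) j)) =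
      (Fin.snoc (α := fun _ => E d) (fun j => P (s' j)) (P x) : Fin (u + 1 + 1) → E d) := by
  ext1 j
  refine Fin.lastCases ?_ (fun i => ?_) j
  · simp
  · simp

end snoc

/-- The total mass of the test function: integrate the replicas one at a time from the last one,
`aLev` is monotone along the tuple, `lintegral_pi_snoc_le`, `dAff_integral`. -/
theorem Gtest_integral {u w L : ℕ} (J : Finset (Fin d)) (O : E d ≃ₗᵢ[ℝ] E d) (hw : 1 ≤ w) (hL : 1 ≤ L)
    (f : E d → ℝ) (hf : BddNN f) (hf1 : ∫ s, f s ∂(sphereM d) = 1) {F₀ : ℝ} (hF : ∀ s, f s ≤ F₀)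
    (hFL : F₀ ≤ (2 : ℝ) ^ (3 * w * (L - 1))) {δ : ℝ} (hδ : 0 < δ) (hδ2 : δ ≤ 2)
    (hdim : 2 * (u + 1 + (d - J.card)) + 4 * w < d) :
    ∫⁻ s, ENNReal.ofReal (Gtest (priorM f) (PO J O) w L δ fun j => PO J O (s j))
        ∂(Measure.pi fun _ : Fin (u + 1) => priorM f) ≤
      ENNReal.ofReal ((2 ^ w * ((L : ℝ) + 1) + 1) ^ u) := by
  have hprob := priorM_isProb hf hf1
  set pr := priorM f with hpr
  induction u with
  | zero =>
    have h1 : ∀ s : Fin (0 + 1) → E d, Gtest pr (PO J O) w L δ (fun j => PO J O (s j)) = 1 := by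
      intro s
      simp [Gtest]
    simp_rw [h1]
    simp
  | succ u ih =>
    have hih := ih (by omega)
    refine (lintegral_pi_snoc_le pr (u + 1) _).trans ?_
    set C : ℝ := 2 ^ w * ((L : ℝ) + 1) + 1 with hC
    have hC0 : 0 ≤ C := by positivity
    have hstep : ∀ s' : Fin (u + 1) → E d,
        ∫⁻ x, ENNReal.ofReal (Gtest pr (PO J O) w L δ fun j =>
            PO J O ((Fin.snoc (α := fun _ => E d) s' x : Fin (u + 1 + 1) → E d) j)) ∂pr ≤
          ENNReal.ofReal (Gtest pr (PO J O) w L δ (fun j => PO J O (s' j))) * ENNReal.ofReal C := by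
      intro s'
      set q' : Fin (u + 1) → E d := fun j => PO J O (s' j) with hq'
      set a := aLev pr (PO J O) w L q' with ha
      have ha0 : 0 < a := aLev_pos pr (PO J O) q'
      set G := Gtest pr (PO J O) w L δ q' with hG
      have hG0 : 0 ≤ G := Gtest_nonneg pr (PO J O) hδ q'
      have hpt : ∀ x, ENNReal.ofReal (Gtest pr (PO J O) w L δ fun j =>
            PO J O ((Fin.snoc (α := fun _ => E d) s' x : Fin (u + 1 + 1) → E d) j)) ≤
          (ENNReal.ofReal G * ENNReal.ofReal a⁻¹) *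
            (ENNReal.ofReal (min (dAff q' (PO J O x)) 2))⁻¹ ^ w := by
        intro x
        rw [comp_snoc]
        have h1 := Gtest_snoc_le (w := w) (L := L) q' (PO J O x) pr (PO J O) hδ
        refine (ENNReal.ofReal_le_ofReal h1).trans ?_
        have hpos := Gtest_factor_pos hδ (dAff q' (PO J O x))
        rw [mul_right_comm, ENNReal.ofReal_mul (mul_nonneg hG0 (inv_pos.2 ha0).le),
          ENNReal.ofReal_mul hG0]
        gcongr
        rw [ENNReal.ofReal_pow (inv_pos.2 hpos).le, ENNReal.ofReal_inv_of_pos hpos]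
        apply pow_le_pow_left'
        exact ENNReal.inv_le_inv.2 (ENNReal.ofReal_le_ofReal (le_max_left _ _))
      have hfin : ENNReal.ofReal G * ENNReal.ofReal a⁻¹ ≠ ∞ :=
        ENNReal.mul_ne_top ENNReal.ofReal_ne_top ENNReal.ofReal_ne_top
      calc _ ≤ ∫⁻ x, (ENNReal.ofReal G * ENNReal.ofReal a⁻¹) *
            (ENNReal.ofReal (min (dAff q' (PO J O x)) 2))⁻¹ ^ w ∂pr := lintegral_mono hpt
        _ = (ENNReal.ofReal G * ENNReal.ofReal a⁻¹) *
            ∫⁻ x, (ENNReal.ofReal (min (dAff q' (PO J O x)) 2))⁻¹ ^ w ∂pr :=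
            lintegral_const_mul' _ _ hfin
        _ ≤ (ENNReal.ofReal G * ENNReal.ofReal a⁻¹) * ENNReal.ofReal (C * a) := by
            gcongr
            exact dAff_min_integral J O q' hw hL f hf hf1 hF hFL (by omega)
        _ = ENNReal.ofReal G * ENNReal.ofReal C := by
            rw [ENNReal.ofReal_mul hC0, mul_assoc, ← mul_assoc (ENNReal.ofReal a⁻¹),
              mul_comm (ENNReal.ofReal a⁻¹), mul_assoc (ENNReal.ofReal C),
              ← ENNReal.ofReal_mul (inv_pos.2 ha0).le, inv_mul_cancel₀ ha0.ne']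
            simp
    calc _ ≤ ∫⁻ s', ENNReal.ofReal (Gtest pr (PO J O) w L δ (fun j => PO J O (s' j))) *
          ENNReal.ofReal C ∂(Measure.pi fun _ : Fin (u + 1) => pr) := lintegral_mono hstep
      _ = (∫⁻ s', ENNReal.ofReal (Gtest pr (PO J O) w L δ (fun j => PO J O (s' j)))
            ∂(Measure.pi fun _ : Fin (u + 1) => pr)) * ENNReal.ofReal C :=
          lintegral_mul_const' _ _ ENNReal.ofReal_ne_top
      _ ≤ ENNReal.ofReal (C ^ u) * ENNReal.ofReal C := by
          gcongr
      _ = ENNReal.ofReal (C ^ (u + 1)) := by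
          rw [← ENNReal.ofReal_mul (by positivity), pow_succ]

/-- Bounds, measurability and the dependence through the coordinates. -/
theorem Gtest_bounds {u w L : ℕ} (pr : Measure (E d)) [IsProbabilityMeasure pr]
    (P : E d → E d) {δ : ℝ} (hδ : 0 < δ) (hδ2 : δ ≤ 2) (q : Fin (u + 1) → E d) :
    ((1 / 2 : ℝ)) ^ (w * u) * ((rho L) ^ w) ^ u ≤ Gtest pr P w L δ q ∧
      Gtest pr P w L δ q ≤ (δ⁻¹) ^ (w * u) * ((2 : ℝ) ^ w) ^ u := by
  have ha0 := aLev_pos (w := w) (L := L) pr P q
  unfold Gtest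
  constructor
  · apply mul_le_mul
    · have h1 : ∀ j : Fin u, (1 / 2 : ℝ) ^ w ≤ ((max (min (dSeq q j) 2) δ)⁻¹) ^ w := by
        intro j
        apply pow_le_pow_left₀ (by norm_num)
        rw [one_div]
        apply inv_anti₀ (Gtest_factor_pos hδ _)
        exact max_le (min_le_right _ _) hδ2
      calc (1 / 2 : ℝ) ^ (w * u) = ∏ _j : Fin u, (1 / 2 : ℝ) ^ w := by
            simp [pow_mul]
        _ ≤ _ := Finset.prod_le_prod (fun _ _ => by positivity) fun j _ => h1 j
    · apply pow_le_pow_left₀ (pow_nonneg (rho_pos L).le w)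
      rw [← inv_inv ((rho L) ^ w)]
      apply inv_anti₀ ha0
      have h2 : aLev pr P w L q ≤ (rho L)⁻¹ ^ w := by
        apply max_le
        · apply pow_le_pow_left₀ (inv_pos.2 (rho_pos 0)).le
          exact inv_anti₀ (rho_pos L) (rho_anti (Nat.zero_le L))
        · apply Finset.sup'_le
          intro l hl
          have hl' : l ≤ L := Nat.lt_succ_iff.1 (Finset.mem_range.1 hl)
          have h3 : pr.real {x | dAff q (P x) ≤ rho l} ≤ 1 := measureReal_le_one
          have h4 : (rho l)⁻¹ ≤ (rho L)⁻¹ := inv_anti₀ (rho_pos L) (rho_anti hl')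
          calc (rho l)⁻¹ ^ w * pr.real {x | dAff q (P x) ≤ rho l}
              ≤ (rho L)⁻¹ ^ w * 1 := by
                apply mul_le_mul (pow_le_pow_left₀ (inv_pos.2 (rho_pos l)).le h4 w) h3
                  measureReal_nonneg (by have := rho_pos L; positivity)
            _ = _ := mul_one _
      rwa [inv_pow] at h2
    · exact pow_nonneg (pow_nonneg (rho_pos L).le w) u
    · exact Finset.prod_nonneg fun j _ => pow_nonneg (inv_pos.2 (Gtest_factor_pos hδ _)).le w
  · apply mul_le_mul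
    · have h1 : ∀ j : Fin u, ((max (min (dSeq q j) 2) δ)⁻¹) ^ w ≤ (δ⁻¹) ^ w := by
        intro j
        apply pow_le_pow_left₀ (inv_pos.2 (Gtest_factor_pos hδ _)).le
        exact inv_anti₀ hδ (le_max_right _ _)
      calc _ ≤ ∏ _j : Fin u, (δ⁻¹) ^ w :=
            Finset.prod_le_prod (fun j _ => pow_nonneg (inv_pos.2 (Gtest_factor_pos hδ _)).le w)
              fun j _ => h1 j
        _ = _ := by simp [pow_mul]
    · apply pow_le_pow_left₀ (inv_pos.2 ha0).le
      have h2 := aLev_ge_triv (w := w) (L := L) pr P q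
      rw [rho_zero] at h2
      have h3 : (2 : ℝ) ^ w = ((2 : ℝ)⁻¹ ^ w)⁻¹ := by
        rw [inv_pow, inv_inv]
      rw [h3]
      exact inv_anti₀ (by positivity) h2
    · exact pow_nonneg (inv_pos.2 ha0).le u
    · exact pow_nonneg (by have := inv_pos.2 hδ; positivity) _

lemma measurableSet_dAff_le {u : ℕ} (P : E d → E d) (hP : Measurable P) (r : ℝ) :
    MeasurableSet {p : (Fin (u + 1) → E d) × E d | dAff p.1 (P p.2) ≤ r} := by
  have h2 := measurable_dAff (d := d) (u := u)
  have h0 : Measurable (fun p : (Fin (u + 1) → E d) × E d => (p.1, P p.2)) := by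
    apply Measurable.prodMk measurable_fst
    exact hP.comp measurable_snd
  have h1 : Measurable ((fun p : (Fin (u + 1) → E d) × E d => dAff p.1 p.2) ∘
      (fun p : (Fin (u + 1) → E d) × E d => (p.1, P p.2))) :=
    h2.comp h0
  exact measurableSet_le h1 measurable_const

theorem measurable_aLev_PO {u w L : ℕ} (pr : Measure (E d)) [IsFiniteMeasure pr]
    (P : E d → E d) (hP : Measurable P) :
    Measurable fun q : Fin (u + 1) → E d => aLev pr P w L q := by
  unfold aLev
  apply Measurable.max measurable_const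
  have h1 : (fun q : Fin (u + 1) → E d => (Finset.range (L + 1)).sup' Finset.nonempty_range_add_one
      fun l => ((rho l)⁻¹) ^ w * pr.real {x | dAff q (P x) ≤ rho l}) =
      (Finset.range (L + 1)).sup' Finset.nonempty_range_add_one
        (fun l (q : Fin (u + 1) → E d) => ((rho l)⁻¹) ^ w * pr.real {x | dAff q (P x) ≤ rho l}) := by
    ext q
    rw [Finset.sup'_apply]
  rw [h1]
  apply Finset.measurable_sup'
  intro l _
  apply Measurable.const_mul
  have hS : MeasurableSet {p : (Fin (u + 1) → E d) × E d | dAff p.1 (P p.2) ≤ rho l} :=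
    measurableSet_dAff_le P hP (rho l)
  have := measurable_measure_prodMk_left (ν := pr) hS
  exact this.ennreal_toReal

theorem measurable_Gtest {u w L : ℕ} (pr : Measure (E d)) [IsFiniteMeasure pr]
    (J : Finset (Fin d)) (O : E d ≃ₗᵢ[ℝ] E d) (δ : ℝ) :
    Measurable fun q : Fin (u + 1) → E d => Gtest pr (PO J O) w L δ q := by
  unfold Gtest
  apply Measurable.mul
  · apply Finset.measurable_prod
    intro j _
    exact (((measurable_dSeq j).min measurable_const).max measurable_const).inv.pow_const _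
  · exact ((measurable_aLev_PO pr (PO J O) (PO J O).continuous.measurable).inv).pow_const _

end Vale.Agent.P309F
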