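import Vale.Agent.P309F.SeqA

open MeasureTheory ProbabilityTheory Real Set Filter Topology
open scoped RealInnerProductSpace ENNReal

namespace Vale.Agent.P309F
open Vale.Agent.P309

variable {d : ℕ}

/-- the distance under a linear contraction -/
lemma hdist_map_le (T : E d →L[ℝ] E d) (hT : ∀ x, ‖T x‖ ≤ ‖x‖) (W : Submodule ℝ (E d)) (y : E d) :
    hdist (W.map T.toLinearMap) (T y) ≤ hdist W y := by
  have h1 : T (W.starProjection y) ∈ W.map T.toLinearMap :=
    Submodule.mem_map_of_mem (Submodule.starProjection_apply_mem W y)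
  refine (hdist_le_of_mem _ _ _ h1).trans ?_
  rw [← map_sub]
  exact hT _

/-- the coordinate projection is a contraction -/
lemma norm_coordP_le (J : Finset (Fin d)) (x : E d) : ‖coordP J x‖ ≤ ‖x‖ := by
  rw [EuclideanSpace.norm_eq, EuclideanSpace.norm_eq]
  apply Real.sqrt_le_sqrt
  apply Finset.sum_le_sum
  intro i _
  rw [coordP_apply]
  split_ifs
  · exact le_rfl
  · simp only [norm_zero, ne_eq, OfNat.ofNat_ne_zero, not_false_eq_true, zero_pow]
    positivity

lemma norm_PO_le (J : Finset (Fin d)) (O : E d ≃ₗᵢ[ℝ] E d) (x : E d) : ‖PO J O x‖ ≤ ‖x‖ := by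
  have h := norm_coordP_le J (O.symm x)
  rwa [O.symm.norm_map] at h

lemma hseq_PO {u : ℕ} (J : Finset (Fin d)) (O : E d ≃ₗᵢ[ℝ] E d) (s : Fin (u + 1) → E d) :
    hseq (fun i => PO J O (s i)) = fun i => PO J O (hseq s i) := by
  funext i
  simp [hseq, map_sub]

/-- `dAff` decreases under the contraction -/
lemma dAff_PO_le {u : ℕ} (J : Finset (Fin d)) (O : E d ≃ₗᵢ[ℝ] E d) (s : Fin (u + 1) → E d) (x : E d) :
    dAff (fun i => PO J O (s i)) (PO J O x) ≤ dAff s x := by
  unfold dAff
  have h1 : Submodule.span ℝ (Set.range (hseq fun i => PO J O (s i))) =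
      (Submodule.span ℝ (Set.range (hseq s))).map (PO J O).toLinearMap := by
    rw [Submodule.map_span, hseq_PO, ← Set.range_comp]
    rfl
  rw [h1]
  have h2 : PO J O x - PO J O (s 0) = PO J O (x - s 0) := by simp [map_sub]
  rw [h2]
  exact hdist_map_le (PO J O) (norm_PO_le J O) _ _


/-- Markov's inequality at one level -/
lemma level_le (pr : Measure (E d)) (D : E d → ℝ) (hD : Measurable D) (w : ℕ) {r : ℝ} (hr : 0 < r) :
    ENNReal.ofReal (((r)⁻¹) ^ w * pr.real {x | D x ≤ r}) ≤
      ∫⁻ x, (ENNReal.ofReal (D x))⁻¹ ^ w ∂pr := by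
  by_cases hfin : pr {x | D x ≤ r} = ∞
  · have hle : pr {x | D x ≤ r} ≤ pr {x | (ENNReal.ofReal r)⁻¹ ^ w ≤ (ENNReal.ofReal (D x))⁻¹ ^ w} := by
      apply measure_mono
      intro x hx
      exact pow_le_pow_left' (ENNReal.inv_le_inv.2 (ENNReal.ofReal_le_ofReal hx)) w
    have h := mul_meas_ge_le_lintegral (μ := pr)
      (f := fun x => (ENNReal.ofReal (D x))⁻¹ ^ w)
      (by fun_prop) ((ENNReal.ofReal r)⁻¹ ^ w)
    have hpos : (ENNReal.ofReal r)⁻¹ ^ w ≠ 0 := by
      apply pow_ne_zero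
      exact ENNReal.inv_ne_zero.2 ENNReal.ofReal_ne_top
    have h3 : pr {x | (ENNReal.ofReal r)⁻¹ ^ w ≤ (ENNReal.ofReal (D x))⁻¹ ^ w} = ∞ := top_le_iff.1 (hfin ▸ hle)
    rw [h3, ENNReal.mul_top hpos] at h
    exact le_trans le_top h
  · have h := mul_meas_ge_le_lintegral (μ := pr)
      (f := fun x => (ENNReal.ofReal (D x))⁻¹ ^ w)
      (by fun_prop) ((ENNReal.ofReal r)⁻¹ ^ w)
    refine le_trans ?_ h
    have e : ENNReal.ofReal (((r)⁻¹) ^ w * pr.real {x | D x ≤ r}) =
        (ENNReal.ofReal r)⁻¹ ^ w * pr {x | D x ≤ r} := by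
      rw [ENNReal.ofReal_mul (by positivity), ENNReal.ofReal_pow (by positivity),
        ENNReal.ofReal_inv_of_pos hr, Measure.real, ENNReal.ofReal_toReal hfin]
    rw [e]
    gcongr
    intro hx
    exact pow_le_pow_left' (ENNReal.inv_le_inv.2 (ENNReal.ofReal_le_ofReal hx)) w

/-- the whole level function is bounded by the negative moment -/
lemma aLev_le_lintegral {u w L : ℕ} (pr : Measure (E d)) [IsProbabilityMeasure pr] (P : E d → E d)
    (q : Fin (u + 1) → E d) (hD : Measurable fun x => dAff q (P x))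
    (h2 : ∀ᵐ x ∂pr, dAff q (P x) ≤ rho 0) :
    ENNReal.ofReal (aLev pr P w L q) ≤ ∫⁻ x, (ENNReal.ofReal (dAff q (P x)))⁻¹ ^ w ∂pr := by
  have hrho : ∀ l, 0 < rho l := fun l => by unfold rho; positivity
  have hl : ∀ l, ENNReal.ofReal (((rho l)⁻¹) ^ w * pr.real {x | dAff q (P x) ≤ rho l}) ≤
      ∫⁻ x, (ENNReal.ofReal (dAff q (P x)))⁻¹ ^ w ∂pr :=
    fun l => level_le pr _ hD w (hrho l)
  rw [aLev, ENNReal.ofReal_max]
  apply max_le
  · have h0 := hl 0
    have hone : pr.real {x | dAff q (P x) ≤ rho 0} = 1 := by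
      have h1 : pr {x | dAff q (P x) ≤ rho 0} = 1 := by
        rw [← measure_univ (μ := pr)]
        exact measure_congr (Filter.eventuallyEq_univ.2 h2)
      rw [Measure.real, h1]
      rfl
    rwa [hone, mul_one] at h0
  · obtain ⟨l, hl1, hl2⟩ := Finset.exists_mem_eq_sup' (Finset.nonempty_range_add_one (n := L))
      (fun l => ((rho l)⁻¹) ^ w * pr.real {x | dAff q (P x) ≤ rho l})
    rw [hl2]
    exact hl l

/-- A contraction only enlarges the level function; needs only `hdist` under a linear contraction. -/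
theorem aLev_le_proj {u w L : ℕ} (pr : Measure (E d)) [IsFiniteMeasure pr] (J : Finset (Fin d))
    (O : E d ≃ₗᵢ[ℝ] E d) (s : Fin (u + 1) → E d) :
    aLev pr id w L s ≤ aLev pr (PO J O) w L fun j => PO J O (s j) := by
  unfold aLev
  apply max_le_max le_rfl
  apply Finset.sup'_mono_fun
  intro l _
  apply mul_le_mul_of_nonneg_left _ (by unfold rho; positivity)
  apply measureReal_mono _ (measure_ne_top _ _)
  intro x hx
  exact (dAff_PO_le J O s x).trans hx

/-- `dSeq` decreases under the contraction. -/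
theorem dSeq_proj_le {u : ℕ} (J : Finset (Fin d)) (O : E d ≃ₗᵢ[ℝ] E d) (s : Fin (u + 1) → E d)
    (j : Fin u) : dSeq (fun i => PO J O (s i)) j ≤ dSeq s j := by
  unfold dSeq
  have h1 : spanBelow (hseq fun i => PO J O (s i)) ((j : ℕ) + 1) =
      (spanBelow (hseq s) ((j : ℕ) + 1)).map (PO J O).toLinearMap := by
    unfold spanBelow
    rw [Submodule.map_span, hseq_PO, ← Set.image_comp]
    rfl
  rw [h1, hseq_PO]
  exact hdist_map_le (PO J O) (norm_PO_le J O) _ _

/-- the level function from the measurability of the sets -/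
lemma measurable_aLev_aux {X : Type*} [MeasurableSpace X] {w L : ℕ} (pr : Measure (E d))
    [IsFiniteMeasure pr] (D : X → E d → ℝ) (hD : Measurable (Function.uncurry D))
    (g : X → ℝ) (hg : ∀ p, g p = max (((rho 0)⁻¹) ^ w) ((Finset.range (L + 1)).sup'
      Finset.nonempty_range_add_one fun l =>
        ((rho l)⁻¹) ^ w * pr.real {x | D p x ≤ rho l})) :
    Measurable g := by
  have h1 : ∀ l, Measurable fun p : X => pr.real {x | D p x ≤ rho l} := by
    intro l
    have hS : MeasurableSet {q : X × E d | D q.1 q.2 ≤ rho l} :=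
      measurableSet_le hD measurable_const
    have h2 := measurable_measure_prodMk_left (ν := pr) hS
    exact h2.ennreal_toReal
  have h3 : Measurable fun p : X => (Finset.range (L + 1)).sup'
      Finset.nonempty_range_add_one fun l =>
        ((rho l)⁻¹) ^ w * pr.real {x | D p x ≤ rho l} := by
    exact Finset.measurable_range_sup'' (f := fun (l : ℕ) (p : X) =>
        ((rho l)⁻¹) ^ w * pr.real {x | D p x ≤ rho l}) (n := L) (fun l _ => (h1 l).const_mul _)
  have : g = fun p => max (((rho 0)⁻¹) ^ w) ((Finset.range (L + 1)).sup'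
      Finset.nonempty_range_add_one fun l =>
        ((rho l)⁻¹) ^ w * pr.real {x | D p x ≤ rho l}) := funext hg
  rw [this]
  exact measurable_const.max h3

/-- joint measurability for a tuple, for an abstract family of maps -/
lemma meas_tuple {Ω : Type*} [MeasurableSpace Ω] {n : ℕ} (P : Ω → E d → E d)
    (hP : Measurable fun q : Ω × E d => P q.1 q.2) :
    Measurable fun q : (Ω × (Fin n → E d)) × E d =>
      ((fun j => P q.1.1 (q.1.2 j)), P q.1.1 q.2) := by
  refine Measurable.prodMk (measurable_pi_lambda _ fun j => ?_) ?_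
  · have hg : Measurable fun q : (Ω × (Fin n → E d)) × E d => (q.1.1, q.1.2 j) := by
      fun_prop
    exact hP.comp hg
  · have hg : Measurable fun q : (Ω × (Fin n → E d)) × E d => (q.1.1, q.2) := by
      fun_prop
    exact hP.comp hg

lemma measurable_aLev_gen {Ω : Type*} [MeasurableSpace Ω] {u w L : ℕ} (pr : Measure (E d))
    [IsFiniteMeasure pr] (P : Ω → E d → E d) (hP : Measurable fun q : Ω × E d => P q.1 q.2) :
    Measurable fun p : Ω × (Fin (u + 1) → E d) => aLev pr (P p.1) w L fun j => P p.1 (p.2 j) := by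
  have h1 := meas_tuple (n := u + 1) P hP
  have h2 : Measurable (Function.uncurry fun (p : Ω × (Fin (u + 1) → E d)) (x : E d) =>
      dAff (fun j => P p.1 (p.2 j)) (P p.1 x)) := by
    have h3 := (measurable_dAff (d := d) (u := u)).comp h1
    exact h3
  have h4 := measurable_aLev_aux (w := w) (L := L) pr _ h2
  apply h4
  intro p
  show aLev pr (P p.1) w L (fun j => P p.1 (p.2 j)) = _
  rw [aLev]

/-- the rotated projection is jointly measurable -/
lemma measurable_PO_rot (𝓡 : RotModel d) (J : Finset (Fin d)) :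
    Measurable fun q : 𝓡.Ω × E d => PO J (𝓡.act q.1) q.2 := by
  have hc : Measurable (coordP J) := (coordP J).continuous.measurable
  simp only [PO_apply]
  exact hc.comp 𝓡.meas_symm

theorem measurable_aLev_rot {u w L : ℕ} (𝓡 : RotModel d) (pr : Measure (E d)) [IsFiniteMeasure pr]
    (J : Finset (Fin d)) :
    Measurable fun p : 𝓡.Ω × (Fin (u + 1) → E d) =>
      aLev pr (PO J (𝓡.act p.1)) w L fun j => PO J (𝓡.act p.1) (p.2 j) :=
  measurable_aLev_gen pr (fun R => PO J (𝓡.act R)) (measurable_PO_rot 𝓡 J)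

theorem measurable_aLev_id {u w L : ℕ} (pr : Measure (E d)) [IsFiniteMeasure pr] :
    Measurable fun s : Fin (u + 1) → E d => aLev pr id w L s := by
  have h4 := measurable_aLev_aux (w := w) (L := L) pr (fun s x => dAff s x)
    (measurable_dAff (d := d) (u := u))
  apply h4
  intro p
  rw [aLev]
  rfl


/-- `PO univ refl` is the identity -/
lemma PO_univ_refl (x : E d) : PO Finset.univ (LinearIsometryEquiv.refl ℝ (E d)) x = x := by
  rw [PO_apply]
  ext i
  rw [coordP_apply]
  simp only [Finset.mem_univ, if_true]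
  rfl

/-- the pointwise bound for a contraction -/
lemma pt_bound {u : ℕ} (pr : Measure (E d)) [IsProbabilityMeasure pr]
    (hae : ∀ᵐ x ∂pr, ‖x‖ = 1) (T : E d →L[ℝ] E d) (hT : ∀ x, ‖T x‖ ≤ ‖x‖) (s : Fin (u + 1) → E d)
    (hs : ‖s 0‖ = 1) (w L : ℕ) :
    ENNReal.ofReal (aLev pr T w L fun j => T (s j)) ≤
      ∫⁻ x, (ENNReal.ofReal (dAff (fun j => T (s j)) (T x)))⁻¹ ^ w ∂pr := by
  apply aLev_le_lintegral
  · have h1 : Measurable T := T.continuous.measurable
    have h2 : Measurable fun x : E d => ((fun j => T (s j)), T x) :=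
      measurable_const.prodMk h1
    have h3 := (measurable_dAff (d := d) (u := u)).comp h2
    exact h3
  · filter_upwards [hae] with x hx
    refine (hdist_le_of_mem _ _ _ (Submodule.zero_mem _)).trans ?_
    rw [sub_zero, ← map_sub]
    refine (hT _).trans ?_
    refine (norm_sub_le _ _).trans ?_
    rw [hx, hs]
    unfold rho
    norm_num

/-- joint measurability of the integrand -/
lemma meas_joint {Ω : Type*} [MeasurableSpace Ω] {u : ℕ} (P : Ω → E d → E d)
    (hP : Measurable fun q : Ω × E d => P q.1 q.2) (s : Fin (u + 1) → E d) (w : ℕ) :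
    Measurable fun q : Ω × E d =>
      (ENNReal.ofReal (dAff (fun j => P q.1 (s j)) (P q.1 q.2)))⁻¹ ^ w := by
  have h1 := meas_tuple (n := u + 1) P hP
  have h2 : Measurable fun q : Ω × E d => ((q.1, s), q.2) := by fun_prop
  have h3 : Measurable fun q : Ω × E d => dAff (fun j => P q.1 (s j)) (P q.1 q.2) := by
    have h4 := (measurable_dAff (d := d) (u := u)).comp h1
    have h5 := h4.comp h2
    exact h5
  exact (h3.ennreal_ofReal.inv).pow_const w

/-- the arithmetic of the constants -/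
lemma theta_arith (a L : ℕ) {A : ℝ} :
    2 ^ a * ENNReal.ofReal ((2 ^ (2 * a) * ((L : ℝ) + 1) + 1) * A) =
      ENNReal.ofReal ((2 : ℝ) ^ a * (2 ^ (2 * a) * ((L : ℝ) + 1) + 1) * A) := by
  rw [mul_assoc ((2 : ℝ) ^ a), ENNReal.ofReal_mul (p := (2 : ℝ) ^ a) (by positivity),
    ENNReal.ofReal_pow (by norm_num)]
  norm_num

/-- MODULE THETA. `aLev pr P` is bounded by the integral of `D^(-w)`, Tonelli, `proj_moment`, then `dAff_integral` for `P = id`
(`J = univ`, `O = refl`, and `PO univ refl = id`). -/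
theorem theta_average {u a L : ℕ} (𝓡 : RotModel d) (J : Finset (Fin d)) (ha : 1 ≤ a) (hL : 1 ≤ L)
    (f : E d → ℝ) (hf : BddNN f) (hf1 : ∫ s, f s ∂(sphereM d) = 1) {F₀ : ℝ} (hF : ∀ s, f s ≤ F₀)
    (hFL : F₀ ≤ (2 : ℝ) ^ (3 * (2 * a) * (L - 1)))
    (hdim : d + 2 * u + 2 * a ≤ 2 * J.card) (hd : 2 * a + u < J.card)
    (hdim2 : 2 * (u + 1) + 4 * (2 * a) < d) (s : Fin (u + 1) → E d) (hs : ‖s 0‖ = 1) :
    ∫⁻ R, ENNReal.ofReal (aLev (priorM f) (PO J (𝓡.act R)) (2 * a) L fun j => PO J (𝓡.act R) (s j))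
        ∂𝓡.ϖ ≤
      ENNReal.ofReal ((2 : ℝ) ^ a * (2 ^ (2 * a) * ((L : ℝ) + 1) + 1) * aLev (priorM f) id (2 * a) L s) := by
  have hd0 : 0 < d := by omega
  have hprob := priorM_isProb hf hf1
  have hP := measurable_PO_rot 𝓡 J
  refine (lintegral_mono fun R => pt_bound (priorM f) (priorM_ae_unit hd0 f) (PO J (𝓡.act R))
    (norm_PO_le J _) s hs (2 * a) L).trans ?_
  have hjoint := meas_joint (fun R => PO J (𝓡.act R)) hP s (2 * a)
  rw [lintegral_lintegral_swap (f := fun R x =>
      (ENNReal.ofReal (dAff (fun j => PO J (𝓡.act R) (s j)) (PO J (𝓡.act R) x)))⁻¹ ^ (2 * a))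
      hjoint.aemeasurable]
  refine (lintegral_mono fun x => proj_moment 𝓡 J ha hdim hd s x).trans ?_
  rw [lintegral_const_mul' _ _ (by simp)]
  have h3 := dAff_integral (k := u) (w := 2 * a) Finset.univ (LinearIsometryEquiv.refl ℝ (E d))
    (by omega) hL f hf hf1 hF hFL s (by simpa using hdim2)
  simp only [PO_univ_refl] at h3
  rw [← theta_arith a L]
  gcongr
  refine h3.trans (le_of_eq ?_)
  congr 3
  funext x
  exact PO_univ_refl x

end Vale.Agent.P309F
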