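import Vale.Agent.P309F.WinCellB

open MeasureTheory ProbabilityTheory Real Set Filter Topology
open scoped RealInnerProductSpace ENNReal

namespace Vale.Agent.P309F
open Vale.Agent.P309

variable {d : ℕ}

/-- The product of the replica density with `log θ` is integrable. -/
lemma integrable_F_log_theta (𝓡 : RotModel d) {a L : ℕ} (ha : 1 ≤ a) (J : Finset (Fin d)) (n : ℕ)
    (f : E d → ℝ) (hf : BddNN f) (hf1 : ∫ s, f s ∂(sphereM d) = 1) (hd : 0 < d) (R : 𝓡.Ω) :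
    Integrable (fun s => Fn (w := 2 * a) (priorM f) n L (Kc a L) (√32) s *
        log (thetaR 𝓡 a L J (priorM f) R s)) (Measure.pi fun _ : Fin (2 * a + 1) => priorM f) := by
  haveI := priorM_isProb hf hf1
  have hK := Kc_pos ha L
  have hFm : Measurable (Fn (w := 2 * a) (u := 2 * a) (priorM f) n L (Kc a L) (√32)) :=
    measurable_Fn n L f hf (√32)
  have hF0 : ∀ s : Fin (2 * a + 1) → E d, 0 ≤ Fn (w := 2 * a) (priorM f) n L (Kc a L) (√32) s :=
    fun s => (Fn_bounds n L f hf hd hK s).1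
  set B : ℝ := ((tauG d (2 * a) n (Kc a L) (√32))⁻¹) ^ (2 * a) with hB
  have hFB : ∀ s : Fin (2 * a + 1) → E d, Fn (w := 2 * a) (priorM f) n L (Kc a L) (√32) s ≤ B :=
    fun s => (Fn_bounds n L f hf hd hK s).2
  have hB0 : 0 ≤ B := (hF0 (fun _ => 0)).trans (hFB _)
  have hTm : Measurable fun s : Fin (2 * a + 1) → E d => log (thetaR 𝓡 a L J (priorM f) R s) := by
    have h0 : Measurable fun s : Fin (2 * a + 1) → E d => (R, s) :=
      measurable_const.prodMk measurable_id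
    have h1 := (measurable_thetaR_pair (u := 2 * a) 𝓡 a L J (priorM f)).comp h0
    exact Real.measurable_log.comp h1
  have hT0 : ∀ s : Fin (2 * a + 1) → E d, 0 ≤ log (thetaR 𝓡 a L J (priorM f) R s) := fun s =>
    Real.log_nonneg (one_le_thetaR 𝓡 a L J (priorM f) R s)
  set Tm : ℝ := log (((rho L)⁻¹) ^ (2 * a) * 2 ^ (2 * a)) with hTm'
  have hTle : ∀ s : Fin (2 * a + 1) → E d, log (thetaR 𝓡 a L J (priorM f) R s) ≤ Tm := fun s =>
    Real.log_le_log (lt_of_lt_of_le one_pos (one_le_thetaR 𝓡 a L J (priorM f) R s))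
      (thetaR_le 𝓡 a L J (priorM f) R s)
  refine Integrable.of_bound (hFm.mul hTm).aestronglyMeasurable (B * Tm)
    (Filter.Eventually.of_forall fun s => ?_)
  rw [Real.norm_eq_abs, abs_of_nonneg (mul_nonneg (hF0 s) (hT0 s))]
  exact mul_le_mul (hFB s) (hTle s) (hT0 s) hB0

/-- MODULE WINDOWCELL (assembly, no new mathematics). Here `w = u = 2a`, `K = 2 (L+1) (u+1) 2^w vb w`, `B = K (2 √32 √d)^w`.
Rule `φ`, good part `θ = 1_goodG φ`, bad part. `bad_mass`: `1 - τ ≤ 1/(u+1)`. Then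
`∑ Psi (f a v) ≤ ∑ Psi (f a_good v) + ∑ Psi (f a_bad v)` (`Psi_add_le`), `∑ Psi (f a_bad v) ≤ Psi (f a_bad) + (1-τ) log card` (`Psi_split`),
`Psi (f a_good) + Psi (f a_bad) ≤ Psi f + log 2` (`Psi_split` on two labels), `replica_gibbs` for the good part with
`Gt s = Gtest pr (PO J O) w L δ (PO J O ∘ s)`, `δ = 2^(-n)`, `Frep = Fn`, `O = 𝓡.act R`, `G = fibO J O`. `Gtest_integral` bounds `Z`. On unit tuples
(a.e. for `pr`), `Fn_bound`, `dSeq_proj_le`, give `Fn / Gt ≤ B^u (aLev_P / aSharp)^u`, and `aLev_P/aSharp ≤ Θ_R · (1 or 2^(wL) on ill tuples)`, `Θ_R = aLev_P / aLev_id ≥ 1`,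
`ill_mass` and `σ₀` small make the ill part at most `1`. `E n R = C + ∫⁻ ofReal (Fn s) * ofReal (log Θ_R s) dPR`, measurable by `measurable_aLev_rot`. Its integral:
Tonelli, `∫ log Θ_R dϖ ≤ log ∫ Θ_R dϖ ≤ log (2^a (2^(2a) (L+1) + 1))` by `theta_average` and `∫ Fn dPR ≤ 1`. Constants:
`log B ≤ 13.3 a + log (2 (L+1) (2a+1))` by `vb_le`, `d ≤ 128 a`; total `≤ 20 a + 3 log (L+2) + 8`. `n₀` from `σ₀` through the hypothesis of `Fn_bound` and of `bad_mass`. -/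
theorem window_cell (𝓡 : RotModel d) {a L : ℕ} (ha : 1 ≤ a) (had : 64 * a ≤ d) (hda : d ≤ 128 * a)
    (J : Finset (Fin d)) (hJ : d ≤ J.card + 2 * a + 2) (hL : 1 ≤ L)
    (f : E d → ℝ) (hf : BddNN f) (hf1 : ∫ s, f s ∂(sphereM d) = 1)
    (hF : ∀ s, f s ≤ (2 : ℝ) ^ (3 * (2 * a) * (L - 1)))
    {V : Type*} [Fintype V] [Nonempty V] :
    ∃ (E' : ℕ → 𝓡.Ω → ℝ≥0∞) (n₀ : ℕ), (∀ n, Measurable (E' n)) ∧
      (∀ n, n₀ ≤ n → ∫⁻ R, E' n R ∂𝓡.ϖ ≤ ENNReal.ofReal (20 * a + 3 * log ((L : ℝ) + 2) + 8)) ∧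
      ∀ n, n₀ ≤ n → ∀ φ : V → Rows d (2 * a) → (Fin (2 * a) → ℤ) → ℝ,
        (∀ v, Measurable (Function.uncurry (φ v))) → (∀ v A i, 0 ≤ φ v A i) →
        (∀ A i, ∑ v, φ v A i = 1) → ∀ R,
        ENNReal.ofReal (∑ v, Psi (fibO J (𝓡.act R)) (sphereM d)
            (fun s => f s * ∫ A, φ v A (cell n A s) ∂(rowsM d (2 * a))) -
          Psi (fibO J (𝓡.act R)) (sphereM d) f -
          (2 / (2 * (a : ℝ) + 1)) * log (Fintype.card V)) ≤ E' n R := by
  classical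
  haveI := priorM_isProb hf hf1
  have hd : 0 < d := by omega
  have hK := Kc_pos ha L
  have hL1 : (1 : ℝ) ≤ L := by exact_mod_cast hL
  have hBc := one_le_Bc ha L
  set PR := Measure.pi fun _ : Fin (2 * a + 1) => priorM f with hPR
  set U : ℝ := ((2 * a : ℕ) : ℝ) with hU
  set F₀ : ℝ := (2 : ℝ) ^ (3 * (2 * a) * (L - 1)) with hF₀
  set X₀ : ℝ := U * (U * L) * ((Bc a L) ^ (2 * a) * ((2 : ℝ) ^ (2 * a)) ^ (2 * a) *
    (F₀ ^ (2 * a + 1) * (2 : ℝ) ^ (10 * (2 * a) * (2 * a)))) with hX₀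
  have hX₀0 : 0 ≤ X₀ := by positivity
  set σ₀ : ℝ := (1 + X₀)⁻¹ with hσ₀def
  have hσ₀ : 0 < σ₀ := by positivity
  have hσ₀1 : σ₀ ≤ 1 := inv_le_one_of_one_le₀ (by linarith)
  have hill : U * (U * L) * ((Bc a L) ^ (2 * a) * ((2 : ℝ) ^ (2 * a)) ^ (2 * a) *
      (F₀ ^ (2 * a + 1) * σ₀ ^ (2 * a) * (2 : ℝ) ^ (10 * (2 * a) * (2 * a)))) ≤ 1 := by
    have e : U * (U * L) * ((Bc a L) ^ (2 * a) * ((2 : ℝ) ^ (2 * a)) ^ (2 * a) *
        (F₀ ^ (2 * a + 1) * σ₀ ^ (2 * a) * (2 : ℝ) ^ (10 * (2 * a) * (2 * a)))) = X₀ * σ₀ ^ (2 * a) := by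
      rw [hX₀]
      ring
    rw [e]
    have h1 : σ₀ ^ (2 * a) ≤ σ₀ := pow_le_of_le_one hσ₀.le hσ₀1 (by omega)
    have h2 : X₀ * σ₀ ≤ 1 := by
      rw [hσ₀def, ← div_eq_mul_inv, div_le_one (by linarith)]
      linarith
    calc X₀ * σ₀ ^ (2 * a) ≤ X₀ * σ₀ := mul_le_mul_of_nonneg_left h1 hX₀0
      _ ≤ 1 := h2
  -- the scale
  set C₁ : ℝ := √U * (1 + 2 * ((1 + 2 / σ₀) ^ (2 * a) - 1)) with hC₁
  have hr : 0 < √32 * √(d : ℝ) * rho L := by
    have h1 := wc_rho_pos L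
    have h2 : 0 < √(d : ℝ) := Real.sqrt_pos.2 (by exact_mod_cast hd)
    have h3 : 0 < √(32 : ℝ) := Real.sqrt_pos.2 (by norm_num)
    positivity
  have hC₁1 : 1 ≤ 1 + 2 * ((1 + 2 / σ₀) ^ (2 * a) - 1) := by
    have : (1 : ℝ) ≤ (1 + 2 / σ₀) ^ (2 * a) := one_le_pow₀ (by
      have : 0 ≤ 2 / σ₀ := by positivity
      linarith)
    linarith
  have hC₁0 : 0 ≤ C₁ := by
    have : 0 ≤ √U := Real.sqrt_nonneg _
    positivity
  obtain ⟨n₀, hn₀⟩ := exists_pow_lt_of_lt_one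
    (show 0 < (√32 * √(d : ℝ) * rho L) / (C₁ + 1) by positivity)
    (show (1 / 2 : ℝ) < 1 by norm_num)
  have hn : ∀ n, n₀ ≤ n → √U * (1 / 2 : ℝ) ^ n * (1 + 2 * ((1 + 2 / σ₀) ^ (2 * a) - 1)) ≤
      √32 * √(d : ℝ) * rho L := by
    intro n hn
    have h1 : (1 / 2 : ℝ) ^ n ≤ (1 / 2 : ℝ) ^ n₀ :=
      pow_le_pow_of_le_one (by norm_num) (by norm_num) hn
    have h2 : C₁ * (1 / 2 : ℝ) ^ n ≤ √32 * √(d : ℝ) * rho L := by
      rw [lt_div_iff₀ (by positivity)] at hn₀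
      have h3 : (0 : ℝ) ≤ (1 / 2 : ℝ) ^ n₀ := by positivity
      have h4 : (0 : ℝ) ≤ (1 / 2 : ℝ) ^ n := by positivity
      nlinarith
    calc _ = C₁ * (1 / 2 : ℝ) ^ n := by rw [hC₁]; ring
      _ ≤ _ := h2
  set C₀ : ℝ := 2 + log (2 ^ (2 * a) * ((L : ℝ) + 1) + 1) + log (Bc a L) with hC₀
  have hℓ : 0 ≤ log (2 ^ (2 * a) * ((L : ℝ) + 1) + 1) := by
    apply Real.log_nonneg
    have : (0 : ℝ) ≤ 2 ^ (2 * a) * ((L : ℝ) + 1) := by positivity
    linarith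
  have hlB : 0 ≤ log (Bc a L) := Real.log_nonneg hBc
  have hC₀0 : 0 ≤ C₀ := by positivity
  refine ⟨fun n R => ENNReal.ofReal C₀ + ∫⁻ s, ENNReal.ofReal (Fn (w := 2 * a) (priorM f) n L (Kc a L) (√32) s) *
    ENNReal.ofReal (log (thetaR 𝓡 a L J (priorM f) R s)) ∂PR, n₀, ?_, ?_, ?_⟩
  · intro n
    have h1 : Measurable fun p : 𝓡.Ω × (Fin (2 * a + 1) → E d) =>
        ENNReal.ofReal (Fn (w := 2 * a) (priorM f) n L (Kc a L) (√32) p.2) :=
      ((measurable_Fn n L f hf (√32)).comp measurable_snd).ennreal_ofReal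
    have h2 : Measurable fun p : 𝓡.Ω × (Fin (2 * a + 1) → E d) =>
        ENNReal.ofReal (log (thetaR 𝓡 a L J (priorM f) p.1 p.2)) :=
      (Real.measurable_log.comp (measurable_thetaR_pair 𝓡 a L J (priorM f))).ennreal_ofReal
    have hm : Measurable fun p : 𝓡.Ω × (Fin (2 * a + 1) → E d) =>
        ENNReal.ofReal (Fn (w := 2 * a) (priorM f) n L (Kc a L) (√32) p.2) *
          ENNReal.ofReal (log (thetaR 𝓡 a L J (priorM f) p.1 p.2)) := h1.mul h2
    exact Measurable.const_add hm.lintegral_prod_right' _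
  · intro n _
    set cc : ℝ := (2 : ℝ) ^ a * (2 ^ (2 * a) * ((L : ℝ) + 1) + 1) with hcc
    have h1 : Measurable fun p : 𝓡.Ω × (Fin (2 * a + 1) → E d) =>
        ENNReal.ofReal (Fn (w := 2 * a) (priorM f) n L (Kc a L) (√32) p.2) :=
      ((measurable_Fn n L f hf (√32)).comp measurable_snd).ennreal_ofReal
    have h2 : Measurable fun p : 𝓡.Ω × (Fin (2 * a + 1) → E d) =>
        ENNReal.ofReal (log (thetaR 𝓡 a L J (priorM f) p.1 p.2)) :=
      (Real.measurable_log.comp (measurable_thetaR_pair 𝓡 a L J (priorM f))).ennreal_ofReal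
    have hm : Measurable fun p : 𝓡.Ω × (Fin (2 * a + 1) → E d) =>
        ENNReal.ofReal (Fn (w := 2 * a) (priorM f) n L (Kc a L) (√32) p.2) *
          ENNReal.ofReal (log (thetaR 𝓡 a L J (priorM f) p.1 p.2)) := h1.mul h2
    have hFs : Measurable fun s : Fin (2 * a + 1) → E d =>
        ENNReal.ofReal (Fn (w := 2 * a) (priorM f) n L (Kc a L) (√32) s) :=
      (measurable_Fn n L f hf (√32)).ennreal_ofReal
    have hRm : ∀ s : Fin (2 * a + 1) → E d, Measurable fun R =>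
        ENNReal.ofReal (log (thetaR 𝓡 a L J (priorM f) R s)) := fun s => by
      have h0 : Measurable fun R : 𝓡.Ω => (R, s) := measurable_id.prodMk measurable_const
      exact (Real.measurable_log.comp ((measurable_thetaR_pair 𝓡 a L J (priorM f)).comp h0)).ennreal_ofReal
    have hswap : ∫⁻ R, ∫⁻ s, ENNReal.ofReal (Fn (w := 2 * a) (priorM f) n L (Kc a L) (√32) s) *
          ENNReal.ofReal (log (thetaR 𝓡 a L J (priorM f) R s)) ∂PR ∂𝓡.ϖ =
        ∫⁻ s, ENNReal.ofReal (Fn (w := 2 * a) (priorM f) n L (Kc a L) (√32) s) *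
          ∫⁻ R, ENNReal.ofReal (log (thetaR 𝓡 a L J (priorM f) R s)) ∂𝓡.ϖ ∂PR := by
      rw [lintegral_lintegral_swap hm.aemeasurable]
      refine lintegral_congr fun s => ?_
      exact lintegral_const_mul _ (hRm s)
    have hae : ∀ᵐ s ∂PR, ENNReal.ofReal (Fn (w := 2 * a) (priorM f) n L (Kc a L) (√32) s) *
          ∫⁻ R, ENNReal.ofReal (log (thetaR 𝓡 a L J (priorM f) R s)) ∂𝓡.ϖ ≤
        ENNReal.ofReal (Fn (w := 2 * a) (priorM f) n L (Kc a L) (√32) s) * ENNReal.ofReal (log cc) := by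
      filter_upwards [ae_unit_tuple hd f] with s hs
      gcongr
      exact lintegral_log_theta 𝓡 J ha hL f hf hf1 hF le_rfl (by omega) (by omega) (by omega) s (hs 0)
    have hFint : ∫⁻ s, ENNReal.ofReal (Fn (w := 2 * a) (priorM f) n L (Kc a L) (√32) s) ∂PR ≤ 1 := by
      have hi : Integrable (Fn (w := 2 * a) (u := 2 * a) (priorM f) n L (Kc a L) (√32)) PR := by
        refine Integrable.of_bound (measurable_Fn n L f hf (√32)).aestronglyMeasurable
          (((tauG d (2 * a) n (Kc a L) (√32))⁻¹) ^ (2 * a)) (Filter.Eventually.of_forall fun s => ?_)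
        rw [Real.norm_eq_abs, abs_of_nonneg (Fn_bounds n L f hf hd hK s).1]
        exact (Fn_bounds n L f hf hd hK s).2
      rw [← ofReal_integral_eq_lintegral_ofReal hi
        (Filter.Eventually.of_forall fun s => (Fn_bounds n L f hf hd hK s).1)]
      calc _ ≤ ENNReal.ofReal 1 := ENNReal.ofReal_le_ofReal (integral_Fn_le n L f hf hf1 hd hK)
        _ = 1 := by simp
    have hlogcc : 0 ≤ log cc := by
      apply Real.log_nonneg
      have h2 : (1 : ℝ) ≤ 2 ^ a := one_le_pow₀ (by norm_num)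
      have h3 : (0 : ℝ) ≤ 2 ^ (2 * a) * ((L : ℝ) + 1) := by positivity
      have h4 : (1 : ℝ) ≤ 2 ^ (2 * a) * ((L : ℝ) + 1) + 1 := by linarith
      rw [hcc]
      nlinarith
    calc _ = ENNReal.ofReal C₀ + ∫⁻ R, ∫⁻ s, ENNReal.ofReal (Fn (w := 2 * a) (priorM f) n L (Kc a L) (√32) s) *
          ENNReal.ofReal (log (thetaR 𝓡 a L J (priorM f) R s)) ∂PR ∂𝓡.ϖ := by
          rw [lintegral_add_left measurable_const]
          simp
      _ ≤ ENNReal.ofReal C₀ + ∫⁻ s, ENNReal.ofReal (Fn (w := 2 * a) (priorM f) n L (Kc a L) (√32) s) *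
          ENNReal.ofReal (log cc) ∂PR := by
          rw [hswap]
          exact add_le_add le_rfl (lintegral_mono_ae hae)
      _ = ENNReal.ofReal C₀ + (∫⁻ s, ENNReal.ofReal (Fn (w := 2 * a) (priorM f) n L (Kc a L) (√32) s) ∂PR) *
          ENNReal.ofReal (log cc) := by
          rw [lintegral_mul_const _ (measurable_Fn n L f hf (√32)).ennreal_ofReal]
      _ ≤ ENNReal.ofReal C₀ + 1 * ENNReal.ofReal (log cc) := by gcongr
      _ = ENNReal.ofReal (C₀ + log cc) := by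
          rw [one_mul, ENNReal.ofReal_add hC₀0 hlogcc]
      _ ≤ _ := ENNReal.ofReal_le_ofReal (window_const ha)
  · intro n hnn φ hφm hφ0 hφ1 R
    have h := window_real 𝓡 ha had hda J hJ hL f hf hf1 hF hσ₀ hill n (hn n hnn) φ hφm hφ0 hφ1 R
    refine (ENNReal.ofReal_le_ofReal h).trans ?_
    refine ENNReal.ofReal_add_le.trans ?_
    beta_reduce
    refine add_le_add le_rfl ?_
    rw [ofReal_integral_eq_lintegral_ofReal (integrable_F_log_theta 𝓡 ha J n f hf hf1 hd R)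
      (Filter.Eventually.of_forall fun s => mul_nonneg (Fn_bounds n L f hf hd hK s).1
        (Real.log_nonneg (one_le_thetaR 𝓡 a L J (priorM f) R s)))]
    refine lintegral_mono fun s => ?_
    rw [ENNReal.ofReal_mul (Fn_bounds n L f hf hd hK s).1]

end Vale.Agent.P309F
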