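import Vale.Agent.P309F.Gibbs
import Vale.Agent.P309F.Envelope
import Vale.Agent.P309F.Seq

open MeasureTheory ProbabilityTheory Real Set Filter Topology
open scoped RealInnerProductSpace ENNReal

namespace Vale.Agent.P309F
open Vale.Agent.P309

variable {d : ℕ}

/-- The parameter `K` of the good cells. -/
noncomputable def Kc (a L : ℕ) : ℝ :=
  2 * ((L : ℝ) + 1) * (2 * (a : ℝ) + 1) * 2 ^ (2 * a) *
    (2 * π * rexp 1 / ((2 * a : ℕ) : ℝ)) ^ (((2 * a : ℕ) : ℝ) / 2)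

/-- The constant of the envelope, with its elementary upper bound. -/
noncomputable def Bc (a L : ℕ) : ℝ := 2 * ((L : ℝ) + 1) * (2 * (a : ℝ) + 1) * rexp (14 * a)

lemma Kc_pos {a : ℕ} (ha : 1 ≤ a) (L : ℕ) : 0 < Kc a L := by
  unfold Kc
  have ha' : (0 : ℝ) < ((2 * a : ℕ) : ℝ) := by positivity
  have h1 : 0 < 2 * π * rexp 1 / ((2 * a : ℕ) : ℝ) := by positivity
  have h2 := Real.rpow_pos_of_pos h1 (((2 * a : ℕ) : ℝ) / 2)
  positivity

lemma one_le_Bc {a : ℕ} (ha : 1 ≤ a) (L : ℕ) : 1 ≤ Bc a L := by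
  unfold Bc
  have h1 : (1 : ℝ) ≤ rexp (14 * a) := Real.one_le_exp (by positivity)
  have h2 : (1 : ℝ) ≤ 2 * ((L : ℝ) + 1) := by
    have : (0 : ℝ) ≤ L := by positivity
    linarith
  have h3 : (1 : ℝ) ≤ 2 * (a : ℝ) + 1 := by
    have : (0 : ℝ) ≤ a := by positivity
    linarith
  calc (1 : ℝ) = 1 * 1 * 1 := by norm_num
    _ ≤ _ := by gcongr

/-- `K (2 √32 √d)^(2a) ≤ Bc`: the volume of the ball cancels the norm of the rows. -/
lemma Kc_mul_le {a : ℕ} (ha : 1 ≤ a) (hda : d ≤ 128 * a) (L : ℕ) :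
    Kc a L * (2 * √32 * √(d : ℝ)) ^ (2 * a) ≤ Bc a L := by
  unfold Kc Bc
  have ha0 : (0 : ℝ) < a := by
    have : 0 < a := ha
    exact_mod_cast this
  have hcast : ((2 * a : ℕ) : ℝ) = 2 * (a : ℝ) := by push_cast; ring
  have hexp : ((2 * a : ℕ) : ℝ) / 2 = (a : ℝ) := by rw [hcast]; ring
  rw [hexp, Real.rpow_natCast, hcast]
  have hs : (2 * √32 * √(d : ℝ)) ^ (2 * a) = ((2 * √32 * √(d : ℝ)) ^ 2) ^ a := by
    rw [pow_mul]
  have hs2 : (2 * √32 * √(d : ℝ)) ^ 2 = 128 * (d : ℝ) := by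
    rw [mul_pow, mul_pow, Real.sq_sqrt (by norm_num), Real.sq_sqrt (by positivity)]
    norm_num
  have h22 : (2 : ℝ) ^ (2 * a) = (4 : ℝ) ^ a := by
    rw [pow_mul]; norm_num
  rw [hs, hs2, h22]
  have hd' : (d : ℝ) ≤ 128 * (a : ℝ) := by exact_mod_cast hda
  have hbase : (4 : ℝ) * (2 * π * rexp 1 / (2 * (a : ℝ))) * (128 * (d : ℝ)) ≤ rexp 14 := by
    have hpi : π < 3.15 := Real.pi_lt_d2
    have he : rexp 1 < 2.7182818286 := Real.exp_one_lt_d9
    have he2 : 2.7182818283 < rexp 1 := Real.exp_one_gt_d9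
    have h14 : rexp 14 = (rexp 1) ^ 14 := by
      rw [← Real.exp_nat_mul]; norm_num
    have hlow : (2.7 : ℝ) ^ 14 ≤ (rexp 1) ^ 14 := by
      gcongr
      linarith
    have h1 : (4 : ℝ) * (2 * π * rexp 1 / (2 * (a : ℝ))) * (128 * (d : ℝ)) =
        512 * π * rexp 1 * ((d : ℝ) / a) := by
      field_simp
      ring
    have h2 : (d : ℝ) / a ≤ 128 := by
      rw [div_le_iff₀ ha0]; linarith
    rw [h1, h14]
    have hnn : 0 ≤ (d : ℝ) / a := by positivity
    have hpe : π * rexp 1 ≤ 3.15 * 2.7182818286 := by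
      have := Real.pi_pos
      have := Real.exp_pos 1
      gcongr
    have h3 : 512 * π * rexp 1 * ((d : ℝ) / a) ≤ 512 * (3.15 * 2.7182818286) * 128 := by
      have : 512 * π * rexp 1 * ((d : ℝ) / a) = 512 * (π * rexp 1) * ((d : ℝ) / a) := by ring
      rw [this]
      gcongr
    have h4 : (512 : ℝ) * (3.15 * 2.7182818286) * 128 ≤ (2.7 : ℝ) ^ 14 := by norm_num
    linarith
  have hpow : ((4 : ℝ) * (2 * π * rexp 1 / (2 * (a : ℝ))) * (128 * (d : ℝ))) ^ a ≤ rexp (14 * a) := by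
    have h0 : 0 ≤ (4 : ℝ) * (2 * π * rexp 1 / (2 * (a : ℝ))) * (128 * (d : ℝ)) := by positivity
    calc _ ≤ (rexp 14) ^ a := pow_le_pow_left₀ h0 hbase a
      _ = _ := by rw [← Real.exp_nat_mul]; ring_nf
  have hrw : 2 * ((L : ℝ) + 1) * (2 * (a : ℝ) + 1) * (4 : ℝ) ^ a *
        (2 * π * rexp 1 / (2 * (a : ℝ))) ^ a * (128 * (d : ℝ)) ^ a =
      2 * ((L : ℝ) + 1) * (2 * (a : ℝ) + 1) *
        ((4 : ℝ) * (2 * π * rexp 1 / (2 * (a : ℝ))) * (128 * (d : ℝ))) ^ a := by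
    rw [mul_pow, mul_pow]; ring
  rw [hrw]
  gcongr

/-- The final arithmetic of the window constant. -/
lemma window_const {a L : ℕ} (ha : 1 ≤ a) :
    (2 + log (2 ^ (2 * a) * ((L : ℝ) + 1) + 1) + log (Bc a L)) +
      log ((2 : ℝ) ^ a * (2 ^ (2 * a) * ((L : ℝ) + 1) + 1)) ≤
      20 * a + 3 * log ((L : ℝ) + 2) + 8 := by
  have ha1 : (1 : ℝ) ≤ a := by exact_mod_cast ha
  have hL : (0 : ℝ) ≤ L := by positivity
  have hlog2 : log 2 ≤ 0.6931471808 := Real.log_two_lt_d9.le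
  have hlog20 : 0 < log 2 := Real.log_pos (by norm_num)
  have h1 : log (2 ^ (2 * a) * ((L : ℝ) + 1) + 1) ≤ 2 * a * log 2 + log ((L : ℝ) + 2) := by
    have hle : (2 : ℝ) ^ (2 * a) * ((L : ℝ) + 1) + 1 ≤ 2 ^ (2 * a) * ((L : ℝ) + 2) := by
      have : (1 : ℝ) ≤ 2 ^ (2 * a) := one_le_pow₀ (by norm_num)
      nlinarith
    calc _ ≤ log ((2 : ℝ) ^ (2 * a) * ((L : ℝ) + 2)) := Real.log_le_log (by positivity) hle
      _ = _ := by
        rw [Real.log_mul (by positivity) (by positivity), Real.log_pow]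
        push_cast; ring
  have h2 : log ((2 : ℝ) ^ a * (2 ^ (2 * a) * ((L : ℝ) + 1) + 1)) ≤
      a * log 2 + (2 * a * log 2 + log ((L : ℝ) + 2)) := by
    rw [Real.log_mul (by positivity) (by positivity), Real.log_pow]
    linarith
  have h3 : log (Bc a L) ≤ log ((L : ℝ) + 2) + (a + 1) + 14 * a := by
    unfold Bc
    have hpos1 : (0 : ℝ) < 2 * ((L : ℝ) + 1) * (2 * (a : ℝ) + 1) := by positivity
    rw [Real.log_mul hpos1.ne' (Real.exp_pos _).ne', Real.log_exp]
    have h4 : 2 * ((L : ℝ) + 1) * (2 * (a : ℝ) + 1) ≤ ((L : ℝ) + 2) * ((2 * (2 * (a : ℝ) + 1))) := by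
      nlinarith
    have h5 : log (2 * ((L : ℝ) + 1) * (2 * (a : ℝ) + 1)) ≤
        log ((L : ℝ) + 2) + log (2 * (2 * (a : ℝ) + 1)) := by
      rw [← Real.log_mul (by positivity) (by positivity)]
      exact Real.log_le_log hpos1 h4
    have h6 : log (2 * (2 * (a : ℝ) + 1)) ≤ a + 1 := by
      have h7 : 2 * (2 * (a : ℝ) + 1) ≤ rexp 2 * a := by
        have he : (7.3 : ℝ) ≤ rexp 2 := by
          have h14 : rexp 2 = (rexp 1) ^ 2 := by
            rw [← Real.exp_nat_mul]; norm_num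
          have := Real.exp_one_gt_d9
          rw [h14]
          nlinarith
        nlinarith
      calc _ ≤ log (rexp 2 * a) := Real.log_le_log (by positivity) h7
        _ = 2 + log a := by
          rw [Real.log_mul (Real.exp_pos _).ne' (by positivity), Real.log_exp]
        _ ≤ 2 + (a - 1) := by
          have := Real.log_le_sub_one_of_pos (show (0 : ℝ) < a by linarith)
          linarith
        _ = _ := by ring
    linarith
  have h8 : 0 ≤ log ((L : ℝ) + 2) := Real.log_nonneg (by linarith)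
  nlinarith

/-! ### The level function -/

lemma wc_aLev_pos {u w L : ℕ} (pr : Measure (E d)) (P : E d → E d) (q : Fin (u + 1) → E d) :
    0 < aLev pr P w L q := by
  unfold aLev
  refine lt_of_lt_of_le ?_ (le_max_left _ _)
  have : 0 < rho 0 := by unfold rho; norm_num
  positivity

lemma wc_aLev_ge {u w L : ℕ} (pr : Measure (E d)) (P : E d → E d) (q : Fin (u + 1) → E d) :
    ((1 / 2 : ℝ)) ^ w ≤ aLev pr P w L q := by
  unfold aLev
  refine le_trans ?_ (le_max_left _ _)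
  unfold rho
  norm_num

lemma wc_rho_pos (l : ℕ) : 0 < rho l := by unfold rho; positivity

lemma wc_rho_anti {l l' : ℕ} (h : l ≤ l') : rho l' ≤ rho l := by
  unfold rho
  have := pow_le_pow_of_le_one (by norm_num : (0 : ℝ) ≤ 1 / 2) (by norm_num) h
  linarith

lemma aLev_le_top {u w L : ℕ} (pr : Measure (E d)) [IsProbabilityMeasure pr] (P : E d → E d)
    (q : Fin (u + 1) → E d) : aLev pr P w L q ≤ ((rho L)⁻¹) ^ w := by
  unfold aLev
  have hmono : ∀ l, l ≤ L → ((rho l)⁻¹) ^ w ≤ ((rho L)⁻¹) ^ w := fun l hl => by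
    have := wc_rho_pos L
    have := wc_rho_pos l
    have := wc_rho_anti hl
    gcongr
  refine max_le (hmono 0 (Nat.zero_le _)) ?_
  refine Finset.sup'_le _ _ fun l hl => ?_
  have hl' : l ≤ L := by
    have := Finset.mem_range.1 hl
    omega
  have h1 : pr.real {x | dAff q (P x) ≤ rho l} ≤ 1 := measureReal_le_one
  have h2 : 0 ≤ ((rho l)⁻¹) ^ w := by
    have := wc_rho_pos l
    positivity
  calc _ ≤ ((rho l)⁻¹) ^ w * 1 := by gcongr
    _ ≤ _ := by rw [mul_one]; exact hmono l hl'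

/-- The ratio of the two level functions. -/
noncomputable def thetaR (𝓡 : RotModel d) (a L : ℕ) (J : Finset (Fin d)) (pr : Measure (E d))
    {u : ℕ} (R : 𝓡.Ω) (s : Fin (u + 1) → E d) : ℝ :=
  aLev pr (PO J (𝓡.act R)) (2 * a) L (fun j => PO J (𝓡.act R) (s j)) / aLev pr id (2 * a) L s

lemma one_le_thetaR (𝓡 : RotModel d) (a L : ℕ) (J : Finset (Fin d)) (pr : Measure (E d))
    [IsFiniteMeasure pr] {u : ℕ} (R : 𝓡.Ω) (s : Fin (u + 1) → E d) :
    1 ≤ thetaR 𝓡 a L J pr R s := by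
  unfold thetaR
  rw [one_le_div (wc_aLev_pos _ _ _)]
  exact aLev_le_proj pr J _ s

lemma thetaR_le (𝓡 : RotModel d) (a L : ℕ) (J : Finset (Fin d)) (pr : Measure (E d))
    [IsProbabilityMeasure pr] {u : ℕ} (R : 𝓡.Ω) (s : Fin (u + 1) → E d) :
    thetaR 𝓡 a L J pr R s ≤ ((rho L)⁻¹) ^ (2 * a) * 2 ^ (2 * a) := by
  unfold thetaR
  rw [div_le_iff₀ (wc_aLev_pos _ _ _)]
  have h1 := aLev_le_top (w := 2 * a) (L := L) pr (PO J (𝓡.act R)) (fun j => PO J (𝓡.act R) (s j))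
  have h2 := wc_aLev_ge (w := 2 * a) (L := L) pr id s
  have h3 : (0 : ℝ) ≤ ((rho L)⁻¹) ^ (2 * a) := by
    have := wc_rho_pos L
    positivity
  have h4 : (2 : ℝ) ^ (2 * a) * (1 / 2) ^ (2 * a) = 1 := by
    rw [← mul_pow]; norm_num
  calc _ ≤ ((rho L)⁻¹) ^ (2 * a) := h1
    _ = ((rho L)⁻¹) ^ (2 * a) * (2 ^ (2 * a) * (1 / 2) ^ (2 * a)) := by rw [h4, mul_one]
    _ = ((rho L)⁻¹) ^ (2 * a) * 2 ^ (2 * a) * (1 / 2) ^ (2 * a) := by ring
    _ ≤ _ := by gcongr

lemma measurable_thetaR_pair (𝓡 : RotModel d) (a L : ℕ) (J : Finset (Fin d)) (pr : Measure (E d))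
    [IsFiniteMeasure pr] {u : ℕ} :
    Measurable fun p : 𝓡.Ω × (Fin (u + 1) → E d) => thetaR 𝓡 a L J pr p.1 p.2 := by
  unfold thetaR
  exact (measurable_aLev_rot 𝓡 pr J).div ((measurable_aLev_id pr).comp measurable_snd)

/-- Jensen: the average of `log θ` over the rotations. -/
lemma lintegral_log_theta (𝓡 : RotModel d) {a L u : ℕ} (J : Finset (Fin d)) (ha : 1 ≤ a) (hL : 1 ≤ L)
    (f : E d → ℝ) (hf : BddNN f) (hf1 : ∫ s, f s ∂(sphereM d) = 1) {F₀ : ℝ} (hF : ∀ s, f s ≤ F₀)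
    (hFL : F₀ ≤ (2 : ℝ) ^ (3 * (2 * a) * (L - 1)))
    (hdim : d + 2 * u + 2 * a ≤ 2 * J.card) (hd : 2 * a + u < J.card)
    (hdim2 : 2 * (u + 1) + 4 * (2 * a) < d) (s : Fin (u + 1) → E d) (hs : ‖s 0‖ = 1) :
    ∫⁻ R, ENNReal.ofReal (log (thetaR 𝓡 a L J (priorM f) R s)) ∂𝓡.ϖ ≤
      ENNReal.ofReal (log ((2 : ℝ) ^ a * (2 ^ (2 * a) * ((L : ℝ) + 1) + 1))) := by
  haveI := priorM_isProb hf hf1
  set c : ℝ := (2 : ℝ) ^ a * (2 ^ (2 * a) * ((L : ℝ) + 1) + 1) with hc
  have hc1 : rexp 1 ≤ c := by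
    have h2 : (2 : ℝ) ≤ 2 ^ a := by
      calc (2 : ℝ) = 2 ^ 1 := by norm_num
        _ ≤ 2 ^ a := pow_le_pow_right₀ (by norm_num) ha
    have h4 : (4 : ℝ) ≤ 2 ^ (2 * a) := by
      calc (4 : ℝ) = 2 ^ 2 := by norm_num
        _ ≤ 2 ^ (2 * a) := pow_le_pow_right₀ (by norm_num) (by omega)
    have hL0 : (0 : ℝ) ≤ L := by positivity
    have h5 : (1 : ℝ) ≤ 2 ^ (2 * a) * ((L : ℝ) + 1) + 1 := by nlinarith
    have he := Real.exp_one_lt_d9
    have h6 : (5 : ℝ) ≤ 2 ^ (2 * a) * ((L : ℝ) + 1) + 1 := by nlinarith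
    rw [hc]
    nlinarith
  have hc0 : 0 < c := lt_of_lt_of_le (Real.exp_pos 1) hc1
  have hlogc : 1 ≤ log c := by
    rw [Real.le_log_iff_exp_le hc0]
    exact hc1
  set a0 : ℝ := aLev (priorM f) id (2 * a) L s with ha0
  have ha0pos : 0 < a0 := wc_aLev_pos _ _ _
  have hθ : ∀ R, ENNReal.ofReal (log (thetaR 𝓡 a L J (priorM f) R s)) ≤
      ENNReal.ofReal (c⁻¹ * a0⁻¹) * ENNReal.ofReal (aLev (priorM f) (PO J (𝓡.act R)) (2 * a) L
        fun j => PO J (𝓡.act R) (s j)) + ENNReal.ofReal (log c - 1) := by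
    intro R
    have hθ1 := one_le_thetaR 𝓡 a L J (priorM f) R s
    have hθ0 : 0 < thetaR 𝓡 a L J (priorM f) R s := by linarith
    have h1 : log (thetaR 𝓡 a L J (priorM f) R s) ≤
        thetaR 𝓡 a L J (priorM f) R s / c + (log c - 1) := by
      have h2 := Real.log_le_sub_one_of_pos (div_pos hθ0 hc0)
      rw [Real.log_div hθ0.ne' hc0.ne'] at h2
      linarith
    have h3 : thetaR 𝓡 a L J (priorM f) R s / c =
        c⁻¹ * a0⁻¹ * aLev (priorM f) (PO J (𝓡.act R)) (2 * a) L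
          fun j => PO J (𝓡.act R) (s j) := by
      unfold thetaR
      rw [← ha0]
      field_simp
    rw [← ENNReal.ofReal_mul (by positivity)]
    calc _ ≤ ENNReal.ofReal (thetaR 𝓡 a L J (priorM f) R s / c + (log c - 1)) :=
          ENNReal.ofReal_le_ofReal h1
      _ ≤ ENNReal.ofReal (thetaR 𝓡 a L J (priorM f) R s / c) + ENNReal.ofReal (log c - 1) :=
          ENNReal.ofReal_add_le
      _ = _ := by rw [h3]
  have hm : Measurable fun R => ENNReal.ofReal (aLev (priorM f) (PO J (𝓡.act R)) (2 * a) L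
        fun j => PO J (𝓡.act R) (s j)) :=
    ((measurable_aLev_rot 𝓡 (priorM f) J).comp (measurable_id.prodMk measurable_const)).ennreal_ofReal
  calc _ ≤ ∫⁻ R, ENNReal.ofReal (c⁻¹ * a0⁻¹) * ENNReal.ofReal (aLev (priorM f) (PO J (𝓡.act R))
        (2 * a) L fun j => PO J (𝓡.act R) (s j)) + ENNReal.ofReal (log c - 1) ∂𝓡.ϖ :=
        lintegral_mono hθ
    _ = ENNReal.ofReal (c⁻¹ * a0⁻¹) * ∫⁻ R, ENNReal.ofReal (aLev (priorM f) (PO J (𝓡.act R))
        (2 * a) L fun j => PO J (𝓡.act R) (s j)) ∂𝓡.ϖ + ENNReal.ofReal (log c - 1) := by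
        rw [lintegral_add_right _ measurable_const, lintegral_const_mul _ hm]
        simp
    _ ≤ ENNReal.ofReal (c⁻¹ * a0⁻¹) * ENNReal.ofReal (c * a0) + ENNReal.ofReal (log c - 1) := by
        gcongr
        exact theta_average 𝓡 J ha hL f hf hf1 hF hFL hdim hd hdim2 s hs
    _ = ENNReal.ofReal 1 + ENNReal.ofReal (log c - 1) := by
        rw [← ENNReal.ofReal_mul (by positivity)]
        congr 2
        field_simp
    _ = _ := by
        rw [← ENNReal.ofReal_add (by norm_num) (by linarith)]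
        congr 1
        ring

/-! ### Abstract assembly of the functional -/

section Mix

variable {S : Type*} (G : MeasurableSpace S) {mS : MeasurableSpace S} {σ : Measure S}
  [IsProbabilityMeasure σ]

/-- The bad part only costs a small fraction of the log of the number of states. -/
lemma psi_bad_split (hG : G ≤ mS) {V : Type*} [Fintype V] [Nonempty V] {f : S → ℝ}
    (mg mb : V → S → ℝ) (hug : ∀ v, BddNN fun s => f s * mg v s)
    (hub : ∀ v, BddNN fun s => f s * mb v s) :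
    ∑ v, Psi G σ (fun s => f s * (mg v s + mb v s)) ≤
      ∑ v, Psi G σ (fun s => f s * mg v s) + Psi G σ (fun s => f s * ∑ v, mb v s) +
        (∫ s, f s * ∑ v, mb v s ∂σ) * log (Fintype.card V) := by
  have h1 : ∀ v, Psi G σ (fun s => f s * (mg v s + mb v s)) ≤
      Psi G σ (fun s => f s * mg v s) + Psi G σ (fun s => f s * mb v s) := by
    intro v
    have := Psi_add_le G (σ := σ) hG (hug v) (hub v)
    simpa only [mul_add] using this
  have h2 := Psi_split G (σ := σ) hG hub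
  simp only [← Finset.mul_sum] at h2
  calc _ ≤ ∑ v, (Psi G σ (fun s => f s * mg v s) + Psi G σ (fun s => f s * mb v s)) :=
        Finset.sum_le_sum fun v _ => h1 v
    _ = ∑ v, Psi G σ (fun s => f s * mg v s) + ∑ v, Psi G σ (fun s => f s * mb v s) :=
        Finset.sum_add_distrib
    _ ≤ _ := by linarith

/-- Two labels cost at most `log 2`. -/
lemma psi_two (hG : G ≤ mS) {f : S → ℝ} (hf1 : ∫ s, f s ∂σ = 1) (g b : S → ℝ)
    (hg : BddNN fun s => f s * g s) (hb : BddNN fun s => f s * b s) (hsum : ∀ s, g s + b s = 1) :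
    Psi G σ (fun s => f s * g s) + Psi G σ (fun s => f s * b s) ≤ Psi G σ f + log 2 := by
  have h := Psi_split (V := Bool) G (σ := σ) hG (u := fun v s => if v then f s * g s else f s * b s)
    (by
      intro v
      cases v
      · simpa using hb
      · simpa using hg)
  have e : (fun s => ∑ v : Bool, (if v then f s * g s else f s * b s)) = f := by
    funext s
    have := hsum s
    rw [Fintype.sum_bool]
    simp only [if_true, Bool.false_eq_true, if_false]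
    rw [← mul_add, this, mul_one]
  simp only [Fintype.sum_bool, if_true, Bool.false_eq_true, if_false] at h
  have e' : (fun s => f s * g s + f s * b s) = f := by
    funext s
    rw [← mul_add, hsum s, mul_one]
  rw [e', hf1, one_mul, Fintype.card_bool] at h
  simpa using h

end Mix

/-- The bad mass is a small fraction. -/
lemma bad_frac {a L : ℕ} (ha : 1 ≤ a) (had : 64 * a ≤ d) :
    rexp (-((d : ℝ) / 3)) + ((L : ℝ) + 1) * 2 ^ (2 * a) * vb (2 * a) / Kc a L ≤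
      1 / (2 * (a : ℝ) + 1) := by
  have ha1 : (1 : ℝ) ≤ a := by exact_mod_cast ha
  have hK := Kc_pos ha L
  have hvb := vb_le (w := 2 * a) (by omega)
  set Y : ℝ := (2 * π * rexp 1 / ((2 * a : ℕ) : ℝ)) ^ (((2 * a : ℕ) : ℝ) / 2) with hY
  have hYpos : 0 < Y := by
    have ha' : (0 : ℝ) < ((2 * a : ℕ) : ℝ) := by positivity
    have h1 : 0 < 2 * π * rexp 1 / ((2 * a : ℕ) : ℝ) := by positivity
    exact Real.rpow_pos_of_pos h1 _
  have hKe : Kc a L = 2 * ((L : ℝ) + 1) * (2 * (a : ℝ) + 1) * 2 ^ (2 * a) * Y := rfl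
  have h1 : ((L : ℝ) + 1) * 2 ^ (2 * a) * vb (2 * a) / Kc a L ≤ 1 / (2 * (2 * (a : ℝ) + 1)) := by
    rw [div_le_div_iff₀ hK (by positivity), hKe]
    have : ((L : ℝ) + 1) * 2 ^ (2 * a) * vb (2 * a) ≤ ((L : ℝ) + 1) * 2 ^ (2 * a) * Y := by gcongr
    have h0 : 0 ≤ 2 * (2 * (a : ℝ) + 1) := by positivity
    calc _ ≤ ((L : ℝ) + 1) * 2 ^ (2 * a) * Y * (2 * (2 * (a : ℝ) + 1)) := by gcongr
      _ = _ := by ring
  have h2 : rexp (-((d : ℝ) / 3)) ≤ 1 / (2 * (2 * (a : ℝ) + 1)) := by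
    rw [Real.exp_neg, one_div]
    apply inv_anti₀ (by positivity)
    have hd' : 64 * (a : ℝ) ≤ d := by exact_mod_cast had
    have := Real.add_one_le_exp ((d : ℝ) / 3)
    linarith
  have e : 1 / (2 * (a : ℝ) + 1) = 1 / (2 * (2 * (a : ℝ) + 1)) + 1 / (2 * (2 * (a : ℝ) + 1)) := by
    field_simp
    ring
  rw [e]
  exact add_le_add h2 h1

/-! ### The good cells as a rule -/

open Classical in
/-- The indicator of the good cells. -/
noncomputable def gInd {w : ℕ} (pr : Measure (E d)) (n L : ℕ) (K C0 : ℝ) (A : Rows d w)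
    (i : Fin w → ℤ) : ℝ :=
  if (A, i) ∈ goodG pr n L K C0 then 1 else 0

lemma gInd_nonneg {w : ℕ} (pr : Measure (E d)) (n L : ℕ) (K C0 : ℝ) (A : Rows d w)
    (i : Fin w → ℤ) : 0 ≤ gInd pr n L K C0 A i := by
  unfold gInd
  split_ifs <;> norm_num

lemma gInd_le_one {w : ℕ} (pr : Measure (E d)) (n L : ℕ) (K C0 : ℝ) (A : Rows d w)
    (i : Fin w → ℤ) : gInd pr n L K C0 A i ≤ 1 := by
  unfold gInd
  split_ifs <;> norm_num

lemma measurable_gInd {w : ℕ} (f : E d → ℝ) (hf : BddNN f) (n L : ℕ) (K C0 : ℝ) :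
    Measurable (Function.uncurry (gInd (w := w) (priorM f) n L K C0)) := by
  classical
  exact Measurable.ite (measurableSet_goodG n L K C0 f hf) measurable_const measurable_const

lemma Fn_eq_Frep {w u : ℕ} (pr : Measure (E d)) (n L : ℕ) (K C0 : ℝ) (s : Fin (u + 1) → E d) :
    Fn (w := w) pr n L K C0 s =
      Frep (rowsM d w) pr (cell n) (gInd (w := w) pr n L K C0) s := by
  classical
  unfold Fn Frep gInd massC
  congr 1
  funext A
  by_cases h1 : (A, cell n A (s 0)) ∈ goodG pr n L K C0 <;>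
    by_cases h2 : ∀ j, cell n A (s j) = cell n A (s 0) <;> simp [h1, h2]

lemma tauG_pos {w : ℕ} (hd : 0 < d) (n : ℕ) {K : ℝ} (hK : 0 < K) :
    0 < tauG d w n K (√32) := by
  unfold tauG rLev
  have h1 : 0 < rho 0 := wc_rho_pos 0
  have h2 : 0 < √(d : ℝ) := Real.sqrt_pos.2 (by exact_mod_cast hd)
  have h3 : 0 < √(32 : ℝ) := Real.sqrt_pos.2 (by norm_num)
  positivity

lemma gInd_mass {w : ℕ} (pr : Measure (E d)) (n L : ℕ) (K : ℝ) (A : Rows d w)
    (i : Fin w → ℤ) (h : 0 < gInd pr n L K (√32) A i) :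
    tauG d w n K (√32) ≤ pr.real (cell n A ⁻¹' {i}) := by
  classical
  unfold gInd at h
  by_cases hg : (A, i) ∈ goodG pr n L K (√32)
  · exact hg.2.1
  · simp [hg] at h

lemma measurable_rule_swap {w : ℕ} {h : Rows d w → (Fin w → ℤ) → ℝ}
    (hh : Measurable (Function.uncurry h)) (n : ℕ) :
    Measurable fun p : E d × Rows d w => h p.2 (cell n p.2 p.1) := by
  have h0 : Measurable (fun p : E d × Rows d w => cell n p.2 p.1) := by
    have := (measurable_cell_pair (d := d) (w := w) n).comp (measurable_swap (α := E d) (β := Rows d w))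
    simpa only [Function.comp_def, Prod.fst_swap, Prod.snd_swap] using this
  have h1 : Measurable fun p : E d × Rows d w => (p.2, cell n p.2 p.1) :=
    measurable_snd.prodMk h0
  have h3 := hh.comp h1
  simpa only [Function.comp_def, Function.uncurry] using h3

lemma measurable_rule_A {w : ℕ} {h : Rows d w → (Fin w → ℤ) → ℝ}
    (hh : Measurable (Function.uncurry h)) (n : ℕ) (s : E d) :
    Measurable fun A : Rows d w => h A (cell n A s) := by
  have h1 : Measurable fun A : Rows d w => (s, A) := measurable_const.prodMk measurable_id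
  have h3 := (measurable_rule_swap hh n).comp h1
  simpa only [Function.comp_def] using h3

lemma measurable_rule_s {w : ℕ} {h : Rows d w → (Fin w → ℤ) → ℝ}
    (hh : Measurable (Function.uncurry h)) (n : ℕ) :
    Measurable fun s : E d => ∫ A, h A (cell n A s) ∂(rowsM d w) :=
  ((measurable_rule_swap hh n).stronglyMeasurable.integral_prod_right (ν := rowsM d w)).measurable

section FnFacts

variable {w u : ℕ} (n L : ℕ) {K : ℝ} (f : E d → ℝ) (hf : BddNN f)
  (hf1 : ∫ s, f s ∂(sphereM d) = 1)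

include hf in
lemma measurable_Fn [IsFiniteMeasure (priorM f)] (C0 : ℝ) :
    Measurable (Fn (w := w) (u := u) (priorM f) n L K C0) := by
  have h := measurable_Frep (u := u) (rowsM d w) (priorM f) (cell n) (measurable_cell n d w)
    (gInd (w := w) (priorM f) n L K C0) (measurable_gInd f hf n L K C0)
  have e : Fn (w := w) (u := u) (priorM f) n L K C0 =
      Frep (u := u) (rowsM d w) (priorM f) (cell n) (gInd (w := w) (priorM f) n L K C0) := by
    funext s
    exact Fn_eq_Frep _ _ _ _ _ _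
  rw [e]
  exact h

include hf in
lemma Fn_bounds [IsFiniteMeasure (priorM f)] (hd : 0 < d) (hK : 0 < K) (s : Fin (u + 1) → E d) :
    0 ≤ Fn (w := w) (priorM f) n L K (√32) s ∧
      Fn (w := w) (priorM f) n L K (√32) s ≤ ((tauG d w n K (√32))⁻¹) ^ u := by
  rw [Fn_eq_Frep]
  exact Frep_bounds (rowsM d w) (priorM f) (cell n) _ (measurable_cell n d w)
    (measurable_gInd f hf n L K (√32)) (gInd_nonneg _ _ _ _ _) (gInd_le_one _ _ _ _ _)
    (tauG_pos hd n hK) (gInd_mass _ _ _ _) s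

include hf hf1 in
lemma integral_Fn_le [IsProbabilityMeasure (priorM f)] (hd : 0 < d) (hK : 0 < K) :
    ∫ s, Fn (w := w) (u := u) (priorM f) n L K (√32) s
      ∂(Measure.pi fun _ : Fin (u + 1) => priorM f) ≤ 1 := by
  have e : (fun s : Fin (u + 1) → E d => Fn (w := w) (u := u) (priorM f) n L K (√32) s) =
      Frep (u := u) (rowsM d w) (priorM f) (cell n) (gInd (w := w) (priorM f) n L K (√32)) := by
    funext s
    exact Fn_eq_Frep _ _ _ _ _ _
  rw [e, integral_Frep (rowsM d w) (priorM f) (cell n) _ (measurable_cell n d w)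
    (measurable_gInd f hf n L K (√32)) (gInd_nonneg _ _ _ _ _) (gInd_le_one _ _ _ _ _)
    (tauG_pos hd n hK) (gInd_mass _ _ _ _)]
  have hmg := measurable_gInd (w := w) f hf n L K (√32)
  have hle : ∀ s, ∫ A, gInd (priorM f) n L K (√32) A (cell n A s) ∂(rowsM d w) ≤ 1 := by
    intro s
    have hi : Integrable (fun A => gInd (priorM f) n L K (√32) A (cell n A s)) (rowsM d w) :=
      integrable_of_unit (measurable_rule_A hmg n s)
        (fun _ => gInd_nonneg _ _ _ _ _ _ _) (fun _ => gInd_le_one _ _ _ _ _ _ _)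
    calc _ ≤ ∫ _ : Rows d w, (1 : ℝ) ∂(rowsM d w) :=
          integral_mono hi (integrable_const _) fun A => gInd_le_one _ _ _ _ _ _ _
      _ = 1 := by simp
  have hnn : ∀ s, 0 ≤ ∫ A, gInd (priorM f) n L K (√32) A (cell n A s) ∂(rowsM d w) := fun s =>
    integral_nonneg fun A => gInd_nonneg _ _ _ _ _ _ _
  have hsm : Measurable fun s => ∫ A, gInd (priorM f) n L K (√32) A (cell n A s) ∂(rowsM d w) :=
    measurable_rule_s hmg n
  calc _ ≤ ∫ _ : E d, (1 : ℝ) ∂(priorM f) :=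
        integral_mono (integrable_of_unit hsm hnn hle) (integrable_const _) hle
    _ = 1 := by simp

end FnFacts

/-- Almost every tuple consists of unit vectors. -/
lemma ae_unit_tuple {u : ℕ} (hd : 0 < d) (f : E d → ℝ) [IsProbabilityMeasure (priorM f)] :
    ∀ᵐ s ∂(Measure.pi fun _ : Fin (u + 1) => priorM f), ∀ j, ‖s j‖ = 1 := by
  rw [ae_all_iff]
  intro j
  exact (Measure.quasiMeasurePreserving_eval (fun _ : Fin (u + 1) => priorM f) j).ae
    (priorM_ae_unit hd f)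

/-! ### The pointwise bound of the replica density against the test function -/

lemma aSharp_pos {u : ℕ} (pr : Measure (E d)) (w L : ℕ) (σ₀ : ℝ) (s : Fin (u + 1) → E d) :
    0 < aSharp pr w L σ₀ s := by
  classical
  unfold aSharp
  split_ifs
  · exact wc_aLev_pos _ _ _
  · have := wc_rho_pos 0
    positivity

lemma max_inv_pow_pos {δ : ℝ} (hδ : 0 < δ) (x : ℝ) (w : ℕ) : 0 < ((max x δ)⁻¹) ^ w := by
  have : 0 < max x δ := lt_of_lt_of_le hδ (le_max_right _ _)
  positivity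

/-- The envelope with the constant `Bc`. -/
lemma F_le_Bc {a L : ℕ} (ha : 1 ≤ a) (hda : d ≤ 128 * a) (n : ℕ) {σ₀ : ℝ} (hσ₀ : 0 < σ₀)
    (f : E d → ℝ) (hf : BddNN f) (hf1 : ∫ s, f s ∂(sphereM d) = 1)
    (hn : √(((2 * a : ℕ) : ℝ)) * (1 / 2 : ℝ) ^ n * (1 + 2 * ((1 + 2 / σ₀) ^ (2 * a) - 1)) ≤
      √32 * √(d : ℝ) * rho L)
    (s : Fin (2 * a + 1) → E d) (hs : ∀ j, ‖s j‖ = 1) :
    Fn (w := 2 * a) (priorM f) n L (Kc a L) (√32) s ≤
      (Bc a L) ^ (2 * a) * (∏ j : Fin (2 * a), ((max (dSeq s j) ((1 / 2 : ℝ) ^ n))⁻¹) ^ (2 * a)) *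
        ((aSharp (priorM f) (2 * a) L σ₀ s)⁻¹) ^ (2 * a) := by
  refine (Fn_bound n L (Kc_pos ha L) hσ₀ f hf hf1 hn s hs).trans ?_
  have hK := Kc_pos ha L
  have hS := aSharp_pos (priorM f) (2 * a) L σ₀ s
  have hQ : 0 ≤ ∏ j : Fin (2 * a), ((max (dSeq s j) ((1 / 2 : ℝ) ^ n))⁻¹) ^ (2 * a) :=
    Finset.prod_nonneg fun j _ => (max_inv_pow_pos (by positivity) _ _).le
  have h1 : (Kc a L * (2 * √32 * √(d : ℝ)) ^ (2 * a)) ^ (2 * a) ≤ (Bc a L) ^ (2 * a) :=
    pow_le_pow_left₀ (by positivity) (Kc_mul_le ha hda L) _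
  gcongr

/-- The comparison of the logarithm of the ratio of the level functions with `log θ`. -/
lemma log_sharp_le (𝓡 : RotModel d) {a L : ℕ} (J : Finset (Fin d)) (pr : Measure (E d))
    [IsProbabilityMeasure pr] {σ₀ : ℝ} (R : 𝓡.Ω) {u : ℕ} (s : Fin (u + 1) → E d) :
    log (aLev pr (PO J (𝓡.act R)) (2 * a) L (fun j => PO J (𝓡.act R) (s j)) /
        aSharp pr (2 * a) L σ₀ s) ≤
      log (thetaR 𝓡 a L J pr R s) +
        ({s : Fin (u + 1) → E d | ∃ j, dSeq s j < σ₀}).indicator (fun _ => ((2 * a : ℕ) : ℝ) * L) s := by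
  classical
  by_cases hill : ∃ j, dSeq s j < σ₀
  · have hind : ({s : Fin (u + 1) → E d | ∃ j, dSeq s j < σ₀}).indicator
        (fun _ => ((2 * a : ℕ) : ℝ) * L) s = ((2 * a : ℕ) : ℝ) * L :=
      Set.indicator_of_mem (show s ∈ {s : Fin (u + 1) → E d | ∃ j, dSeq s j < σ₀} from hill) _
    rw [hind]
    have hS : aSharp pr (2 * a) L σ₀ s = ((rho 0)⁻¹) ^ (2 * a) := by
      unfold aSharp
      rw [if_neg]
      push Not
      exact hill
    rw [hS]
    have hP := aLev_le_top (w := 2 * a) (L := L) pr (PO J (𝓡.act R)) (fun j => PO J (𝓡.act R) (s j))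
    have hPpos := wc_aLev_pos (w := 2 * a) (L := L) pr (PO J (𝓡.act R)) (fun j => PO J (𝓡.act R) (s j))
    have h0 : (0 : ℝ) < ((rho 0)⁻¹) ^ (2 * a) := by
      have := wc_rho_pos 0
      positivity
    have h1 : aLev pr (PO J (𝓡.act R)) (2 * a) L (fun j => PO J (𝓡.act R) (s j)) /
        ((rho 0)⁻¹) ^ (2 * a) ≤ ((2 : ℝ) ^ L) ^ (2 * a) := by
      rw [div_le_iff₀ h0]
      refine hP.trans (le_of_eq ?_)
      rw [← mul_pow]
      congr 1
      unfold rho
      simp only [pow_zero, mul_one, one_div, inv_pow]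
      field_simp
    have h2 : log (aLev pr (PO J (𝓡.act R)) (2 * a) L (fun j => PO J (𝓡.act R) (s j)) /
        ((rho 0)⁻¹) ^ (2 * a)) ≤ ((2 * a : ℕ) : ℝ) * L := by
      refine (Real.log_le_log (by positivity) h1).trans ?_
      rw [← pow_mul, Real.log_pow]
      have hl : log 2 ≤ 1 := by
        have := Real.log_two_lt_d9
        linarith
      have h3 : (0 : ℝ) ≤ ((L * (2 * a) : ℕ) : ℝ) := by positivity
      calc ((L * (2 * a) : ℕ) : ℝ) * log 2 ≤ ((L * (2 * a) : ℕ) : ℝ) * 1 := by gcongr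
        _ = _ := by push_cast; ring
    have h4 : 0 ≤ log (thetaR 𝓡 a L J pr R s) :=
      Real.log_nonneg (one_le_thetaR 𝓡 a L J pr R s)
    linarith
  · have hind : ({s : Fin (u + 1) → E d | ∃ j, dSeq s j < σ₀}).indicator
        (fun _ => ((2 * a : ℕ) : ℝ) * L) s = 0 :=
      Set.indicator_of_notMem (show s ∉ {s : Fin (u + 1) → E d | ∃ j, dSeq s j < σ₀} from hill) _
    rw [hind, add_zero]
    have hS : aSharp pr (2 * a) L σ₀ s = aLev pr id (2 * a) L s := by
      unfold aSharp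
      rw [if_pos]
      push Not at hill
      exact hill
    rw [hS]
    exact le_of_eq rfl

/-- The pointwise bound of the replica density against the test function. -/
lemma Fn_log_le (𝓡 : RotModel d) {a L : ℕ} (ha : 1 ≤ a) (hda : d ≤ 128 * a)
    (J : Finset (Fin d)) (n : ℕ) {σ₀ : ℝ} (hσ₀ : 0 < σ₀)
    (f : E d → ℝ) (hf : BddNN f) (hf1 : ∫ s, f s ∂(sphereM d) = 1)
    (hn : √(((2 * a : ℕ) : ℝ)) * (1 / 2 : ℝ) ^ n * (1 + 2 * ((1 + 2 / σ₀) ^ (2 * a) - 1)) ≤
      √32 * √(d : ℝ) * rho L)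
    (R : 𝓡.Ω) (s : Fin (2 * a + 1) → E d) (hs : ∀ j, ‖s j‖ = 1) (hF0 : 0 ≤ Fn (w := 2 * a) (priorM f) n L (Kc a L) (√32) s) :
    Fn (w := 2 * a) (priorM f) n L (Kc a L) (√32) s *
        log (Fn (w := 2 * a) (priorM f) n L (Kc a L) (√32) s /
          Gtest (priorM f) (PO J (𝓡.act R)) (2 * a) L ((1 / 2 : ℝ) ^ n)
            (fun j => PO J (𝓡.act R) (s j))) ≤
      Fn (w := 2 * a) (priorM f) n L (Kc a L) (√32) s *
        (((2 * a : ℕ) : ℝ) * log (Bc a L) + ((2 * a : ℕ) : ℝ) * log (thetaR 𝓡 a L J (priorM f) R s)) +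
      ((2 * a : ℕ) : ℝ) * (((2 * a : ℕ) : ℝ) * L) *
        ({s : Fin (2 * a + 1) → E d | ∃ j, dSeq s j < σ₀}).indicator
          (Fn (w := 2 * a) (priorM f) n L (Kc a L) (√32)) s := by
  classical
  haveI := priorM_isProb hf hf1
  set F := Fn (w := 2 * a) (priorM f) n L (Kc a L) (√32) s with hF
  rcases hF0.eq_or_lt with h0 | hpos
  · have hi : ({s : Fin (2 * a + 1) → E d | ∃ j, dSeq s j < σ₀}).indicator
        (Fn (w := 2 * a) (priorM f) n L (Kc a L) (√32)) s = 0 := by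
      by_cases h : s ∈ {s : Fin (2 * a + 1) → E d | ∃ j, dSeq s j < σ₀}
      · rw [Set.indicator_of_mem h, ← hF, ← h0]
      · exact Set.indicator_of_notMem h _
    rw [hi, ← h0]
    simp
  · set δ : ℝ := (1 / 2 : ℝ) ^ n with hδ
    have hδ0 : 0 < δ := by positivity
    set P := PO J (𝓡.act R) with hP
    set aP := aLev (priorM f) P (2 * a) L (fun j => P (s j)) with haP
    set aS := aSharp (priorM f) (2 * a) L σ₀ s with haS
    have haP0 : 0 < aP := wc_aLev_pos _ _ _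
    have haS0 : 0 < aS := aSharp_pos _ _ _ _ _
    set Q := ∏ j : Fin (2 * a), ((max (dSeq s j) δ)⁻¹) ^ (2 * a) with hQ
    set Q' := ∏ j : Fin (2 * a), ((max (min (dSeq (fun i => P (s i)) j) 2) δ)⁻¹) ^ (2 * a) with hQ'
    have hQ0 : 0 ≤ Q := Finset.prod_nonneg fun j _ => (max_inv_pow_pos hδ0 _ _).le
    have hQ'0 : 0 < Q' := Finset.prod_pos fun j _ => max_inv_pow_pos hδ0 _ _
    have hQQ : Q ≤ Q' := by
      refine Finset.prod_le_prod (fun j _ => (max_inv_pow_pos hδ0 _ _).le) fun j _ => ?_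
      have h1 : max (min (dSeq (fun i => P (s i)) j) 2) δ ≤ max (dSeq s j) δ := by
        refine max_le_max ?_ le_rfl
        exact (min_le_left _ _).trans (dSeq_proj_le J (𝓡.act R) s j)
      have h2 : 0 < max (min (dSeq (fun i => P (s i)) j) 2) δ :=
        lt_of_lt_of_le hδ0 (le_max_right _ _)
      gcongr
    have hFle : F ≤ (Bc a L) ^ (2 * a) * Q * (aS⁻¹) ^ (2 * a) :=
      F_le_Bc ha hda n hσ₀ f hf hf1 hn s hs
    have hBc := one_le_Bc ha L
    have hBc0 : 0 < Bc a L := by linarith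
    set Gt := Gtest (priorM f) P (2 * a) L δ (fun j => P (s j)) with hGt
    have hGte : Gt = Q' * (aP⁻¹) ^ (2 * a) := rfl
    have hGt0 : 0 < Gt := by rw [hGte]; positivity
    have hratio : F / Gt ≤ ((Bc a L) * (aP / aS)) ^ (2 * a) := by
      rw [div_le_iff₀ hGt0, hGte]
      refine hFle.trans ?_
      have e : ((Bc a L) * (aP / aS)) ^ (2 * a) * (Q' * (aP⁻¹) ^ (2 * a)) =
          (Bc a L) ^ (2 * a) * Q' * (aS⁻¹) ^ (2 * a) := by
        rw [mul_pow, div_pow, inv_pow, inv_pow]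
        field_simp
      rw [e]
      gcongr
    have hlog : log (F / Gt) ≤ ((2 * a : ℕ) : ℝ) * log (Bc a L) + ((2 * a : ℕ) : ℝ) * log (aP / aS) := by
      refine (Real.log_le_log (div_pos hpos hGt0) hratio).trans (le_of_eq ?_)
      rw [Real.log_pow, Real.log_mul hBc0.ne' (div_pos haP0 haS0).ne']
      ring
    have hsharp := log_sharp_le 𝓡 (a := a) (L := L) J (priorM f) (σ₀ := σ₀) R s
    set T := log (thetaR 𝓡 a L J (priorM f) R s) with hT
    have hu0 : (0 : ℝ) ≤ ((2 * a : ℕ) : ℝ) := by positivity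
    by_cases h : s ∈ {s : Fin (2 * a + 1) → E d | ∃ j, dSeq s j < σ₀}
    · rw [Set.indicator_of_mem h] at hsharp ⊢
      rw [← hF]
      have h5 : log (F / Gt) ≤ ((2 * a : ℕ) : ℝ) * log (Bc a L) + ((2 * a : ℕ) : ℝ) * T +
          ((2 * a : ℕ) : ℝ) * (((2 * a : ℕ) : ℝ) * L) := by
        have := mul_le_mul_of_nonneg_left hsharp hu0
        nlinarith
      have := mul_le_mul_of_nonneg_left h5 hpos.le
      nlinarith
    · rw [Set.indicator_of_notMem h] at hsharp ⊢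
      have h5 : log (F / Gt) ≤ ((2 * a : ℕ) : ℝ) * log (Bc a L) + ((2 * a : ℕ) : ℝ) * T := by
        have := mul_le_mul_of_nonneg_left hsharp hu0
        nlinarith
      have := mul_le_mul_of_nonneg_left h5 hpos.le
      nlinarith

/-! ### The ill conditioned tuples -/

/-- The total mass of the replica density on the ill conditioned tuples. -/
lemma ill_part {a L : ℕ} (ha : 1 ≤ a) (had : 64 * a ≤ d) (hda : d ≤ 128 * a) (n : ℕ)
    {σ₀ : ℝ} (hσ₀ : 0 < σ₀) (f : E d → ℝ) (hf : BddNN f) (hf1 : ∫ s, f s ∂(sphereM d) = 1)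
    {F₀ : ℝ} (hF : ∀ s, f s ≤ F₀)
    (hn : √(((2 * a : ℕ) : ℝ)) * (1 / 2 : ℝ) ^ n * (1 + 2 * ((1 + 2 / σ₀) ^ (2 * a) - 1)) ≤
      √32 * √(d : ℝ) * rho L) :
    ∫⁻ s in {s : Fin (2 * a + 1) → E d | ∃ j, dSeq s j < σ₀},
      ENNReal.ofReal (Fn (w := 2 * a) (priorM f) n L (Kc a L) (√32) s)
        ∂(Measure.pi fun _ => priorM f) ≤
      ENNReal.ofReal ((Bc a L) ^ (2 * a) * ((2 : ℝ) ^ (2 * a)) ^ (2 * a) *
        (F₀ ^ (2 * a + 1) * σ₀ ^ (2 * a) * (2 : ℝ) ^ (10 * (2 * a) * (2 * a)))) := by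
  classical
  haveI := priorM_isProb hf hf1
  have hd : 0 < d := by omega
  have hBc := one_le_Bc ha L
  set c : ℝ := (Bc a L) ^ (2 * a) * ((2 : ℝ) ^ (2 * a)) ^ (2 * a) with hc
  have hc0 : 0 ≤ c := by positivity
  have hδ0 : (0 : ℝ) < (1 / 2 : ℝ) ^ n := by positivity
  have hpt : ∀ᵐ s ∂(Measure.pi fun _ : Fin (2 * a + 1) => priorM f),
      s ∈ {s : Fin (2 * a + 1) → E d | ∃ j, dSeq s j < σ₀} →
      ENNReal.ofReal (Fn (w := 2 * a) (priorM f) n L (Kc a L) (√32) s) ≤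
        ENNReal.ofReal c * ∏ j : Fin (2 * a), (ENNReal.ofReal (dSeq s j))⁻¹ ^ (2 * a) := by
    filter_upwards [ae_unit_tuple hd f] with s hs hill
    have h1 := F_le_Bc ha hda n hσ₀ f hf hf1 hn s hs
    have hS : aSharp (priorM f) (2 * a) L σ₀ s = ((rho 0)⁻¹) ^ (2 * a) := by
      unfold aSharp
      rw [if_neg]
      push Not
      exact hill
    have hS' : ((aSharp (priorM f) (2 * a) L σ₀ s)⁻¹) ^ (2 * a) = ((2 : ℝ) ^ (2 * a)) ^ (2 * a) := by
      have h20 : rho 0 = 2 := by unfold rho; norm_num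
      rw [hS, h20]
      congr 1
      rw [inv_pow, inv_inv]
    rw [hS'] at h1
    have h2 : Fn (w := 2 * a) (priorM f) n L (Kc a L) (√32) s ≤
        c * ∏ j : Fin (2 * a), ((max (dSeq s j) ((1 / 2 : ℝ) ^ n))⁻¹) ^ (2 * a) := by
      refine h1.trans (le_of_eq ?_)
      rw [hc]
      ring
    refine (ENNReal.ofReal_le_ofReal h2).trans ?_
    rw [ENNReal.ofReal_mul hc0,
      ENNReal.ofReal_prod_of_nonneg fun j _ => (max_inv_pow_pos hδ0 _ _).le]
    gcongr with j _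
    have hmax : 0 < max (dSeq s j) ((1 / 2 : ℝ) ^ n) := lt_of_lt_of_le hδ0 (le_max_right _ _)
    rw [ENNReal.ofReal_pow (by positivity), ENNReal.ofReal_inv_of_pos hmax]
    gcongr
    exact le_max_left _ _
  have hill := ill_mass (u := 2 * a) (w := 2 * a) (d := d) (by omega) (by omega) (by omega) f hf hF hσ₀
  have hmeas : MeasurableSet {s : Fin (2 * a + 1) → E d | ∃ j, dSeq s j < σ₀} := by
    have : {s : Fin (2 * a + 1) → E d | ∃ j, dSeq s j < σ₀} =
        ⋃ j, {s : Fin (2 * a + 1) → E d | dSeq s j < σ₀} := by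
      ext s
      simp
    rw [this]
    exact MeasurableSet.iUnion fun j => measurableSet_lt (measurable_dSeq j) measurable_const
  calc _ ≤ ∫⁻ s in {s : Fin (2 * a + 1) → E d | ∃ j, dSeq s j < σ₀},
        ENNReal.ofReal c * ∏ j : Fin (2 * a), (ENNReal.ofReal (dSeq s j))⁻¹ ^ (2 * a)
        ∂(Measure.pi fun _ => priorM f) := setLIntegral_mono_ae' hmeas hpt
    _ = ENNReal.ofReal c * ∫⁻ s in {s : Fin (2 * a + 1) → E d | ∃ j, dSeq s j < σ₀},
        ∏ j : Fin (2 * a), (ENNReal.ofReal (dSeq s j))⁻¹ ^ (2 * a)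
        ∂(Measure.pi fun _ => priorM f) := by
        refine lintegral_const_mul _ ?_
        exact Finset.measurable_prod _ fun j _ =>
          ((measurable_dSeq j).ennreal_ofReal.inv).pow_const _
    _ ≤ ENNReal.ofReal c * ENNReal.ofReal (F₀ ^ (2 * a + 1) * σ₀ ^ (2 * a) *
        (2 : ℝ) ^ (10 * (2 * a) * (2 * a))) := by gcongr
    _ = _ := by rw [ENNReal.ofReal_mul hc0]

end Vale.Agent.P309F
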