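import Vale.Agent.P309F.WinCellA

open MeasureTheory ProbabilityTheory Real Set Filter Topology
open scoped RealInnerProductSpace ENNReal

namespace Vale.Agent.P309F
open Vale.Agent.P309

variable {d : ℕ}

/-- The integral of the replica density against the test function. -/
lemma X_bound (𝓡 : RotModel d) {a L : ℕ} (ha : 1 ≤ a) (had : 64 * a ≤ d) (hda : d ≤ 128 * a)
    (J : Finset (Fin d)) (n : ℕ) {σ₀ : ℝ} (hσ₀ : 0 < σ₀)
    (f : E d → ℝ) (hf : BddNN f) (hf1 : ∫ s, f s ∂(sphereM d) = 1) {F₀ : ℝ} (hF : ∀ s, f s ≤ F₀)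
    (hn : √(((2 * a : ℕ) : ℝ)) * (1 / 2 : ℝ) ^ n * (1 + 2 * ((1 + 2 / σ₀) ^ (2 * a) - 1)) ≤
      √32 * √(d : ℝ) * rho L)
    (hill : ((2 * a : ℕ) : ℝ) * (((2 * a : ℕ) : ℝ) * L) *
      ((Bc a L) ^ (2 * a) * ((2 : ℝ) ^ (2 * a)) ^ (2 * a) *
        (F₀ ^ (2 * a + 1) * σ₀ ^ (2 * a) * (2 : ℝ) ^ (10 * (2 * a) * (2 * a)))) ≤ 1)
    (R : 𝓡.Ω) :
    ∫ s, Fn (w := 2 * a) (priorM f) n L (Kc a L) (√32) s *
        log (Fn (w := 2 * a) (priorM f) n L (Kc a L) (√32) s /
          Gtest (priorM f) (PO J (𝓡.act R)) (2 * a) L ((1 / 2 : ℝ) ^ n)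
            (fun j => PO J (𝓡.act R) (s j))) ∂(Measure.pi fun _ : Fin (2 * a + 1) => priorM f) ≤
      ((2 * a : ℕ) : ℝ) * log (Bc a L) +
        ((2 * a : ℕ) : ℝ) * (∫ s, Fn (w := 2 * a) (priorM f) n L (Kc a L) (√32) s *
          log (thetaR 𝓡 a L J (priorM f) R s) ∂(Measure.pi fun _ : Fin (2 * a + 1) => priorM f)) +
        1 := by
  classical
  haveI := priorM_isProb hf hf1
  have hd : 0 < d := by omega
  have hK := Kc_pos ha L
  set PR := Measure.pi fun _ : Fin (2 * a + 1) => priorM f with hPR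
  set F : (Fin (2 * a + 1) → E d) → ℝ := Fn (w := 2 * a) (priorM f) n L (Kc a L) (√32) with hFdef
  have hFm : Measurable F := measurable_Fn n L f hf (√32)
  have hF0 : ∀ s, 0 ≤ F s := fun s => (Fn_bounds n L f hf hd hK s).1
  set B : ℝ := ((tauG d (2 * a) n (Kc a L) (√32))⁻¹) ^ (2 * a) with hB
  have hFB : ∀ s, F s ≤ B := fun s => (Fn_bounds n L f hf hd hK s).2
  have hB0 : 0 ≤ B := (hF0 (fun _ => 0)).trans (hFB _)
  have hFi : Integrable F PR := by
    refine Integrable.of_bound hFm.aestronglyMeasurable B (Filter.Eventually.of_forall fun s => ?_)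
    rw [Real.norm_eq_abs, abs_of_nonneg (hF0 s)]
    exact hFB s
  set T : (Fin (2 * a + 1) → E d) → ℝ := fun s => log (thetaR 𝓡 a L J (priorM f) R s) with hTdef
  have hTm : Measurable T := by
    have h0 : Measurable fun s : Fin (2 * a + 1) → E d => (R, s) :=
      measurable_const.prodMk measurable_id
    have h1 := (measurable_thetaR_pair (u := 2 * a) 𝓡 a L J (priorM f)).comp h0
    exact Real.measurable_log.comp h1
  have hT0 : ∀ s, 0 ≤ T s := fun s => Real.log_nonneg (one_le_thetaR 𝓡 a L J (priorM f) R s)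
  set Tm : ℝ := log (((rho L)⁻¹) ^ (2 * a) * 2 ^ (2 * a)) with hTm'
  have hTle : ∀ s, T s ≤ Tm := fun s =>
    Real.log_le_log (lt_of_lt_of_le one_pos (one_le_thetaR 𝓡 a L J (priorM f) R s))
      (thetaR_le 𝓡 a L J (priorM f) R s)
  have hFTi : Integrable (fun s => F s * T s) PR := by
    refine Integrable.of_bound (hFm.mul hTm).aestronglyMeasurable (B * Tm)
      (Filter.Eventually.of_forall fun s => ?_)
    rw [Real.norm_eq_abs, abs_of_nonneg (mul_nonneg (hF0 s) (hT0 s))]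
    exact mul_le_mul (hFB s) (hTle s) (hT0 s) hB0
  set Ill : Set (Fin (2 * a + 1) → E d) := {s | ∃ j, dSeq s j < σ₀} with hIll
  have hmeas : MeasurableSet Ill := by
    have : Ill = ⋃ j, {s : Fin (2 * a + 1) → E d | dSeq s j < σ₀} := by
      ext s
      simp [hIll]
    rw [this]
    exact MeasurableSet.iUnion fun j => measurableSet_lt (measurable_dSeq j) measurable_const
  have hIi : Integrable (Ill.indicator F) PR := hFi.indicator hmeas
  set U : ℝ := ((2 * a : ℕ) : ℝ) with hU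
  have hU0 : 0 ≤ U := by positivity
  have hBc := one_le_Bc ha L
  have hlB : 0 ≤ log (Bc a L) := Real.log_nonneg hBc
  have hF₀0 : 0 ≤ F₀ := (hf.nonneg 0).trans (hF 0)
  set Mill : ℝ := (Bc a L) ^ (2 * a) * ((2 : ℝ) ^ (2 * a)) ^ (2 * a) *
        (F₀ ^ (2 * a + 1) * σ₀ ^ (2 * a) * (2 : ℝ) ^ (10 * (2 * a) * (2 * a))) with hMill
  have hMill0 : 0 ≤ Mill := by positivity
  have hIill : ∫ s, Ill.indicator F s ∂PR ≤ Mill := by
    rw [integral_indicator hmeas]
    have h1 := ill_part (L := L) ha had hda n hσ₀ f hf hf1 hF hn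
    rw [← ofReal_integral_eq_lintegral_ofReal (hFi.restrict)
      (Filter.Eventually.of_forall fun s => hF0 s)] at h1
    exact (ENNReal.ofReal_le_ofReal_iff hMill0).1 h1
  have hFint : ∫ s, F s ∂PR ≤ 1 := integral_Fn_le n L f hf hf1 hd hK
  have hFTint : 0 ≤ ∫ s, F s * T s ∂PR := integral_nonneg fun s => mul_nonneg (hF0 s) (hT0 s)
  set H : (Fin (2 * a + 1) → E d) → ℝ := fun s =>
    F s * (U * log (Bc a L) + U * T s) + U * (U * L) * Ill.indicator F s with hH
  have hHi : Integrable H PR := by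
    have e : H = fun s => (U * log (Bc a L)) * F s + U * (F s * T s) + U * (U * L) * Ill.indicator F s := by
      funext s
      simp only [hH]
      ring
    rw [e]
    exact ((hFi.const_mul _).add (hFTi.const_mul _)).add (hIi.const_mul _)
  have hHint : ∫ s, H s ∂PR = (U * log (Bc a L)) * (∫ s, F s ∂PR) + U * (∫ s, F s * T s ∂PR) +
      U * (U * L) * ∫ s, Ill.indicator F s ∂PR := by
    have e : H = fun s => (U * log (Bc a L)) * F s + U * (F s * T s) + U * (U * L) * Ill.indicator F s := by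
      funext s
      simp only [hH]
      ring
    rw [e]
    have i1 : Integrable (fun s => U * log (Bc a L) * F s) PR := hFi.const_mul _
    have i2 : Integrable (fun s => U * (F s * T s)) PR := hFTi.const_mul _
    have i3 : Integrable (fun s => U * (U * L) * Ill.indicator F s) PR := hIi.const_mul _
    have i12 : Integrable (fun s => U * log (Bc a L) * F s + U * (F s * T s)) PR := i1.add i2
    calc _ = ∫ s, (U * log (Bc a L) * F s + U * (F s * T s)) ∂PR +
          ∫ s, U * (U * L) * Ill.indicator F s ∂PR := integral_add i12 i3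
      _ = _ := by
        rw [integral_add i1 i2, integral_const_mul, integral_const_mul, integral_const_mul]
  have hHle : ∫ s, H s ∂PR ≤ U * log (Bc a L) + U * (∫ s, F s * T s ∂PR) + 1 := by
    rw [hHint]
    have h1 : (U * log (Bc a L)) * (∫ s, F s ∂PR) ≤ U * log (Bc a L) := by
      have : 0 ≤ U * log (Bc a L) := mul_nonneg hU0 hlB
      nlinarith
    have h2 : U * (U * L) * ∫ s, Ill.indicator F s ∂PR ≤ U * (U * L) * Mill :=
      mul_le_mul_of_nonneg_left hIill (by positivity)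
    linarith
  have hRHS0 : 0 ≤ U * log (Bc a L) + U * (∫ s, F s * T s ∂PR) + 1 := by positivity
  by_cases hint : Integrable (fun s => F s * log (F s /
      Gtest (priorM f) (PO J (𝓡.act R)) (2 * a) L ((1 / 2 : ℝ) ^ n)
        (fun j => PO J (𝓡.act R) (s j)))) PR
  · refine le_trans (integral_mono_ae hint hHi ?_) hHle
    filter_upwards [ae_unit_tuple hd f] with s hs
    exact Fn_log_le 𝓡 ha hda J n hσ₀ f hf hf1 hn R s hs (hF0 s)
  · rw [integral_undef hint]
    exact hRHS0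

/-! ### The test function -/

lemma measurable_Gt {u w L : ℕ} (pr : Measure (E d)) [IsFiniteMeasure pr] (J : Finset (Fin d))
    (O : E d ≃ₗᵢ[ℝ] E d) (δ : ℝ) :
    Measurable fun s : Fin (u + 1) → E d =>
      Gtest pr (PO J O) w L δ (fun j => PO J O (s j)) := by
  have h1 : Measurable fun s : Fin (u + 1) → E d => fun j => PO J O (s j) :=
    measurable_pi_lambda _ fun j => (PO J O).continuous.measurable.comp (measurable_pi_apply j)
  exact (measurable_Gtest (u := u) (w := w) (L := L) pr J O δ).comp h1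

lemma Gt_fib {u w L : ℕ} (pr : Measure (E d)) [IsFiniteMeasure pr] (J : Finset (Fin d))
    (O : E d ≃ₗᵢ[ℝ] E d) (δ : ℝ) (j : Fin (u + 1)) (s : Fin (u + 1) → E d) :
    Measurable[fibO J O] fun x =>
      Gtest pr (PO J O) w L δ (fun i => PO J O (Function.update s j x i)) := by
  have h1 : Measurable fun y : E d =>
      Gtest pr (PO J O) w L δ (Function.update (fun i => PO J O (s i)) j y) :=
    (measurable_Gtest (u := u) (w := w) (L := L) pr J O δ).comp (measurable_update _)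
  have h2 : Measurable[fibO J O] (PO J O) := comap_measurable _
  have e : (fun x => Gtest pr (PO J O) w L δ (fun i => PO J O (Function.update s j x i))) =
      (fun y : E d => Gtest pr (PO J O) w L δ (Function.update (fun i => PO J O (s i)) j y)) ∘
        (PO J O) := by
    funext x
    simp only [Function.comp_apply]
    congr 1
    funext i
    by_cases h : i = j
    · subst h
      simp
    · simp [h]
  rw [e]
  exact h1.comp h2

lemma logZ_le {u w L : ℕ} (J : Finset (Fin d)) (O : E d ≃ₗᵢ[ℝ] E d) (hw : 1 ≤ w) (hL : 1 ≤ L)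
    (f : E d → ℝ) (hf : BddNN f) (hf1 : ∫ s, f s ∂(sphereM d) = 1) {F₀ : ℝ} (hF : ∀ s, f s ≤ F₀)
    (hFL : F₀ ≤ (2 : ℝ) ^ (3 * w * (L - 1))) {δ : ℝ} (hδ : 0 < δ) (hδ2 : δ ≤ 2)
    (hdim : 2 * (u + 1 + (d - J.card)) + 4 * w < d) :
    log (∫ s, Gtest (priorM f) (PO J O) w L δ (fun j => PO J O (s j))
        ∂(Measure.pi fun _ : Fin (u + 1) => priorM f)) ≤
      (u : ℝ) * log (2 ^ w * ((L : ℝ) + 1) + 1) := by
  haveI := priorM_isProb hf hf1
  set PR := Measure.pi fun _ : Fin (u + 1) => priorM f with hPR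
  have hm := measurable_Gt (u := u) (w := w) (L := L) (priorM f) J O δ
  set g₀ : ℝ := ((1 / 2 : ℝ)) ^ (w * u) * ((rho L) ^ w) ^ u with hg₀
  set g₁ : ℝ := (δ⁻¹) ^ (w * u) * ((2 : ℝ) ^ w) ^ u with hg₁
  have hg₀0 : 0 < g₀ := by
    have := wc_rho_pos L
    positivity
  have hb : ∀ s : Fin (u + 1) → E d,
      g₀ ≤ Gtest (priorM f) (PO J O) w L δ (fun j => PO J O (s j)) ∧
        Gtest (priorM f) (PO J O) w L δ (fun j => PO J O (s j)) ≤ g₁ := fun s =>
    Gtest_bounds (priorM f) (PO J O) hδ hδ2 _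
  have hi : Integrable (fun s : Fin (u + 1) → E d =>
      Gtest (priorM f) (PO J O) w L δ (fun j => PO J O (s j))) PR := by
    refine Integrable.of_bound hm.aestronglyMeasurable g₁ (Filter.Eventually.of_forall fun s => ?_)
    rw [Real.norm_eq_abs, abs_of_nonneg (hg₀0.le.trans (hb s).1)]
    exact (hb s).2
  set Z := ∫ s, Gtest (priorM f) (PO J O) w L δ (fun j => PO J O (s j)) ∂PR with hZ
  have hZpos : 0 < Z := by
    have h1 : ∫ _ : Fin (u + 1) → E d, g₀ ∂PR ≤ Z :=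
      integral_mono (integrable_const _) hi fun s => (hb s).1
    have h2 : ∫ _ : Fin (u + 1) → E d, g₀ ∂PR = g₀ := by simp
    linarith
  have hZle : Z ≤ (2 ^ w * ((L : ℝ) + 1) + 1) ^ u := by
    have h := Gtest_integral (u := u) J O hw hL f hf hf1 hF hFL hδ hδ2 hdim
    rw [← ofReal_integral_eq_lintegral_ofReal hi
      (Filter.Eventually.of_forall fun s => hg₀0.le.trans (hb s).1)] at h
    exact (ENNReal.ofReal_le_ofReal_iff (by positivity)).1 h
  calc log Z ≤ log ((2 ^ w * ((L : ℝ) + 1) + 1) ^ u) := Real.log_le_log hZpos hZle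
    _ = _ := Real.log_pow _ _

/-! ### The rule -/

lemma integrable_rule {w : ℕ} {h : Rows d w → (Fin w → ℤ) → ℝ}
    (hh : Measurable (Function.uncurry h)) (h0 : ∀ A i, 0 ≤ h A i) (h1 : ∀ A i, h A i ≤ 1)
    (n : ℕ) (s : E d) : Integrable (fun A => h A (cell n A s)) (rowsM d w) :=
  integrable_of_unit (measurable_rule_A hh n s) (fun _ => h0 _ _) (fun _ => h1 _ _)

lemma rule_nonneg {w : ℕ} {h : Rows d w → (Fin w → ℤ) → ℝ}
    (h0 : ∀ A i, 0 ≤ h A i) (n : ℕ) (s : E d) : 0 ≤ ∫ A, h A (cell n A s) ∂(rowsM d w) :=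
  integral_nonneg fun _ => h0 _ _

lemma rule_le_one {w : ℕ} {h : Rows d w → (Fin w → ℤ) → ℝ}
    (hh : Measurable (Function.uncurry h)) (h0 : ∀ A i, 0 ≤ h A i) (h1 : ∀ A i, h A i ≤ 1)
    (n : ℕ) (s : E d) : ∫ A, h A (cell n A s) ∂(rowsM d w) ≤ 1 := by
  calc _ ≤ ∫ _ : Rows d w, (1 : ℝ) ∂(rowsM d w) :=
        integral_mono (integrable_rule hh h0 h1 n s) (integrable_const _) fun A => h1 _ _
    _ = 1 := by simp

lemma bdd_mul_rule {w : ℕ} {f : E d → ℝ} (hf : BddNN f) {h : Rows d w → (Fin w → ℤ) → ℝ}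
    (hh : Measurable (Function.uncurry h)) (h0 : ∀ A i, 0 ≤ h A i) (h1 : ∀ A i, h A i ≤ 1)
    (n : ℕ) : BddNN fun s => f s * ∫ A, h A (cell n A s) ∂(rowsM d w) := by
  obtain ⟨F, hF⟩ := hf.bdd
  refine ⟨hf.meas.mul (measurable_rule_s hh n), fun s =>
    mul_nonneg (hf.nonneg s) (rule_nonneg h0 n s), F, fun s => ?_⟩
  calc _ ≤ f s * 1 := mul_le_mul_of_nonneg_left (rule_le_one hh h0 h1 n s) (hf.nonneg s)
    _ ≤ F := by simpa using hF s

/-! ### The inequality for one rotation -/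

/-- The final arithmetic. -/
lemma window_arith {N u Ψa A1 Pg Pb Pf τ β lZ lC X ℓ lB T : ℝ} (hN : 3 ≤ N) (hu : u + 1 = N)
    (hτβ : τ + β = 1) (hβ0 : 0 ≤ β) (hβ : β ≤ 1 / N) (hlC : 0 ≤ lC) (hℓ : 0 ≤ ℓ) (hlB : 0 ≤ lB)
    (hT : 0 ≤ T) (h2 : log 2 ≤ 0.6932)
    (hg : A1 ≤ Pg + 2 * (1 - τ) + (1 / N) * (τ * lZ + τ * lC + (1 - τ) + X))
    (hs : Ψa ≤ A1 + Pb + β * lC) (ht : Pg + Pb ≤ Pf + log 2) (hZ : lZ ≤ u * ℓ)
    (hX : X ≤ u * lB + u * T + 1) :
    Ψa - Pf - (2 / N) * lC ≤ (2 + ℓ + lB) + T := by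
  have hN0 : 0 < N := by linarith
  set ι : ℝ := 1 / N with hι
  have hι0 : 0 < ι := by positivity
  have hι3 : ι ≤ 1 / 3 := by
    rw [hι]
    exact one_div_le_one_div_of_le (by norm_num) hN
  have hιN : ι * N = 1 := by
    rw [hι]
    field_simp
  have hιu : ι * u ≤ 1 := by
    have : u = N - 1 := by linarith
    rw [this]
    nlinarith
  have hu0 : 0 ≤ u := by linarith
  have hτ1 : τ ≤ 1 := by linarith
  have hτ0 : 0 ≤ τ := by
    have : ι ≤ 1 := by linarith
    linarith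
  have e2 : 2 / N = ι + ι := by
    rw [hι]
    ring
  have e1 : 1 - τ = β := by linarith
  rw [e1] at hg
  have h1 : ι * (τ * lZ) ≤ ℓ := by
    have h3 : τ * lZ ≤ τ * (u * ℓ) := mul_le_mul_of_nonneg_left hZ hτ0
    have h4 : ι * (τ * lZ) ≤ ι * (τ * (u * ℓ)) := mul_le_mul_of_nonneg_left h3 hι0.le
    have h5 : ι * (τ * (u * ℓ)) = τ * (ι * u) * ℓ := by ring
    have h6 : τ * (ι * u) ≤ 1 * 1 := mul_le_mul hτ1 hιu (by positivity) (by norm_num)
    have h7 : τ * (ι * u) * ℓ ≤ 1 * 1 * ℓ := mul_le_mul_of_nonneg_right h6 hℓ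
    linarith
  have h2' : ι * (τ * lC) + β * lC ≤ (ι + ι) * lC := by
    have h3 : ι * τ ≤ ι * 1 := mul_le_mul_of_nonneg_left hτ1 hι0.le
    have h4 : (ι * τ + β) * lC ≤ (ι + ι) * lC := by
      apply mul_le_mul_of_nonneg_right _ hlC
      linarith
    linarith
  have h3 : ι * β ≤ 1 / 9 := by
    have h4 : ι * β ≤ (1 / 3) * (1 / 3) := mul_le_mul hι3 (hβ.trans hι3) hβ0 (by norm_num)
    linarith
  have h4 : ι * X ≤ lB + T + 1 / 3 := by
    have h5 := mul_le_mul_of_nonneg_left hX hι0.le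
    have h6 : ι * (u * lB + u * T + 1) = (ι * u) * lB + (ι * u) * T + ι := by ring
    have h7 : (ι * u) * lB ≤ 1 * lB := mul_le_mul_of_nonneg_right hιu hlB
    have h8 : (ι * u) * T ≤ 1 * T := mul_le_mul_of_nonneg_right hιu hT
    linarith
  have e3 : ι * (τ * lZ + τ * lC + β + X) = ι * (τ * lZ) + ι * (τ * lC) + ι * β + ι * X := by ring
  rw [e3] at hg
  rw [e2]
  have : 2 * β ≤ 2 / 3 := by linarith
  linarith

/-- The inequality for one rotation, in real numbers. -/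
theorem window_real (𝓡 : RotModel d) {a L : ℕ} (ha : 1 ≤ a) (had : 64 * a ≤ d) (hda : d ≤ 128 * a)
    (J : Finset (Fin d)) (hJ : d ≤ J.card + 2 * a + 2) (hL : 1 ≤ L)
    (f : E d → ℝ) (hf : BddNN f) (hf1 : ∫ s, f s ∂(sphereM d) = 1)
    (hF : ∀ s, f s ≤ (2 : ℝ) ^ (3 * (2 * a) * (L - 1)))
    {V : Type*} [Fintype V] [Nonempty V] {σ₀ : ℝ} (hσ₀ : 0 < σ₀)
    (hill : ((2 * a : ℕ) : ℝ) * (((2 * a : ℕ) : ℝ) * L) *
      ((Bc a L) ^ (2 * a) * ((2 : ℝ) ^ (2 * a)) ^ (2 * a) *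
        (((2 : ℝ) ^ (3 * (2 * a) * (L - 1))) ^ (2 * a + 1) * σ₀ ^ (2 * a) *
          (2 : ℝ) ^ (10 * (2 * a) * (2 * a)))) ≤ 1)
    (n : ℕ)
    (hn : √(((2 * a : ℕ) : ℝ)) * (1 / 2 : ℝ) ^ n * (1 + 2 * ((1 + 2 / σ₀) ^ (2 * a) - 1)) ≤
      √32 * √(d : ℝ) * rho L)
    (φ : V → Rows d (2 * a) → (Fin (2 * a) → ℤ) → ℝ)
    (hφm : ∀ v, Measurable (Function.uncurry (φ v))) (hφ0 : ∀ v A i, 0 ≤ φ v A i)
    (hφ1 : ∀ A i, ∑ v, φ v A i = 1) (R : 𝓡.Ω) :
    ∑ v, Psi (fibO J (𝓡.act R)) (sphereM d)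
        (fun s => f s * ∫ A, φ v A (cell n A s) ∂(rowsM d (2 * a))) -
      Psi (fibO J (𝓡.act R)) (sphereM d) f -
      (2 / (2 * (a : ℝ) + 1)) * log (Fintype.card V) ≤
    (2 + log (2 ^ (2 * a) * ((L : ℝ) + 1) + 1) + log (Bc a L)) +
      ∫ s, Fn (w := 2 * a) (priorM f) n L (Kc a L) (√32) s *
        log (thetaR 𝓡 a L J (priorM f) R s) ∂(Measure.pi fun _ : Fin (2 * a + 1) => priorM f) := by
  classical
  haveI := priorM_isProb hf hf1
  have hd : 0 < d := by omega
  have hK := Kc_pos ha L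
  have ha1 : (1 : ℝ) ≤ a := by exact_mod_cast ha
  have hcast : ((2 * a : ℕ) : ℝ) = 2 * (a : ℝ) := by push_cast; ring
  set O := 𝓡.act R with hO
  have hGle := fibO_le J O
  set gi : Rows d (2 * a) → (Fin (2 * a) → ℤ) → ℝ := gInd (priorM f) n L (Kc a L) (√32) with hgi
  have hgim : Measurable (Function.uncurry gi) := measurable_gInd f hf n L (Kc a L) (√32)
  have hgi0 : ∀ A i, 0 ≤ gi A i := gInd_nonneg _ _ _ _ _
  have hgi1 : ∀ A i, gi A i ≤ 1 := gInd_le_one _ _ _ _ _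
  have hφ1' : ∀ v A i, φ v A i ≤ 1 := fun v A i => by
    rw [← hφ1 A i]
    exact Finset.single_le_sum (f := fun v => φ v A i) (fun w _ => hφ0 w A i) (Finset.mem_univ v)
  set θ : V → Rows d (2 * a) → (Fin (2 * a) → ℤ) → ℝ := fun v A i => gi A i * φ v A i with hθ
  set θb : V → Rows d (2 * a) → (Fin (2 * a) → ℤ) → ℝ := fun v A i => (1 - gi A i) * φ v A i with hθb
  have hθm : ∀ v, Measurable (Function.uncurry (θ v)) := fun v => hgim.mul (hφm v)
  have hθbm : ∀ v, Measurable (Function.uncurry (θb v)) := fun v =>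
    (measurable_const.sub hgim).mul (hφm v)
  have hθ0 : ∀ v A i, 0 ≤ θ v A i := fun v A i => mul_nonneg (hgi0 A i) (hφ0 v A i)
  have hθb0 : ∀ v A i, 0 ≤ θb v A i := fun v A i =>
    mul_nonneg (by linarith [hgi1 A i]) (hφ0 v A i)
  have hθ1 : ∀ v A i, θ v A i ≤ 1 := fun v A i => by
    have h1 := hgi0 A i
    have h2 := hgi1 A i
    have h3 := hφ0 v A i
    have h4 := hφ1' v A i
    simp only [hθ]
    nlinarith
  have hθb1 : ∀ v A i, θb v A i ≤ 1 := fun v A i => by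
    have h1 := hgi0 A i
    have h2 := hgi1 A i
    have h3 := hφ0 v A i
    have h4 := hφ1' v A i
    simp only [hθb]
    nlinarith
  have hθsum : ∀ A i, ∑ v, θ v A i = gi A i := fun A i => by
    simp only [hθ]
    rw [← Finset.mul_sum, hφ1, mul_one]
  have hθbsum : ∀ A i, ∑ v, θb v A i = 1 - gi A i := fun A i => by
    simp only [hθb]
    rw [← Finset.mul_sum, hφ1, mul_one]
  set mg : V → E d → ℝ := fun v s => ∫ A, θ v A (cell n A s) ∂(rowsM d (2 * a)) with hmg
  set mb : V → E d → ℝ := fun v s => ∫ A, θb v A (cell n A s) ∂(rowsM d (2 * a)) with hmb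
  have hug : ∀ v, BddNN fun s => f s * mg v s := fun v =>
    bdd_mul_rule hf (hθm v) (hθ0 v) (hθ1 v) n
  have hub : ∀ v, BddNN fun s => f s * mb v s := fun v =>
    bdd_mul_rule hf (hθbm v) (hθb0 v) (hθb1 v) n
  have hdec : ∀ v s, ∫ A, φ v A (cell n A s) ∂(rowsM d (2 * a)) = mg v s + mb v s := by
    intro v s
    simp only [hmg, hmb]
    rw [← integral_add (integrable_rule (hθm v) (hθ0 v) (hθ1 v) n s)
      (integrable_rule (hθbm v) (hθb0 v) (hθb1 v) n s)]
    refine integral_congr_ae (ae_of_all _ fun A => ?_)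
    simp only [hθ, hθb]
    ring
  have hsumg : ∀ s, ∑ v, mg v s = ∫ A, gi A (cell n A s) ∂(rowsM d (2 * a)) := by
    intro s
    simp only [hmg]
    rw [← integral_finsetSum _ fun v _ => integrable_rule (hθm v) (hθ0 v) (hθ1 v) n s]
    simp only [hθsum]
  have hgb1 : ∀ A i, 1 - gi A i ≤ 1 := fun A i => by linarith [hgi0 A i]
  have hgb0 : ∀ A i, 0 ≤ 1 - gi A i := fun A i => by linarith [hgi1 A i]
  have hgbm : Measurable (Function.uncurry fun A i => 1 - gi A i) := measurable_const.sub hgim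
  have hsumb : ∀ s, ∑ v, mb v s = ∫ A, (1 - gi A (cell n A s)) ∂(rowsM d (2 * a)) := by
    intro s
    simp only [hmb]
    rw [← integral_finsetSum _ fun v _ => integrable_rule (hθbm v) (hθb0 v) (hθb1 v) n s]
    simp only [hθbsum]
  have hsum1 : ∀ s, ∑ v, mg v s + ∑ v, mb v s = 1 := by
    intro s
    rw [hsumg, hsumb, ← integral_add (integrable_rule hgim hgi0 hgi1 n s)
      (integrable_rule hgbm hgb0 hgb1 n s)]
    simp
  have hfg : BddNN fun s => f s * ∑ v, mg v s := by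
    have := bdd_mul_rule hf hgim hgi0 hgi1 n
    simpa only [hsumg] using this
  have hfb : BddNN fun s => f s * ∑ v, mb v s := by
    have := bdd_mul_rule hf hgbm hgb0 hgb1 n
    simpa only [hsumb] using this
  -- the total masses
  set τ : ℝ := ∫ s, f s * ∑ v, mg v s ∂(sphereM d) with hτ
  set β : ℝ := ∫ s, f s * ∑ v, mb v s ∂(sphereM d) with hβ
  have hτβ : τ + β = 1 := by
    rw [hτ, hβ, ← integral_add (hfg.integrable) (hfb.integrable), ← hf1]
    refine integral_congr_ae (ae_of_all _ fun s => ?_)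
    simp only
    rw [← mul_add, hsum1, mul_one]
  have hβ0 : 0 ≤ β := integral_nonneg hfb.nonneg
  have hβle : β ≤ 1 / (2 * (a : ℝ) + 1) := by
    have hδ : √(((2 * a : ℕ) : ℝ)) * (1 / 2 : ℝ) ^ n ≤ rLev d (√32) L := by
      have h1 : (1 : ℝ) ≤ 1 + 2 * ((1 + 2 / σ₀) ^ (2 * a) - 1) := by
        have : (1 : ℝ) ≤ (1 + 2 / σ₀) ^ (2 * a) := one_le_pow₀ (by
          have : 0 ≤ 2 / σ₀ := by positivity
          linarith)
        linarith
      have h2 : 0 ≤ √(((2 * a : ℕ) : ℝ)) * (1 / 2 : ℝ) ^ n := by positivity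
      have h3 := le_mul_of_one_le_right h2 h1
      have h4 : 0 ≤ √32 * √(d : ℝ) * rho L := by
        have := wc_rho_pos L
        positivity
      unfold rLev
      nlinarith
    have hbad := bad_mass (w := 2 * a) (by omega) (by omega) n L hL hK f hf hf1 hδ
    refine le_trans (le_of_eq ?_) (hbad.trans (bad_frac ha had))
    rw [hβ]
    refine integral_congr_ae (ae_of_all _ fun s => ?_)
    simp only
    rw [hsumb]
    congr 1
    have e : ∀ A, 1 - gi A (cell n A s) =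
        ({A | (A, cell n A s) ∉ goodG (priorM f) n L (Kc a L) (√32)}).indicator (fun _ => (1 : ℝ)) A := by
      intro A
      by_cases h : (A, cell n A s) ∈ goodG (priorM f) n L (Kc a L) (√32)
      · simp [hgi, gInd, h]
      · simp [hgi, gInd, h]
    simp_rw [e]
    have hms : MeasurableSet {A : Rows d (2 * a) | (A, cell n A s) ∉ goodG (priorM f) n L (Kc a L) (√32)} := by
      have h1 : Measurable fun A : Rows d (2 * a) => 1 - gi A (cell n A s) :=
        measurable_rule_A hgbm n s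
      have h2 : {A : Rows d (2 * a) | (A, cell n A s) ∉ goodG (priorM f) n L (Kc a L) (√32)} =
          (fun A : Rows d (2 * a) => 1 - gi A (cell n A s)) ⁻¹' {1} := by
        ext A
        by_cases h : (A, cell n A s) ∈ goodG (priorM f) n L (Kc a L) (√32)
        · simp [hgi, gInd, h]
        · simp [hgi, gInd, h]
      rw [h2]
      exact h1 (measurableSet_singleton _)
    rw [integral_indicator hms]
    simp
  have ha3 : (3 : ℝ) ≤ 2 * (a : ℝ) + 1 := by linarith
  have hβ3 : β ≤ 1 / 3 := hβle.trans (one_div_le_one_div_of_le (by norm_num) ha3)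
  have hτ0 : 0 < τ := by linarith
  -- the test function
  set δ : ℝ := (1 / 2 : ℝ) ^ n with hδ
  have hδ0 : 0 < δ := by positivity
  have hδ2 : δ ≤ 2 := by
    have : δ ≤ 1 := pow_le_one₀ (by norm_num) (by norm_num)
    linarith
  set Gt : (Fin (2 * a + 1) → E d) → ℝ := fun s =>
    Gtest (priorM f) (PO J O) (2 * a) L δ (fun j => PO J O (s j)) with hGt
  have hGm : Measurable Gt := measurable_Gt (priorM f) J O δ
  have hg₀ : 0 < ((1 / 2 : ℝ)) ^ ((2 * a) * (2 * a)) * ((rho L) ^ (2 * a)) ^ (2 * a) := by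
    have := wc_rho_pos L
    positivity
  have hgibbs := replica_gibbs (fibO J O) (rowsM d (2 * a)) (sphereM d) (cell n) (measurable_cell n d (2 * a))
    θ hθm hθ0 (fun A i => by rw [hθsum]; exact hgi1 A i) f hf hf1 (priorM f) rfl
    (tauG_pos (w := 2 * a) hd n hK)
    (fun v A i h => gInd_mass _ _ _ _ _ _ (by
      by_contra hc
      have h0 : gi A i = 0 := le_antisymm (not_lt.1 hc) (hgi0 A i)
      simp [hθ, h0] at h))
    hGle (2 * a) Gt hGm hg₀
    (fun s => Gtest_bounds (priorM f) (PO J O) hδ0 hδ2 _)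
    (fun j s => Gt_fib (priorM f) J O δ j s) hτ hτ0
  have hFrep : ∀ s : Fin (2 * a + 1) → E d,
      Frep (rowsM d (2 * a)) (priorM f) (cell n) (fun A i => ∑ v, θ v A i) s =
        Fn (w := 2 * a) (priorM f) n L (Kc a L) (√32) s := by
    intro s
    rw [Fn_eq_Frep]
    congr 1
    funext A i
    exact hθsum A i
  simp only [hFrep] at hgibbs
  have hZ := logZ_le (u := 2 * a) (w := 2 * a) (L := L) J O (by omega) hL f hf hf1 hF le_rfl hδ0 hδ2
    (by omega)
  have hill' := X_bound 𝓡 ha had hda J n hσ₀ f hf hf1 hF hn hill R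
  have hsplit := psi_bad_split (fibO J O) (σ := sphereM d) hGle mg mb hug hub
  have htwo := psi_two (fibO J O) (σ := sphereM d) hGle hf1 (fun s => ∑ v, mg v s) (fun s => ∑ v, mb v s)
    hfg hfb hsum1
  have e0 : (fun v => Psi (fibO J O) (sphereM d) (fun s => f s * ∫ A, φ v A (cell n A s) ∂(rowsM d (2 * a)))) =
      fun v => Psi (fibO J O) (sphereM d) (fun s => f s * (mg v s + mb v s)) := by
    funext v
    congr 1
    funext s
    rw [hdec]
  rw [e0]
  have hN : (3 : ℝ) ≤ ((2 * a : ℕ) : ℝ) + 1 := by rw [hcast]; exact ha3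
  have hN' : ((2 * a : ℕ) : ℝ) + 1 = 2 * (a : ℝ) + 1 := by rw [hcast]
  have hlog2 : log 2 ≤ 0.6932 := by
    have := Real.log_two_lt_d9
    linarith
  have hl0 : 0 ≤ log (Fintype.card V) := Real.log_natCast_nonneg _
  have hℓ : 0 ≤ log (2 ^ (2 * a) * ((L : ℝ) + 1) + 1) := by
    apply Real.log_nonneg
    have : (0 : ℝ) ≤ 2 ^ (2 * a) * ((L : ℝ) + 1) := by positivity
    linarith
  have hlB : 0 ≤ log (Bc a L) := Real.log_nonneg (one_le_Bc ha L)
  have hT0 : 0 ≤ ∫ s, Fn (w := 2 * a) (priorM f) n L (Kc a L) (√32) s *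
        log (thetaR 𝓡 a L J (priorM f) R s) ∂(Measure.pi fun _ : Fin (2 * a + 1) => priorM f) :=
    integral_nonneg fun s => mul_nonneg (Fn_bounds n L f hf hd hK s).1
      (Real.log_nonneg (one_le_thetaR 𝓡 a L J (priorM f) R s))
  exact window_arith (N := 2 * (a : ℝ) + 1) (u := ((2 * a : ℕ) : ℝ)) ha3 hN' hτβ hβ0 hβle hl0 hℓ hlB hT0
    hlog2 (by rw [← hN']; exact hgibbs) hsplit htwo hZ hill'

end Vale.Agent.P309F
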