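import Vale.Agent.P309F.WinCell

open MeasureTheory ProbabilityTheory Real Set Filter Topology
open scoped RealInnerProductSpace ENNReal

namespace Vale.Agent.P309F
open Vale.Agent.P309

variable {d : ℕ}

/-- MODULE WINDOWEXACT. From cells to exact labels: `limRule`, `limRule_tendsto_avg` as in `limit_gain`, `Psi_tendsto` in place of
`Hent_tendsto`; `I = liminf E' n`, measurable, `lintegral_liminf_le`. -/
theorem window_exact (𝓡 : RotModel d) {a L : ℕ} (ha : 1 ≤ a) (had : 64 * a ≤ d) (hda : d ≤ 128 * a)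
    (J : Finset (Fin d)) (hJ : d ≤ J.card + 2 * a + 2) (hL : 1 ≤ L)
    (f : E d → ℝ) (hf : BddNN f) (hf1 : ∫ s, f s ∂(sphereM d) = 1)
    (hF : ∀ s, f s ≤ (2 : ℝ) ^ (3 * (2 * a) * (L - 1)))
    {V : Type*} [Fintype V] [Nonempty V] :
    ∃ I : 𝓡.Ω → ℝ≥0∞, Measurable I ∧
      ∫⁻ R, I R ∂𝓡.ϖ ≤ ENNReal.ofReal (20 * a + 3 * log ((L : ℝ) + 2) + 8) ∧
      ∀ Φ : V → Rows d (2 * a) → (Fin (2 * a) → ℝ) → ℝ,
        (∀ v, Measurable (Function.uncurry (Φ v))) → (∀ v A y, 0 ≤ Φ v A y) →
        (∀ A y, ∑ v, Φ v A y = 1) → ∀ R,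
        ENNReal.ofReal (∑ v, Psi (fibO J (𝓡.act R)) (sphereM d)
            (fun s => f s * ∫ A, Φ v A (obs A s) ∂(rowsM d (2 * a))) -
          Psi (fibO J (𝓡.act R)) (sphereM d) f -
          (2 / (2 * (a : ℝ) + 1)) * log (Fintype.card V)) ≤ I R := by
  classical
  obtain ⟨E', n₀, hEm, hEint, hEcell⟩ := window_cell 𝓡 ha had hda J hJ hL f hf hf1 hF (V := V)
  refine ⟨fun R => liminf (fun n => E' n R) atTop, Measurable.liminf hEm, ?_, ?_⟩
  · calc ∫⁻ R, liminf (fun n => E' n R) atTop ∂𝓡.ϖ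
        ≤ liminf (fun n => ∫⁻ R, E' n R ∂𝓡.ϖ) atTop := lintegral_liminf_le hEm
      _ ≤ _ := liminf_le_of_frequently_le' (Eventually.frequently
          ((eventually_ge_atTop n₀).mono fun n hn => hEint n hn))
  · intro Φ hΦm hΦ0 hΦ1 R
    obtain ⟨v0⟩ := ‹Nonempty V›
    obtain ⟨F, hF'⟩ := hf.bdd
    have hF0 : 0 ≤ F := (hf.nonneg 0).trans (hF' 0)
    have hG : fibO J (𝓡.act R) ≤ (inferInstance : MeasurableSpace (E d)) := fibO_le _ _
    have hlim : ∀ v, Tendsto (fun n => Psi (fibO J (𝓡.act R)) (sphereM d)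
        (fun s => f s * ∫ A, limRule Φ v0 n v A (cell n A s) ∂(rowsM d (2 * a)))) atTop
        (𝓝 (Psi (fibO J (𝓡.act R)) (sphereM d)
          (fun s => f s * ∫ A, Φ v A (obs A s) ∂(rowsM d (2 * a))))) := by
      intro v
      have hU := fun n => bdd_of_pair hf hF' (measurable_rule_pair hΦm v0 n v)
        (fun p => limRule_nonneg hΦ0 v0 n v p.1 _)
        (fun p => limRule_le_one hΦm hΦ0 hΦ1 v0 n v p.1 _)
      have hW := bdd_of_pair hf hF' (measurable_Φ_pair hΦm v)
        (fun p => hΦ0 v p.1 _) (fun p => Φ_le_one hΦ0 hΦ1 v p.1 _)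
      refine Psi_tendsto _ hG (fun n => (hU n).1) hW.1 (fun n => (hU n).2) hW.2 ?_
      have hsq := (limRule_tendsto_avg hΦm hΦ0 hΦ1 v0 v).const_mul F
      rw [mul_zero] at hsq
      refine squeeze_zero (fun n => integral_nonneg fun _ => abs_nonneg _) (fun n => ?_) hsq
      have hfb := integrable_diff_pair hΦm hΦ0 hΦ1 v0 n v
      rw [integral_integral_swap hfb, ← integral_const_mul]
      refine integral_mono_of_nonneg (Filter.Eventually.of_forall fun _ => abs_nonneg _)
        (hfb.integral_prod_right.const_mul F) (Filter.Eventually.of_forall fun s => ?_)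
      have hi1 : Integrable (fun A => limRule Φ v0 n v A (cell n A s)) (rowsM d (2 * a)) := by
        have hm : Measurable fun A : Rows d (2 * a) => (A, s) :=
          measurable_id.prodMk measurable_const
        refine Integrable.of_bound
          ((measurable_rule_pair hΦm v0 n v).comp hm).aestronglyMeasurable 1
          (Filter.Eventually.of_forall fun A => ?_)
        simp only [Real.norm_eq_abs]
        rw [abs_of_nonneg (limRule_nonneg hΦ0 v0 n v A _)]
        exact limRule_le_one hΦm hΦ0 hΦ1 v0 n v A _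
      have hi2 : Integrable (fun A => Φ v A (obs A s)) (rowsM d (2 * a)) := by
        have hm : Measurable fun A : Rows d (2 * a) => (A, s) :=
          measurable_id.prodMk measurable_const
        refine Integrable.of_bound ((measurable_Φ_pair hΦm v).comp hm).aestronglyMeasurable 1
          (Filter.Eventually.of_forall fun A => ?_)
        simp only [Real.norm_eq_abs]
        rw [abs_of_nonneg (hΦ0 v A _)]
        exact Φ_le_one hΦ0 hΦ1 v A _
      beta_reduce
      rw [← mul_sub, ← integral_sub hi1 hi2, abs_mul, abs_of_nonneg (hf.nonneg s)]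
      calc _ ≤ f s * ∫ A, |limRule Φ v0 n v A (cell n A s) - Φ v A (obs A s)| ∂(rowsM d (2 * a)) :=
            mul_le_mul_of_nonneg_left (abs_integral_le_integral_abs) (hf.nonneg s)
        _ ≤ _ := mul_le_mul_of_nonneg_right (hF' s) (integral_nonneg fun _ => abs_nonneg _)
    have hT := ENNReal.tendsto_ofReal
      (((tendsto_finsetSum Finset.univ fun v _ => hlim v).sub_const
        (Psi (fibO J (𝓡.act R)) (sphereM d) f)).sub_const
        ((2 / (2 * (a : ℝ) + 1)) * log (Fintype.card V)))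
    rw [← hT.liminf_eq]
    exact liminf_le_liminf ((eventually_ge_atTop n₀).mono fun n hn =>
      hEcell n hn (limRule Φ v0 n) (fun v => measurable_limRule hΦm v0 n v)
        (fun v A i => limRule_nonneg hΦ0 v0 n v A i)
        (fun A i => limRule_sum hΦm hΦ0 hΦ1 v0 n A i) R)


end Vale.Agent.P309F
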